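import Vale.Agent.P083.Model

/-!
# P083: a Cuntz pair exists on a separable Hilbert space

On `l2 ℕ`, the isometries `e n ↦ e (2 n + i)`, `i = 0, 1`.
-/

namespace Vale.P083.CuntzPair

open Model

noncomputable section

/-- The branch `i` of the doubling map. -/
def branch (i : Fin 2) (n : ℕ) : ℕ := 2 * n + i

theorem branch_injective (i : Fin 2) : Function.Injective (branch i) := fun m n h => by
  simp only [branch] at h
  omega

theorem branch_ne {i j : Fin 2} (h : i ≠ j) (m n : ℕ) : branch i m ≠ branch j n := fun he => by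
  simp only [branch] at he
  have := i.isLt
  have := j.isLt
  exact h (Fin.ext (by omega))

/-- The pair. -/
def pair (i : Fin 2) : Hs ℕ →L[ℂ] Hs ℕ := pop (branch i) (branch_injective i)

theorem star_pair_bv (i j : Fin 2) (n : ℕ) :
    star (pair i) (bv (branch j n)) = if i = j then bv n else 0 := by
  rw [show bv (branch j n) = pair j (bv n) from (pop_bv _ _ _).symm,
    ← ContinuousLinearMap.comp_apply, ← ContinuousLinearMap.mul_def]
  split_ifs with h
  · subst h
    rw [pair, star_pop_mul_self]
    rfl
  · rw [pair, pair, star_pop_mul_eq_zero _ _ (branch_ne h)]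
    rfl

theorem pair_isCuntzPair : IsCuntzPair pair where
  iso i := star_pop_mul_self _ _
  sum_range := pop_ext fun m => by
    obtain ⟨j, n, rfl⟩ : ∃ j n, m = branch j n :=
      ⟨⟨m % 2, Nat.mod_lt _ two_pos⟩, m / 2, by simp only [branch]; omega⟩
    simp only [add_apply, ContinuousLinearMap.mul_def, ContinuousLinearMap.comp_apply,
      star_pair_bv, ContinuousLinearMap.one_def, ContinuousLinearMap.id_apply]
    fin_cases j <;> simp [pair, pop_bv]

theorem separable : TopologicalSpace.SeparableSpace (Hs ℕ) := by
  rw [← TopologicalSpace.isSeparable_univ_iff]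
  have hd : closure (Submodule.span ℂ (Set.range (bv : ℕ → Hs ℕ)) : Set (Hs ℕ)) = Set.univ := by
    refine Set.eq_univ_iff_forall.2 fun x => ?_
    have hx := lp.hasSum_single (E := fun _ : ℕ => ℂ) (p := 2) (by norm_num) x
    refine mem_closure_of_tendsto hx (Filter.Eventually.of_forall fun s => ?_)
    refine Submodule.sum_mem _ fun i _ => ?_
    have hi : lp.single (E := fun _ : ℕ => ℂ) 2 i (x i) = x i • bv i := by
      rw [bv, ← lp.single_smul]; simp
    rw [hi]
    exact Submodule.smul_mem _ _ (Submodule.subset_span ⟨i, rfl⟩)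
  rw [← hd]
  exact ((Set.countable_range _).isSeparable.span).closure

/-- A Cuntz pair on a nontrivial separable Hilbert space exists. -/
theorem exists_pair : ∃ (H : Type) (_ : NormedAddCommGroup H) (_ : InnerProductSpace ℂ H)
    (_ : CompleteSpace H), Nontrivial H ∧ TopologicalSpace.SeparableSpace H ∧
      ∃ t : Fin 2 → (H →L[ℂ] H), IsCuntzPair t :=
  ⟨Hs ℕ, inferInstance, inferInstance, inferInstance,
    ⟨bv 0, 0, bv_orthonormal.ne_zero 0⟩, separable, pair, pair_isCuntzPair⟩

end

end Vale.P083.CuntzPair
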