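import Mathlib

/-!
# P083: shared definitions

An elementary disproof of Kirchberg's embedding problem.

`Sol R` is a candidate solution, in a star ring `R`, of the finite relation system `Rel η`:
four families `x i` of unitaries indexed by `ZMod 11` (`A`, `B`, `C`, `τ`), four auxiliary
central families `z k`, the sections `s a` and an isometry `v` fixed by the `x i`.
-/

namespace Vale.P083

open scoped ComplexConjugate

/-- The scalar field with eleven elements. -/
abbrev F := ZMod 11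

/-- Digits. -/
abbrev V := F × F × F

/-- A candidate solution of the relation system. -/
structure Sol (R : Type*) where
  x : Fin 4 → F → R
  z : Fin 4 → F → R
  s : V → R
  v : R

/-- The four Heisenberg pairs `(A,B)`, `(B,C)`, `(C,A)`, `(B,τ)`. -/
def pr : Fin 4 → Fin 4 × Fin 4 := ![(0, 1), (1, 2), (2, 0), (1, 3)]

/-- Action of `A c` on the labels of the sections. -/
def labA (c : F) (a : V) : V := (a.1 + c * a.2.1, a.2.1, a.2.2)

/-- Action of `B c` on the labels of the sections. -/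
def labB (c : F) (a : V) : V := (a.1, a.2.1 + c * a.2.2, a.2.2)

/-- Action of `τ c` on the labels of the sections. -/
def labT (c : F) (a : V) : V := (a.1, a.2.1, a.2.2 + c)

section Rel

variable {R : Type*} [NormedRing R] [Star R]

/-- The group part of the relations, up to `η`. -/
structure GRel (η : ℝ) (x z : Fin 4 → F → R) : Prop where
  norm_x : ∀ i c, ‖x i c‖ ≤ 1
  norm_z : ∀ k c, ‖z k c‖ ≤ 1
  iso_x : ∀ i c, ‖star (x i c) * x i c - 1‖ ≤ η
  iso_z : ∀ k c, ‖star (z k c) * z k c - 1‖ ≤ η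
  add_x : ∀ i c d, ‖x i c * x i d - x i (c + d)‖ ≤ η
  add_z : ∀ k c d, ‖z k c * z k d - z k (c + d)‖ ≤ η
  heis : ∀ k c d,
    ‖x (pr k).1 c * x (pr k).2 d - x (pr k).2 d * x (pr k).1 c * z k (c * d)‖ ≤ η
  zfst : ∀ k c e, ‖z k e * x (pr k).1 c - x (pr k).1 c * z k e‖ ≤ η
  zsnd : ∀ k d e, ‖z k e * x (pr k).2 d - x (pr k).2 d * z k e‖ ≤ η
  commAT : ∀ c d, ‖x 0 c * x 3 d - x 3 d * x 0 c‖ ≤ η
  commCT : ∀ c d, ‖x 2 c * x 3 d - x 3 d * x 2 c‖ ≤ η

/-- The whole relation system, up to `η`. -/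
structure Rel (η : ℝ) (S : Sol R) : Prop where
  grp : GRel η S.x S.z
  norm_s : ∀ a, ‖S.s a‖ ≤ 1
  norm_v : ‖S.v‖ ≤ 1
  orth : ∀ a b, ‖star (S.s a) * S.s b - (if a = b then 1 else 0)‖ ≤ η
  iso_v : ‖star S.v * S.v - 1‖ ≤ η
  fix_v : ∀ i c, ‖S.x i c * S.v - S.v‖ ≤ η
  secA : ∀ c a, ‖S.x 0 c * S.s a - S.s (labA c a) * S.x 0 c‖ ≤ η
  secB : ∀ c a, ‖S.x 1 c * S.s a - S.s (labB c a) * S.x 1 c‖ ≤ η
  secC : ∀ c a, ‖S.x 2 c * S.s a - S.s a * S.x 3 (c * a.1) * S.x 2 c‖ ≤ η
  secT : ∀ c a, ‖S.x 3 c * S.s a - S.s (labT c a)‖ ≤ η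

end Rel

section L2

/-- Square summable functions on a finite set with values in a normed space. -/
abbrev L2 (W : Type) (H : Type) := PiLp 2 (fun _ : W => H)

variable {W H : Type} [Fintype W] [NormedAddCommGroup H] [InnerProductSpace ℂ H]

/-- Monomial operator with coefficient: `(mop π φ x f) (π b) = φ b • x (f b)`. -/
noncomputable def mop (π : W ≃ W) (φ : W → ℂ) (x : H →L[ℂ] H) : L2 W H →L[ℂ] L2 W H :=
  ((PiLp.continuousLinearEquiv 2 ℂ (fun _ : W => H)).symm :
      (W → H) →L[ℂ] L2 W H).comp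
    ((ContinuousLinearMap.pi fun b =>
        φ (π.symm b) • x.comp (ContinuousLinearMap.proj (π.symm b))).comp
      ((PiLp.continuousLinearEquiv 2 ℂ (fun _ : W => H)) : L2 W H →L[ℂ] (W → H)))

lemma mop_apply (π : W ≃ W) (φ : W → ℂ) (x : H →L[ℂ] H) (f : L2 W H) (b : W) :
    mop π φ x f b = φ (π.symm b) • x (f (π.symm b)) := by
  simp [mop]

lemma mop_apply_map (π : W ≃ W) (φ : W → ℂ) (x : H →L[ℂ] H) (f : L2 W H) (b : W) :
    mop π φ x f (π b) = φ b • x (f b) := by
  simp [mop_apply]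

/-- Total displacement of a vector by the four families. -/
noncomputable def disp (x : Fin 4 → F → (H →L[ℂ] H)) (v : H) : ℝ :=
  ∑ i, ∑ c, ‖x i c v - v‖ ^ 2

end L2

section Dual

/-- Digit sequences of length `n + 1`. -/
abbrev Dg (n : ℕ) := Fin (n + 1) → V

/-- Level `n`: sequences with nonzero top digit. -/
abbrev W (n : ℕ) := {b : Dg n // b (Fin.last n) ≠ 0}

/-- The next digit, or zero. -/
def nxt {n : ℕ} (b : Dg n) (m : Fin (n + 1)) : V :=
  if h : (m : ℕ) + 1 < n + 1 then b ⟨m + 1, h⟩ else 0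

lemma nxt_last {n : ℕ} (b : Dg n) : nxt b (Fin.last n) = 0 := by
  simp [nxt]

/-- The four dual actions on digit sequences. -/
def act {n : ℕ} : Fin 4 → F → Dg n → Dg n :=
  ![fun c b m => ((b m).1, (b m).2.1 - c * (b m).1, (b m).2.2),
    fun c b m => ((b m).1, (b m).2.1, (b m).2.2 - c * (b m).2.1),
    fun c b m => ((b m).1 - c * (nxt b m).2.2, (b m).2.1, (b m).2.2),
    fun _ b => b]

/-- The dual actions of the auxiliary families. -/
def actz {n : ℕ} : Fin 4 → F → Dg n → Dg n :=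
  ![fun c b m => ((b m).1, (b m).2.1, (b m).2.2 - c * (b m).1),
    fun c b m => ((b m).1 - c * (nxt b m).2.1, (b m).2.1, (b m).2.2),
    fun c b m => ((b m).1, (b m).2.1 - c * (nxt b m).2.2, (b m).2.2),
    fun _ b => b]

lemma act_inv {n : ℕ} (i : Fin 4) (c : F) (b : Dg n) : act i (-c) (act i c b) = b := by
  fin_cases i <;> funext m <;> simp [act, nxt] <;> split <;> simp [act]

lemma actz_inv {n : ℕ} (i : Fin 4) (c : F) (b : Dg n) : actz i (-c) (actz i c b) = b := by
  fin_cases i <;> funext m <;> simp [actz, nxt] <;> split <;> simp [actz]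

lemma act_last {n : ℕ} (i : Fin 4) (c : F) (b : Dg n) (h : act i c b (Fin.last n) = 0) :
    b (Fin.last n) = 0 := by
  fin_cases i <;> simp [act, nxt_last, Prod.ext_iff] at h ⊢ <;> grind

lemma actz_last {n : ℕ} (i : Fin 4) (c : F) (b : Dg n) (h : actz i c b (Fin.last n) = 0) :
    b (Fin.last n) = 0 := by
  fin_cases i <;> simp [actz, nxt_last, Prod.ext_iff] at h ⊢ <;> grind

/-- The permutation of level `n` given by `x i c`. -/
def perm (n : ℕ) (i : Fin 4) (c : F) : W n ≃ W n where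
  toFun b := ⟨act i c b.1, fun h => b.2 (act_last i c b.1 h)⟩
  invFun b := ⟨act i (-c) b.1, fun h => b.2 (act_last i (-c) b.1 h)⟩
  left_inv b := Subtype.ext (act_inv i c b.1)
  right_inv b := Subtype.ext (by simpa using act_inv i (-c) b.1)

/-- The permutation of level `n` given by `z k c`. -/
def permz (n : ℕ) (k : Fin 4) (c : F) : W n ≃ W n where
  toFun b := ⟨actz k c b.1, fun h => b.2 (actz_last k c b.1 h)⟩
  invFun b := ⟨actz k (-c) b.1, fun h => b.2 (actz_last k (-c) b.1 h)⟩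
  left_inv b := Subtype.ext (actz_inv k c b.1)
  right_inv b := Subtype.ext (by simpa using actz_inv k (-c) b.1)

/-- The standard character of `ZMod 11`. -/
noncomputable def chi (c : F) : ℂ := (ZMod.toCircle c : ℂ)

/-- Phases of `x i c` on level `n`. -/
noncomputable def ph (n : ℕ) (i : Fin 4) (c : F) (b : W n) : ℂ :=
  if i = 3 then chi (-(c * (b.1 0).2.2)) else 1

/-- Phases of `z k c` on level `n`. -/
noncomputable def phz (n : ℕ) (k : Fin 4) (c : F) (b : W n) : ℂ :=
  if k = 3 then chi (-(c * (b.1 0).2.1)) else 1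

variable {H : Type} [NormedAddCommGroup H] [InnerProductSpace ℂ H]

/-- The tensor product of `x i c` with its action on level `n`. -/
noncomputable def Ux (n : ℕ) (x : Fin 4 → F → (H →L[ℂ] H)) (i : Fin 4) (c : F) :
    L2 (W n) H →L[ℂ] L2 (W n) H :=
  mop (perm n i c) (ph n i c) (x i c)

/-- The tensor product of `z k c` with its action on level `n`. -/
noncomputable def Uz (n : ℕ) (z : Fin 4 → F → (H →L[ℂ] H)) (k : Fin 4) (c : F) :
    L2 (W n) H →L[ℂ] L2 (W n) H :=
  mop (permz n k c) (phz n k c) (z k c)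

end Dual

section Cuntz

variable {R : Type*} [Ring R] [Star R]

/-- A Cuntz pair: two isometries with range projections summing to `1`. -/
structure IsCuntzPair (t : Fin 2 → R) : Prop where
  iso : ∀ i, star (t i) * t i = 1
  sum_range : t 0 * star (t 0) + t 1 * star (t 1) = 1

end Cuntz

end Vale.P083
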