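import Vale.Agent.P083.Defs

/-!
# P083: algebra of monomial operators on `L2 W H`
-/

namespace Vale.P083

open scoped ComplexConjugate

variable {W H : Type} [Fintype W] [NormedAddCommGroup H] [InnerProductSpace ℂ H]

lemma norm_sq_L2 (f : L2 W H) : ‖f‖ ^ 2 = ∑ b, ‖f b‖ ^ 2 :=
  PiLp.norm_sq_eq_of_L2 _ f

lemma mop_ext {S T : L2 W H →L[ℂ] L2 W H} (h : ∀ f b, S f b = T f b) : S = T := by
  ext f b
  exact h f b

lemma mop_mul (π π' : W ≃ W) (φ φ' : W → ℂ) (x x' : H →L[ℂ] H) :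
    mop π φ x * mop π' φ' x' = mop (π'.trans π) (fun b => φ (π' b) * φ' b) (x * x') := by
  refine mop_ext fun f b => ?_
  simp [ContinuousLinearMap.mul_apply, mop_apply, mul_smul, map_smul]

lemma mop_one : mop (Equiv.refl W) (fun _ => 1) (1 : H →L[ℂ] H) = 1 := by
  refine mop_ext fun f b => ?_
  simp [mop_apply]

lemma mop_sub (π : W ≃ W) (φ : W → ℂ) (x x' : H →L[ℂ] H) :
    mop π φ (x - x') = mop π φ x - mop π φ x' := by
  refine mop_ext fun f b => ?_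
  simp [mop_apply, smul_sub]

lemma mop_add (π : W ≃ W) (φ : W → ℂ) (x x' : H →L[ℂ] H) :
    mop π φ (x + x') = mop π φ x + mop π φ x' := by
  refine mop_ext fun f b => ?_
  simp [mop_apply, smul_add]

lemma mop_smul (π : W ≃ W) (φ : W → ℂ) (r : ℂ) (x : H →L[ℂ] H) :
    mop π φ (r • x) = r • mop π φ x := by
  refine mop_ext fun f b => ?_
  simp [mop_apply, smul_comm r]

lemma mop_congr {π π' : W ≃ W} {φ φ' : W → ℂ} (x : H →L[ℂ] H)
    (hπ : ∀ b, π b = π' b) (hφ : ∀ b, φ b = φ' b) : mop π φ x = mop π' φ' x := by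
  rw [Equiv.ext hπ, funext hφ]

lemma norm_sq_mop_apply (π : W ≃ W) (φ : W → ℂ) (hφ : ∀ b, ‖φ b‖ = 1) (x : H →L[ℂ] H)
    (f : L2 W H) : ‖mop π φ x f‖ ^ 2 = ∑ b, ‖x (f b)‖ ^ 2 := by
  rw [norm_sq_L2, ← Equiv.sum_comp π]
  simp [mop_apply_map, norm_smul, hφ]

lemma norm_mop_le (π : W ≃ W) (φ : W → ℂ) (hφ : ∀ b, ‖φ b‖ = 1) (x : H →L[ℂ] H) :
    ‖mop π φ x‖ ≤ ‖x‖ := by
  refine ContinuousLinearMap.opNorm_le_bound _ (norm_nonneg x) fun f => ?_
  refine (sq_le_sq₀ (norm_nonneg _) (by positivity)).1 ?_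
  rw [norm_sq_mop_apply π φ hφ, mul_pow, norm_sq_L2 f, Finset.mul_sum]
  refine Finset.sum_le_sum fun b _ => ?_
  rw [← mul_pow]
  exact pow_le_pow_left₀ (norm_nonneg _) (x.le_opNorm _) 2

lemma norm_mop_sub_le (π : W ≃ W) (φ : W → ℂ) (hφ : ∀ b, ‖φ b‖ = 1) (x x' : H →L[ℂ] H) :
    ‖mop π φ x - mop π φ x'‖ ≤ ‖x - x'‖ := by
  rw [← mop_sub]
  exact norm_mop_le π φ hφ _

variable [CompleteSpace H]

lemma star_mop (π : W ≃ W) (φ : W → ℂ) (x : H →L[ℂ] H) :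
    star (mop π φ x) = mop π.symm (fun b => conj (φ (π.symm b))) (star x) := by
  rw [ContinuousLinearMap.star_eq_adjoint]
  symm
  rw [ContinuousLinearMap.eq_adjoint_iff]
  intro f g
  simp only [PiLp.inner_apply]
  rw [← Equiv.sum_comp π.symm (fun b => inner ℂ (mop π.symm _ (star x) f b) (g b))]
  refine Finset.sum_congr rfl fun b _ => ?_
  rw [mop_apply, mop_apply, inner_smul_left, inner_smul_right, Equiv.symm_symm]
  simp [ContinuousLinearMap.star_eq_adjoint, ContinuousLinearMap.adjoint_inner_left]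

lemma norm_chi (c : F) : ‖chi c‖ = 1 := Circle.norm_coe _

lemma chi_add (c d : F) : chi (c + d) = chi c * chi d := by
  simp [chi, AddChar.map_add_eq_mul]

lemma chi_zero : chi 0 = 1 := by simp [chi]

lemma conj_chi (c : F) : conj (chi c) = chi (-c) := by
  rw [chi, chi, AddChar.map_neg_eq_inv, Circle.coe_inv_eq_conj]

lemma norm_ph (n : ℕ) (i : Fin 4) (c : F) (b : Vale.P083.W n) : ‖ph n i c b‖ = 1 := by
  rw [ph]; split <;> simp [norm_chi]

lemma norm_phz (n : ℕ) (k : Fin 4) (c : F) (b : Vale.P083.W n) : ‖phz n k c b‖ = 1 := by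
  rw [phz]; split <;> simp [norm_chi]

end Vale.P083
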