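import Vale.Agent.P083.Spec
import Vale.Agent.P083.Mop

/-!
# P083 M2: relations on every level, and invariant kernels
-/

namespace Vale.P083

open scoped ComplexConjugate

/-! ### Actions -/

lemma act_add {n : ℕ} (i : Fin 4) (c d : F) (b : Dg n) :
    act i c (act i d b) = act i (c + d) b := by
  fin_cases i <;> funext m <;> simp [act, nxt] <;> (try split) <;> (try simp) <;> (try constructor) <;> ring

lemma actz_add {n : ℕ} (i : Fin 4) (c d : F) (b : Dg n) :
    actz i c (actz i d b) = actz i (c + d) b := by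
  fin_cases i <;> funext m <;> simp [actz, nxt] <;> (try split) <;> (try simp) <;> (try constructor) <;> ring

lemma act_heis {n : ℕ} (k : Fin 4) (c d : F) (b : Dg n) :
    act (pr k).1 c (act (pr k).2 d b) = act (pr k).2 d (act (pr k).1 c (actz k (c * d) b)) := by
  fin_cases k <;> funext m <;> simp [pr, act, actz, nxt] <;> (try split) <;> (try simp) <;> (try constructor) <;> ring

lemma act_zfst {n : ℕ} (k : Fin 4) (c e : F) (b : Dg n) :
    actz k e (act (pr k).1 c b) = act (pr k).1 c (actz k e b) := by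
  fin_cases k <;> funext m <;> simp [pr, act, actz, nxt] <;> (try split) <;> (try simp) <;> (try constructor) <;> ring

lemma act_zsnd {n : ℕ} (k : Fin 4) (d e : F) (b : Dg n) :
    actz k e (act (pr k).2 d b) = act (pr k).2 d (actz k e b) := by
  fin_cases k <;> funext m <;> simp [pr, act, actz, nxt] <;> (try split) <;> (try simp) <;> (try constructor) <;> ring

/-! ### Phases -/

lemma ph_add (n : ℕ) (i : Fin 4) (c d : F) (b : W n) :
    ph n i c (perm n i d b) * ph n i d b = ph n i (c + d) b := by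
  by_cases h : i = 3
  · subst h
    simp [ph, perm, act, ← chi_add]
    ring_nf
  · simp [ph, h]

lemma phz_add (n : ℕ) (k : Fin 4) (c d : F) (b : W n) :
    phz n k c (permz n k d b) * phz n k d b = phz n k (c + d) b := by
  by_cases h : k = 3
  · subst h
    simp [phz, permz, actz, ← chi_add]
    ring_nf
  · simp [phz, h]

lemma ph_heis (n : ℕ) (k : Fin 4) (c d : F) (b : W n) :
    ph n (pr k).1 c (perm n (pr k).2 d b) * ph n (pr k).2 d b =
      ph n (pr k).2 d (perm n (pr k).1 c (permz n k (c * d) b)) *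
        ph n (pr k).1 c (permz n k (c * d) b) * phz n k (c * d) b := by
  fin_cases k <;> simp [pr, ph, phz, perm, permz, act, actz, ← chi_add]
  ring_nf

lemma ph_zfst (n : ℕ) (k : Fin 4) (c e : F) (b : W n) :
    phz n k e (perm n (pr k).1 c b) * ph n (pr k).1 c b =
      ph n (pr k).1 c (permz n k e b) * phz n k e b := by
  fin_cases k <;> simp [pr, ph, phz, perm, permz, act, actz]

lemma ph_zsnd (n : ℕ) (k : Fin 4) (d e : F) (b : W n) :
    phz n k e (perm n (pr k).2 d b) * ph n (pr k).2 d b =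
      ph n (pr k).2 d (permz n k e b) * phz n k e b := by
  fin_cases k <;> simp [pr, ph, phz, perm, permz, act, actz, ← chi_add]
  ring_nf

lemma ph_commT (n : ℕ) (i : Fin 4) (hi : i = 0 ∨ i = 2) (c d : F) (b : W n) :
    ph n i c (perm n 3 d b) * ph n 3 d b = ph n 3 d (perm n i c b) * ph n i c b := by
  rcases hi with rfl | rfl <;> simp [ph, perm, act]

lemma act_commT {n : ℕ} (i : Fin 4) (c d : F) (b : Dg n) :
    act i c (act 3 d b) = act 3 d (act i c b) := rfl

/-! ### The relations on a level -/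

variable {H : Type} [NormedAddCommGroup H] [InnerProductSpace ℂ H]

lemma norm_mop_comm_le {W : Type} [Fintype W] {π₁ π₂ π₃ π₄ : W ≃ W} {φ₁ φ₂ φ₃ φ₄ : W → ℂ}
    {x₁ x₂ x₃ x₄ : H →L[ℂ] H} (hπ : ∀ b, π₁ (π₂ b) = π₃ (π₄ b))
    (hφ : ∀ b, φ₁ (π₂ b) * φ₂ b = φ₃ (π₄ b) * φ₄ b)
    (h₁ : ∀ b, ‖φ₁ b‖ = 1) (h₂ : ∀ b, ‖φ₂ b‖ = 1) {η : ℝ} (hx : ‖x₁ * x₂ - x₃ * x₄‖ ≤ η) :
    ‖mop π₁ φ₁ x₁ * mop π₂ φ₂ x₂ - mop π₃ φ₃ x₃ * mop π₄ φ₄ x₄‖ ≤ η := by
  rw [mop_mul, mop_mul, mop_congr (x₃ * x₄) (π' := π₂.trans π₁)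
    (φ' := fun b => φ₁ (π₂ b) * φ₂ b) (fun b => (hπ b).symm) (fun b => (hφ b).symm)]
  exact (norm_mop_sub_le _ _ (fun b => by simp [h₁, h₂]) _ _).trans hx

variable [CompleteSpace H]

lemma norm_mop_iso_le {W : Type} [Fintype W] {π : W ≃ W} {φ : W → ℂ} {x : H →L[ℂ] H}
    (h : ∀ b, ‖φ b‖ = 1) {η : ℝ} (hx : ‖star x * x - 1‖ ≤ η) :
    ‖star (mop π φ x) * mop π φ x - 1‖ ≤ η := by
  rw [star_mop, mop_mul, ← mop_one, mop_congr (star x * x) (π' := Equiv.refl W) (φ' := fun _ => 1)
    (fun b => π.symm_apply_apply b)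
    (fun b => by simp [mul_comm (conj (φ b)), Complex.mul_conj', h b])]
  exact (norm_mop_sub_le _ _ (fun _ => norm_one) _ _).trans hx

/-- The relations survive tensoring with level `n`, with the phases pushed through `g`. -/
lemma grel_level {η : ℝ} {x z : Fin 4 → F → (H →L[ℂ] H)} (h : GRel η x z) (n : ℕ)
    (g : ℂ →* ℂ) (hg : ∀ a, ‖g a‖ = ‖a‖) :
    GRel η (fun i c => mop (perm n i c) (fun b => g (ph n i c b)) (x i c))
      (fun k c => mop (permz n k c) (fun b => g (phz n k c b)) (z k c)) := by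
  have hp : ∀ i c b, ‖g (ph n i c b)‖ = 1 := fun i c b => by rw [hg, norm_ph]
  have hz : ∀ k c b, ‖g (phz n k c b)‖ = 1 := fun k c b => by rw [hg, norm_phz]
  constructor
  · exact fun i c => (norm_mop_le _ _ (hp i c) _).trans (h.norm_x i c)
  · exact fun k c => (norm_mop_le _ _ (hz k c) _).trans (h.norm_z k c)
  · exact fun i c => norm_mop_iso_le (hp i c) (h.iso_x i c)
  · exact fun k c => norm_mop_iso_le (hz k c) (h.iso_z k c)
  · intro i c d
    rw [mop_mul, mop_congr (x i c * x i d) (π' := perm n i (c + d))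
      (φ' := fun b => g (ph n i (c + d) b)) (fun b => Subtype.ext (act_add i c d b.1))
      (fun b => by rw [← map_mul, ph_add])]
    exact (norm_mop_sub_le _ _ (hp i _) _ _).trans (h.add_x i c d)
  · intro k c d
    rw [mop_mul, mop_congr (z k c * z k d) (π' := permz n k (c + d))
      (φ' := fun b => g (phz n k (c + d) b)) (fun b => Subtype.ext (actz_add k c d b.1))
      (fun b => by rw [← map_mul, phz_add])]
    exact (norm_mop_sub_le _ _ (hz k _) _ _).trans (h.add_z k c d)
  · intro k c d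
    rw [mop_mul, mop_mul, mop_mul, mop_congr (x (pr k).2 d * x (pr k).1 c * z k (c * d))
      (π' := (perm n (pr k).2 d).trans (perm n (pr k).1 c))
      (φ' := fun b => g (ph n (pr k).1 c (perm n (pr k).2 d b)) * g (ph n (pr k).2 d b))
      (fun b => Subtype.ext (act_heis k c d b.1).symm)
      (fun b => by simp only [Equiv.trans_apply, ← map_mul, ph_heis, mul_assoc])]
    exact (norm_mop_sub_le _ _ (fun b => by simp [hp]) _ _).trans (h.heis k c d)
  · intro k c e
    exact norm_mop_comm_le (fun b => Subtype.ext (act_zfst k c e b.1))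
      (fun b => by rw [← map_mul, ← map_mul, ph_zfst]) (hz k e) (hp _ c) (h.zfst k c e)
  · intro k d e
    exact norm_mop_comm_le (fun b => Subtype.ext (act_zsnd k d e b.1))
      (fun b => by rw [← map_mul, ← map_mul, ph_zsnd]) (hz k e) (hp _ d) (h.zsnd k d e)
  · intro c d
    exact norm_mop_comm_le (fun b => Subtype.ext (act_commT 0 c d b.1))
      (fun b => by rw [← map_mul, ← map_mul, ph_commT n 0 (Or.inl rfl)]) (hp 0 c) (hp 3 d)
      (h.commAT c d)
  · intro c d
    exact norm_mop_comm_le (fun b => Subtype.ext (act_commT 2 c d b.1))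
      (fun b => by rw [← map_mul, ← map_mul, ph_commT n 2 (Or.inr rfl)]) (hp 2 c) (hp 3 d)
      (h.commCT c d)

theorem grelLevel : GRelLevelSpec := fun H _ _ _ η x z h n =>
  ⟨grel_level h n (MonoidHom.id ℂ) fun _ => rfl,
    grel_level h n (starRingEnd ℂ).toMonoidHom fun a => RCLike.norm_conj a⟩

/-! ### Invariant kernels -/

lemma chi_eq_one {c : F} (h : chi c = 1) : c = 0 := by
  apply ZMod.injective_toCircle
  rw [AddChar.map_zero_eq_one]
  exact Circle.ext h

/-- The action is linear. -/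
lemma act_map_add {n : ℕ} (i : Fin 4) (c : F) (b b' : Dg n) :
    act i c (b + b') = act i c b + act i c b' := by
  fin_cases i <;> funext m <;> simp [act, nxt] <;> (try split) <;> (try simp) <;> (try constructor) <;> ring

lemma act_map_smul {n : ℕ} (i : Fin 4) (c r : F) (b : Dg n) :
    act i c (r • b) = r • act i c b := by
  fin_cases i <;> funext m <;> simp [act, nxt] <;> (try split) <;> (try simp) <;> (try constructor) <;> ring

lemma act_map_zero {n : ℕ} (i : Fin 4) (c : F) : act i c (0 : Dg n) = 0 := by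
  simpa using act_map_smul i c 0 (0 : Dg n)

/-- The orbit relation on level `n`. -/
def Step (n : ℕ) (b b' : W n) : Prop := ∃ i c, perm n i c b = b'

/-- Orbits are long. -/
lemma card_orbit (n : ℕ) (b : W n) (O : Finset (W n)) (hb : b ∈ O)
    (hO : ∀ i c, ∀ b' ∈ O, perm n i c b' ∈ O) : n + 1 ≤ O.card := by
  classical
  haveI : Fact (Nat.Prime 11) := ⟨by norm_num⟩
  set s : Finset (Dg n) := O.image Subtype.val with hs
  set U : Submodule F (Dg n) := Submodule.span F (s : Set (Dg n)) with hU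
  have hact : ∀ i c u, u ∈ U → act i c u ∈ U := by
    intro i c u hu
    induction hu using Submodule.span_induction with
    | mem u hu =>
      obtain ⟨w, hw, rfl⟩ := Finset.mem_image.1 hu
      exact Submodule.subset_span (Finset.mem_image.2 ⟨perm n i c w, hO i c w hw, rfl⟩)
    | zero => rw [act_map_zero]; exact U.zero_mem
    | add u u' _ _ hu hu' => rw [act_map_add]; exact U.add_mem hu hu'
    | smul r u _ hu => rw [act_map_smul]; exact U.smul_mem r hu
  have hdiff : ∀ i u, u ∈ U → act i 1 u - u ∈ U := fun i u hu => U.sub_mem (hact i 1 u hu) hu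
  have top : ∀ j : Fin (n + 1), ∃ u ∈ U, u j ≠ 0 ∧ ∀ m, j < m → u m = 0 := by
    intro j
    induction j using Fin.reverseInduction with
    | last =>
      exact ⟨b.1, Submodule.subset_span (Finset.mem_image.2 ⟨b, hb, rfl⟩), b.2,
        fun m hm => absurd hm (not_lt.2 m.le_last)⟩
    | cast j ih =>
      have stepC : ∀ u ∈ U, (u j.succ).2.2 ≠ 0 → (∀ m, j.succ < m → u m = 0) →
          ∃ u' ∈ U, u' j.castSucc ≠ 0 ∧ ∀ m, j.castSucc < m → u' m = 0 := by
        intro u hu h3 h0
        refine ⟨_, hdiff 2 u hu, ?_, fun m hm => ?_⟩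
        · simp [act, nxt, Prod.ext_iff]
          exact h3
        · by_cases hlt : (m : ℕ) + 1 < n + 1
          · have hz := h0 ⟨(m : ℕ) + 1, hlt⟩ (by
              simp only [Fin.lt_def, Fin.val_succ, Fin.val_castSucc] at hm ⊢; omega)
            simp [act, nxt, show (m : ℕ) < n by omega, hz]
          · simp [act, nxt, show ¬ ((m : ℕ) < n) by omega]
      have stepB : ∀ u ∈ U, (u j.succ).2.1 ≠ 0 → (∀ m, j.succ < m → u m = 0) →
          ∃ u' ∈ U, u' j.castSucc ≠ 0 ∧ ∀ m, j.castSucc < m → u' m = 0 := fun u hu h2 h0 =>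
        stepC _ (hdiff 1 u hu) (by simpa [act] using h2) fun m hm => by simp [act, h0 m hm]
      obtain ⟨u, hu, hne, h0⟩ := ih
      by_cases h3 : (u j.succ).2.2 = 0
      · by_cases h2 : (u j.succ).2.1 = 0
        · refine stepB _ (hdiff 0 u hu) ?_ fun m hm => by simp [act, h0 m hm]
          have h1 : (u j.succ).1 ≠ 0 := fun h1 => hne (by ext <;> simp [h1, h2, h3])
          simpa [act] using h1
        · exact stepB u hu h2 h0
      · exact stepC u hu h3 h0
  choose u hu hne hzero using top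
  have hind : LinearIndependent F fun j => (⟨u j, hu j⟩ : U) := by
    refine Fintype.linearIndependent_iff.2 fun g hg => ?_
    by_contra hcon
    push Not at hcon
    have hne' : (Finset.univ.filter fun j => g j ≠ 0).Nonempty := by
      obtain ⟨j, hj⟩ := hcon
      exact ⟨j, by simp [hj]⟩
    obtain ⟨j, hj, hmax⟩ := Finset.exists_max_image _ id hne'
    simp only [Finset.mem_filter, Finset.mem_univ, true_and, id] at hj hmax
    have hval := congrArg (fun w : U => (w : Dg n) j) hg
    simp only [Submodule.coe_sum, Submodule.coe_smul, Finset.sum_apply, Pi.smul_apply,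
      Submodule.coe_zero, Pi.zero_apply] at hval
    rw [Finset.sum_eq_single j (fun k _ hk => ?_) (fun h => absurd (Finset.mem_univ j) h)] at hval
    · exact (smul_eq_zero.1 hval).elim hj (hne j)
    · rcases lt_or_gt_of_ne hk with hlt | hgt
      · rw [hzero k j hlt, smul_zero]
      · rw [show g k = 0 from by_contra fun h => absurd (hmax k h) (not_le.2 hgt), zero_smul]
  calc n + 1 = Fintype.card (Fin (n + 1)) := (Fintype.card_fin _).symm
    _ ≤ Module.finrank F U := hind.fintype_card_le_finrank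
    _ ≤ s.card := finrank_span_finset_le_card s
    _ ≤ O.card := Finset.card_image_le

theorem orbit : OrbitSpec := by
  intro n I hI
  classical
  have hne : ∀ i c b b', I b b' ≠ 0 → I (perm n i c b) (perm n i c b') ≠ 0 := by
    intro i c b b' h
    rw [hI]
    refine mul_ne_zero (mul_ne_zero ?_ ?_) h
    · intro hz; simpa [hz] using norm_ph n i c b
    · intro hz; simpa [norm_ph] using congrArg norm hz
  have h3 : ∀ b b', I b b' ≠ 0 → (b.1 0).2.2 = (b'.1 0).2.2 := by
    intro b b' h
    have hT : ∀ w, perm n 3 1 w = w := fun w => Subtype.ext rfl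
    have h1 := hI 3 1 b b'
    rw [hT, hT] at h1
    have h2 : ph n 3 1 b * conj (ph n 3 1 b') = 1 :=
      mul_right_cancel₀ h (h1.symm.trans (one_mul _).symm)
    simp [ph, conj_chi, ← chi_add] at h2
    exact sub_eq_zero.1 (by linear_combination -chi_eq_one h2)
  have hdig : ∀ m, ∀ hm : m < n + 1, ∀ b b', I b b' ≠ 0 →
      (b.1 ⟨m, hm⟩).2.2 = (b'.1 ⟨m, hm⟩).2.2 ∧ (b.1 ⟨m, hm⟩).2.1 = (b'.1 ⟨m, hm⟩).2.1 ∧
        (b.1 ⟨m, hm⟩).1 = (b'.1 ⟨m, hm⟩).1 := by
    intro m
    induction m with
    | zero =>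
      intro hm b b' h
      have e2 : ∀ w w', I w w' ≠ 0 → (w.1 ⟨0, hm⟩).2.1 = (w'.1 ⟨0, hm⟩).2.1 := by
        intro w w' hw
        have a := h3 _ _ (hne 1 1 w w' hw)
        simp [perm, act, h3 w w' hw] at a
        simpa using a
      refine ⟨h3 b b' h, e2 b b' h, ?_⟩
      have a := e2 _ _ (hne 0 1 b b' h)
      simp [perm, act] at a
      have := e2 b b' h
      simp at this
      simpa [this] using a
    | succ m ih =>
      intro hm b b' h
      have e3 : ∀ w w', I w w' ≠ 0 → (w.1 ⟨m + 1, hm⟩).2.2 = (w'.1 ⟨m + 1, hm⟩).2.2 := by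
        intro w w' hw
        have a := (ih (by omega) _ _ (hne 2 1 w w' hw)).2.2
        simp [perm, act, nxt, show m < n by omega, (ih (by omega) w w' hw).2.2] at a
        exact a
      have e2 : ∀ w w', I w w' ≠ 0 → (w.1 ⟨m + 1, hm⟩).2.1 = (w'.1 ⟨m + 1, hm⟩).2.1 := by
        intro w w' hw
        have a := e3 _ _ (hne 1 1 w w' hw)
        simpa [perm, act, e3 w w' hw] using a
      refine ⟨e3 b b' h, e2 b b' h, ?_⟩
      have a := e2 _ _ (hne 0 1 b b' h)
      simpa [perm, act, e2 b b' h] using a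
  refine ⟨fun b b' hbb => by_contra fun h => hbb (Subtype.ext (funext fun m => ?_)), fun b => ?_⟩
  · obtain ⟨a3, a2, a1⟩ := hdig m.1 m.2 b b' h
    exact Prod.ext a1 (Prod.ext a2 a3)
  set O : Finset (W n) := Finset.univ.filter fun b' => Relation.ReflTransGen (Step n) b b' with hO
  have hmem : ∀ b', b' ∈ O ↔ Relation.ReflTransGen (Step n) b b' := fun b' => by simp [hO]
  have hnorm : ∀ b' ∈ O, ‖I b' b'‖ = ‖I b b‖ := by
    intro b' hb'
    induction (hmem b').1 hb' with
    | refl => rfl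
    | tail h1 h2 ih =>
      obtain ⟨i, c, rfl⟩ := h2
      rw [← ih ((hmem _).2 h1), hI, norm_mul, norm_mul, Complex.norm_conj, norm_ph, one_mul, one_mul]
  have hcard : (n : ℝ) + 1 ≤ (O.card : ℝ) := by
    have := card_orbit n b O ((hmem b).2 Relation.ReflTransGen.refl)
      (fun i c b' hb' => (hmem _).2 (((hmem b').1 hb').tail ⟨i, c, rfl⟩))
    exact_mod_cast this
  calc ((n : ℝ) + 1) * ‖I b b‖ ^ 2 ≤ (O.card : ℝ) * ‖I b b‖ ^ 2 := by gcongr
    _ = ∑ b' ∈ O, ‖I b' b'‖ ^ 2 := by
      rw [Finset.sum_congr rfl (fun b' hb' => by rw [hnorm b' hb']), Finset.sum_const, nsmul_eq_mul]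
    _ ≤ ∑ b', ‖I b' b'‖ ^ 2 :=
      Finset.sum_le_sum_of_subset_of_nonneg (Finset.subset_univ _) fun _ _ _ => by positivity

end Vale.P083
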