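import Vale.Agent.P083.Spec
import Vale.Agent.P083.Mop

/-!
# P083, M6: bounded multiplicity admits no almost invariant vector at high levels

An almost invariant unit vector of `(monomial) ⊗ a` on `L2 W ℂ^d` is diagonalised as
`∑ sᵢ wᵢ ⊗ hᵢ`; the kernel `∑ sᵢ wᵢ wᵢ^*` is then almost invariant, hence close to an invariant
kernel, which is diagonal and spread over large orbits, while its trace is at most `√d`.
-/

namespace Vale.P083

open scoped ComplexConjugate InnerProductSpace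
open ContinuousLinearMap

section Orth

variable {Wt : Type} [Fintype Wt] {d : ℕ}

/-- Coordinates are orthogonal in `L2`. -/
def Orth (m : Fin d → Wt → ℂ) : Prop :=
  ∀ i j, i ≠ j → ∑ b, conj (m i b) * m j b = 0

/-- Squared length of a column. -/
noncomputable def sz (m : Fin d → Wt → ℂ) (i : Fin d) : ℝ :=
  Real.sqrt (∑ b, ‖m i b‖ ^ 2)

lemma sz_nonneg (m : Fin d → Wt → ℂ) (i : Fin d) : 0 ≤ sz m i := Real.sqrt_nonneg _

lemma sz_sq (m : Fin d → Wt → ℂ) (i : Fin d) : sz m i ^ 2 = ∑ b, ‖m i b‖ ^ 2 :=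
  Real.sq_sqrt (Finset.sum_nonneg fun _ _ => sq_nonneg _)

lemma sz_eq_zero {m : Fin d → Wt → ℂ} {i : Fin d} (h : sz m i = 0) (b : Wt) : m i b = 0 := by
  have h2 : ∑ b, ‖m i b‖ ^ 2 = 0 := by rw [← sz_sq, h]; simp
  have h3 := (Finset.sum_eq_zero_iff_of_nonneg fun b _ => sq_nonneg _).1 h2 b (Finset.mem_univ _)
  simpa using h3

lemma Orth.sum_norm_sq {m : Fin d → Wt → ℂ} (hm : Orth m) {G : Type*} [NormedAddCommGroup G]
    [InnerProductSpace ℂ G] (y : Fin d → G) :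
    ∑ b, ‖∑ i, m i b • y i‖ ^ 2 = ∑ i, sz m i ^ 2 * ‖y i‖ ^ 2 := by
  have key : ((∑ b, ‖∑ i, m i b • y i‖ ^ 2 : ℝ) : ℂ) =
      ((∑ i, sz m i ^ 2 * ‖y i‖ ^ 2 : ℝ) : ℂ) := by
    push_cast
    calc ∑ b, (‖∑ i, m i b • y i‖ : ℂ) ^ 2
        = ∑ b, ⟪∑ i, m i b • y i, ∑ i, m i b • y i⟫_ℂ := by
          refine Finset.sum_congr rfl fun b _ => ?_
          rw [inner_self_eq_norm_sq_to_K]
          rfl
      _ = ∑ b, ∑ i, ∑ j, (conj (m i b) * m j b) * ⟪y i, y j⟫_ℂ := by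
          refine Finset.sum_congr rfl fun b _ => ?_
          rw [sum_inner]
          refine Finset.sum_congr rfl fun i _ => ?_
          rw [inner_sum]
          refine Finset.sum_congr rfl fun j _ => ?_
          rw [inner_smul_left, inner_smul_right, mul_assoc]
      _ = ∑ i, ∑ j, (∑ b, conj (m i b) * m j b) * ⟪y i, y j⟫_ℂ := by
          rw [Finset.sum_comm]
          refine Finset.sum_congr rfl fun i _ => ?_
          rw [Finset.sum_comm]
          simp [Finset.sum_mul]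
      _ = _ := by
          refine Finset.sum_congr rfl fun i _ => ?_
          rw [Finset.sum_eq_single i (fun j _ hj => by rw [hm i j (Ne.symm hj), zero_mul])
            (fun h => absurd (Finset.mem_univ i) h)]
          have h1 : ∑ b, conj (m i b) * m i b = ((sz m i ^ 2 : ℝ) : ℂ) := by
            rw [sz_sq]; push_cast
            exact Finset.sum_congr rfl fun b _ => by rw [Complex.conj_mul']
          rw [h1, inner_self_eq_norm_sq_to_K]
          push_cast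
          rfl
  exact_mod_cast key

/-- The positive kernel `∑ᵢ mᵢ mᵢ^* / sᵢ`. -/
noncomputable def ker (m : Fin d → Wt → ℂ) (b b' : Wt) : ℂ :=
  ∑ i, m i b * conj (m i b') / (sz m i : ℂ)

lemma Orth.sum_norm_sq_ker {m : Fin d → Wt → ℂ} (hm : Orth m) :
    ∑ b', ∑ b, ‖ker m b b'‖ ^ 2 = ∑ i, sz m i ^ 2 := by
  calc ∑ b', ∑ b, ‖ker m b b'‖ ^ 2
      = ∑ b', ∑ i, sz m i ^ 2 * ‖conj (m i b') / (sz m i : ℂ)‖ ^ 2 := by
        refine Finset.sum_congr rfl fun b' _ => ?_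
        rw [← hm.sum_norm_sq (fun i => conj (m i b') / (sz m i : ℂ))]
        simp [ker, mul_div_assoc]
    _ = ∑ b', ∑ i, ‖m i b'‖ ^ 2 := by
        refine Finset.sum_congr rfl fun b' _ => Finset.sum_congr rfl fun i _ => ?_
        rcases eq_or_ne (sz m i) 0 with h | h
        · simp [h, sz_eq_zero h b']
        · simp [div_pow]; field_simp
    _ = ∑ i, sz m i ^ 2 := by
        rw [Finset.sum_comm]; simp [sz_sq]

lemma sum_norm_ker_diag_le (m : Fin d → Wt → ℂ) :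
    ∑ b, ‖ker m b b‖ ≤ ∑ i, sz m i := by
  calc ∑ b, ‖ker m b b‖ ≤ ∑ b, ∑ i, ‖m i b‖ ^ 2 / sz m i := by
        refine Finset.sum_le_sum fun b _ => (norm_sum_le _ _).trans_eq ?_
        exact Finset.sum_congr rfl fun i _ => by
          simp [abs_of_nonneg (sz_nonneg m i), pow_two]
    _ = ∑ i, sz m i := by
        rw [Finset.sum_comm]
        refine Finset.sum_congr rfl fun i _ => ?_
        rw [← Finset.sum_div, ← sz_sq, pow_two, mul_self_div_self]

/-- Cauchy-Schwarz against the kernel. -/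
lemma corr_sq_le {B : ℝ} {m : Fin d → Wt → ℂ} (π : Wt ≃ Wt) (φ : Wt → ℂ) (A : Fin d → Fin d → ℂ)
    (hA : ∑ i, ∑ j, sz m i * sz m j * ‖A i j‖ ^ 2 ≤ B) :
    ‖∑ b, φ b * ∑ i, ∑ j, m i b * conj (m j (π b)) * A i j‖ ^ 2 ≤
      (∑ b', ∑ b, φ b' * conj (φ b) * conj (ker m b b') * ker m (π b) (π b')).re * B := by
  set g : Fin d → Fin d → ℂ := fun i j => ∑ b, φ b * m i b * conj (m j (π b)) with hg
  have h1 : ∑ b, φ b * ∑ i, ∑ j, m i b * conj (m j (π b)) * A i j = ∑ i, ∑ j, g i j * A i j := by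
    simp only [hg, Finset.mul_sum, Finset.sum_mul]
    rw [Finset.sum_comm]
    refine Finset.sum_congr rfl fun i _ => ?_
    rw [Finset.sum_comm]
    exact Finset.sum_congr rfl fun j _ => Finset.sum_congr rfl fun b _ => by ring
  have h2 : ∑ b', ∑ b, φ b' * conj (φ b) * conj (ker m b b') * ker m (π b) (π b') =
      ((∑ i, ∑ j, ‖g i j‖ ^ 2 / (sz m i * sz m j) : ℝ) : ℂ) := by
    push_cast
    simp only [← Complex.conj_mul', hg, ker, map_sum, Finset.mul_sum, Finset.sum_mul,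
      Finset.sum_div]
    simp only [← Fintype.sum_prod_type']
    refine Fintype.sum_equiv
      { toFun := fun q => ⟨q.2.2.2, q.2.2.1, q.1, q.2.1⟩
        invFun := fun r => ⟨r.2.2.1, r.2.2.2, r.2.1, r.1⟩
        left_inv := fun _ => rfl
        right_inv := fun _ => rfl } _ _ ?_
    intro q
    simp only [Equiv.coe_fn_mk, map_mul, map_div₀, Complex.conj_conj, Complex.conj_ofReal]
    ring
  rw [h1, h2, Complex.ofReal_re]
  calc ‖∑ i, ∑ j, g i j * A i j‖ ^ 2 ≤ (∑ i, ∑ j, ‖g i j‖ * ‖A i j‖) ^ 2 := by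
        refine pow_le_pow_left₀ (norm_nonneg _) ((norm_sum_le _ _).trans ?_) 2
        refine Finset.sum_le_sum fun i _ => (norm_sum_le _ _).trans_eq ?_
        simp
    _ ≤ (∑ i, ∑ j, ‖g i j‖ ^ 2 / (sz m i * sz m j)) *
          (∑ i, ∑ j, sz m i * sz m j * ‖A i j‖ ^ 2) := by
        simp only [← Fintype.sum_prod_type']
        refine Finset.sum_sq_le_sum_mul_sum_of_sq_le_mul _ (fun q _ => ?_) (fun q _ => ?_)
          (fun q _ => ?_)
        · exact div_nonneg (sq_nonneg _) (mul_nonneg (sz_nonneg _ _) (sz_nonneg _ _))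
        · exact mul_nonneg (mul_nonneg (sz_nonneg _ _) (sz_nonneg _ _)) (sq_nonneg _)
        · rcases eq_or_ne (sz m q.1 * sz m q.2) 0 with h | h
          · rcases mul_eq_zero.1 h with h | h <;>
              simp [hg, sz_eq_zero h]
          · rw [mul_pow, div_mul_eq_mul_div, le_div_iff₀ (lt_of_le_of_ne (mul_nonneg (sz_nonneg _ _) (sz_nonneg _ _)) h.symm)]
            exact le_of_eq (by ring)
    _ ≤ _ := by
        refine mul_le_mul_of_nonneg_left hA (Finset.sum_nonneg fun i _ => Finset.sum_nonneg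
          fun j _ => div_nonneg (sq_nonneg _) (mul_nonneg (sz_nonneg _ _) (sz_nonneg _ _)))

lemma exists_orth_coord (f : Wt → EuclideanSpace ℂ (Fin d)) :
    ∃ e : OrthonormalBasis (Fin d) ℂ (EuclideanSpace ℂ (Fin d)),
      Orth (fun i b => ⟪e i, f b⟫_ℂ) := by
  set T : EuclideanSpace ℂ (Fin d) →ₗ[ℂ] EuclideanSpace ℂ (Fin d) :=
    ∑ b, (innerSL ℂ (f b)).toLinearMap.smulRight (f b) with hT
  have hsym : T.IsSymmetric := fun x y => by
    simp [hT, sum_inner, inner_sum, inner_smul_left, inner_smul_right, inner_conj_symm, mul_comm]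
  have hn : Module.finrank ℂ (EuclideanSpace ℂ (Fin d)) = d := finrank_euclideanSpace_fin
  refine ⟨hsym.eigenvectorBasis hn, fun i j hij => ?_⟩
  set e := hsym.eigenvectorBasis hn
  have h : ∑ b, conj ⟪e i, f b⟫_ℂ * ⟪e j, f b⟫_ℂ = ⟪e j, T (e i)⟫_ℂ := by
    simp [hT, inner_conj_symm]
  rw [h, hsym.apply_eigenvectorBasis hn i, inner_smul_right,
    e.orthonormal.2 (Ne.symm hij), mul_zero]

end Orth

section Main

variable {Wt : Type} [Fintype Wt] {d : ℕ}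

/-- The kernel as a vector of `L2 W (L2 W ℂ)`. -/
noncomputable def kerVec (m : Fin d → Wt → ℂ) : L2 Wt (L2 Wt ℂ) :=
  WithLp.toLp 2 fun b' => WithLp.toLp 2 fun b => ker m b b'

lemma kerVec_apply (m : Fin d → Wt → ℂ) (b b' : Wt) : kerVec m b' b = ker m b b' := rfl

/-- Almost invariance of the kernel from almost invariance of the vector. -/
lemma kerVec_move_le (π : Wt ≃ Wt) (φ : Wt → ℂ) (hφ : ∀ b, ‖φ b‖ = 1)
    (a : EuclideanSpace ℂ (Fin d) →L[ℂ] EuclideanSpace ℂ (Fin d))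
    (u : L2 Wt (EuclideanSpace ℂ (Fin d))) (hu : ‖u‖ = 1)
    (e : OrthonormalBasis (Fin d) ℂ (EuclideanSpace ℂ (Fin d)))
    (he : Orth (fun i b => ⟪e i, u b⟫_ℂ)) (ε : ℝ) (hε : ε ≤ 1)
    (h1 : ‖mop π φ a u - u‖ ≤ ε) (h2 : ‖star (mop π φ a) u - u‖ ≤ ε) :
    ‖kerVec (fun i b => ⟪e i, u b⟫_ℂ)‖ = 1 ∧
      ‖mop π (fun b => conj (φ b)) (mop π φ 1) (kerVec fun i b => ⟪e i, u b⟫_ℂ) -
        kerVec (fun i b => ⟪e i, u b⟫_ℂ)‖ ^ 2 ≤ 8 * ε := by
  set m : Fin d → Wt → ℂ := fun i b => ⟪e i, u b⟫_ℂ with hm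
  set K := kerVec m with hF
  have hε0 : 0 ≤ ε := (norm_nonneg _).trans h1
  have hsum : ∀ b, u b = ∑ i, m i b • e i := fun b => (e.sum_repr' (u b)).symm
  have hs1 : ∑ i, sz m i ^ 2 = 1 := by
    have h := he.sum_norm_sq (fun i => e i)
    simp only [← hsum, e.orthonormal.1, one_pow, mul_one] at h
    rw [← h, ← norm_sq_L2, hu, one_pow]
  have hFn : ‖K‖ = 1 := by
    have h : ‖K‖ ^ 2 = 1 := by
      rw [norm_sq_L2]
      simp only [norm_sq_L2, hF, kerVec_apply]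
      rw [he.sum_norm_sq_ker, hs1]
    nlinarith [norm_nonneg K]
  refine ⟨hFn, ?_⟩
  have hψ : ∀ b, ‖conj (φ b)‖ = 1 := fun b => by simp [hφ]
  -- size of the image under `a` and under its adjoint
  have hBa : ∑ i, sz m i ^ 2 * ‖a (e i)‖ ^ 2 ≤ (1 + ε) ^ 2 := by
    calc ∑ i, sz m i ^ 2 * ‖a (e i)‖ ^ 2 = ∑ b, ‖a (u b)‖ ^ 2 := by
          rw [← he.sum_norm_sq]; simp [hsum, map_sum, map_smul]
      _ = ‖mop π φ a u‖ ^ 2 := (norm_sq_mop_apply π φ hφ a u).symm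
      _ ≤ (1 + ε) ^ 2 := by
          refine pow_le_pow_left₀ (norm_nonneg _) ?_ 2
          linarith [norm_le_norm_add_norm_sub' (mop π φ a u) u]
  have hBs : ∑ i, sz m i ^ 2 * ‖adjoint a (e i)‖ ^ 2 ≤ (1 + ε) ^ 2 := by
    calc ∑ i, sz m i ^ 2 * ‖adjoint a (e i)‖ ^ 2 = ∑ b, ‖star a (u b)‖ ^ 2 := by
          rw [← he.sum_norm_sq]; simp [hsum, map_sum, map_smul, star_eq_adjoint]
      _ = ‖star (mop π φ a) u‖ ^ 2 := by
          rw [star_mop, norm_sq_mop_apply _ _ (fun b => by simp [hφ])]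
      _ ≤ (1 + ε) ^ 2 := by
          refine pow_le_pow_left₀ (norm_nonneg _) ?_ 2
          linarith [norm_le_norm_add_norm_sub' (star (mop π φ a) u) u]
  have hA : ∑ i, ∑ j, sz m i * sz m j * ‖⟪e j, a (e i)⟫_ℂ‖ ^ 2 ≤ (1 + ε) ^ 2 := by
    have h : ∑ i, ∑ j, sz m i * sz m j * ‖⟪e j, a (e i)⟫_ℂ‖ ^ 2 ≤
        ∑ i, ∑ j, (sz m i ^ 2 * ‖⟪e j, a (e i)⟫_ℂ‖ ^ 2 / 2 +
          sz m j ^ 2 * ‖⟪adjoint a (e j), e i⟫_ℂ‖ ^ 2 / 2) := by
      refine Finset.sum_le_sum fun i _ => Finset.sum_le_sum fun j _ => ?_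
      rw [adjoint_inner_left]
      nlinarith [mul_nonneg (sq_nonneg (sz m i - sz m j)) (sq_nonneg ‖⟪e j, a (e i)⟫_ℂ‖)]
    refine h.trans ?_
    simp only [Finset.sum_add_distrib]
    rw [Finset.sum_comm (f := fun i j => sz m j ^ 2 * ‖⟪adjoint a (e j), e i⟫_ℂ‖ ^ 2 / 2)]
    simp only [← Finset.sum_div, ← Finset.mul_sum, e.sum_sq_norm_inner_right,
      e.sum_sq_norm_inner_left]
    linarith
  -- correlations
  have hq : ⟪u, mop π φ a u⟫_ℂ =
      ∑ b, φ b * ∑ i, ∑ j, m i b * conj (m j (π b)) * ⟪e j, a (e i)⟫_ℂ := by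
    rw [PiLp.inner_apply, ← Equiv.sum_comp π]
    refine Finset.sum_congr rfl fun b _ => ?_
    rw [mop_apply_map, inner_smul_right]
    congr 1
    conv_lhs => rw [hsum b, hsum (π b)]
    simp only [map_sum, map_smul, inner_sum, sum_inner, inner_smul_right, inner_smul_left]
    simp only [Finset.mul_sum]
    refine Finset.sum_congr rfl fun i _ => Finset.sum_congr rfl fun j _ => ?_
    ring
  have hc : ⟪mop π (fun b => conj (φ b)) (mop π φ 1) K, K⟫_ℂ =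
      ∑ b', ∑ b, φ b' * conj (φ b) * conj (ker m b b') * ker m (π b) (π b') := by
    rw [PiLp.inner_apply, ← Equiv.sum_comp π]
    refine Finset.sum_congr rfl fun b' _ => ?_
    rw [mop_apply_map, inner_smul_left, PiLp.inner_apply, ← Equiv.sum_comp π, Finset.mul_sum]
    refine Finset.sum_congr rfl fun b _ => ?_
    rw [mop_apply_map]
    simp [hF, kerVec_apply]
    ring
  have hlow : 1 - ε ≤ ‖⟪u, mop π φ a u⟫_ℂ‖ := by
    have h3 : ⟪u, mop π φ a u⟫_ℂ = ⟪u, u⟫_ℂ + ⟪u, mop π φ a u - u⟫_ℂ := by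
      rw [← inner_add_right, add_sub_cancel]
    have h4 : ‖⟪u, u⟫_ℂ‖ = 1 := by rw [inner_self_eq_norm_sq_to_K, hu]; simp
    have h5 := norm_sub_norm_le ⟪u, u⟫_ℂ (-⟪u, mop π φ a u - u⟫_ℂ)
    rw [sub_neg_eq_add, ← h3, h4, norm_neg] at h5
    have h6 := norm_inner_le_norm (𝕜 := ℂ) u (mop π φ a u - u)
    rw [hu, one_mul] at h6
    linarith
  have hcs := corr_sq_le π φ (fun i j => ⟪e j, a (e i)⟫_ℂ) hA
  rw [← hq] at hcs
  set r := (∑ b', ∑ b, φ b' * conj (φ b) * conj (ker m b b') * ker m (π b) (π b')).re with hr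
  have hre : (⟪mop π (fun b => conj (φ b)) (mop π φ 1) K, K⟫_ℂ).re = r := by
    rw [hc]
  have hX : ‖mop π (fun b => conj (φ b)) (mop π φ 1) K‖ = ‖K‖ := by
    have h : ‖mop π (fun b => conj (φ b)) (mop π φ 1) K‖ ^ 2 = ‖K‖ ^ 2 := by
      rw [norm_sq_mop_apply π _ hψ, norm_sq_L2]
      refine Finset.sum_congr rfl fun b _ => ?_
      rw [norm_sq_mop_apply π φ hφ, norm_sq_L2 (K b)]
      simp
    exact (sq_eq_sq₀ (norm_nonneg _) (norm_nonneg _)).1 h
  rw [@norm_sub_sq ℂ, hX, hFn, RCLike.re_eq_complex_re, hre]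
  have h7 : (1 - ε) ^ 2 ≤ r * (1 + ε) ^ 2 :=
    (pow_le_pow_left₀ (by linarith) hlow 2).trans hcs
  have h8 : (1 - 4 * ε) * (1 + ε) ^ 2 ≤ (1 - ε) ^ 2 := by nlinarith [pow_nonneg hε0 3]
  have h9 : 1 - 4 * ε ≤ r := le_of_mul_le_mul_right (h8.trans h7) (by positivity)
  linarith

end Main

/-- The contradiction at one level. -/
lemma endgame_at (hL : GRelLevelSpec) (hO : OrbitSpec) {θ : ℝ}
    (hgap : ∀ (H : Type) [NormedAddCommGroup H] [InnerProductSpace ℂ H] [CompleteSpace H]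
      (x z : Fin 4 → F → (H →L[ℂ] H)), GRel 0 x z →
      ∀ v : H, disp x v ≤ θ * ‖v‖ ^ 2 →
        ∃ w : H, (∀ i c, x i c w = w) ∧ ‖v - w‖ ≤ 1 / 4 * ‖v‖)
    {n d : ℕ} (hnd : 3 * d ≤ n) {ε : ℝ} (hε : ε ≤ 1) (hεθ : 352 * ε ≤ θ)
    (a : Fin 4 → F → (EuclideanSpace ℂ (Fin d) →L[ℂ] EuclideanSpace ℂ (Fin d)))
    (u : L2 (W n) (EuclideanSpace ℂ (Fin d))) (hu : ‖u‖ = 1)
    (hU : ∀ i c, ‖Ux n a i c u - u‖ ≤ ε) (hU' : ∀ i c, ‖star (Ux n a i c) u - u‖ ≤ ε) :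
    False := by
  obtain ⟨e, he⟩ := exists_orth_coord (fun b => u b)
  set m : Fin d → W n → ℂ := fun i b => ⟪e i, u b⟫_ℂ with hm
  set K := kerVec m with hK
  set x0 : Fin 4 → F → (ℂ →L[ℂ] ℂ) := fun _ _ => 1 with hx0
  set X : Fin 4 → F → (L2 (W n) (L2 (W n) ℂ) →L[ℂ] L2 (W n) (L2 (W n) ℂ)) := fun i c =>
    mop (perm n i c) (fun b => conj (ph n i c b)) (Ux n x0 i c) with hX
  have hrel0 : GRel 0 x0 x0 := by
    constructor <;> intros <;> simp [hx0]
  have hrel := ((hL (L2 (W n) ℂ) 0 (Ux n x0) (Uz n x0) ((hL ℂ 0 x0 x0 hrel0 n).1)) n).2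
  have key : ∀ i c, ‖K‖ = 1 ∧ ‖X i c K - K‖ ^ 2 ≤ 8 * ε := by
    intro i c
    have h1 := hU i c
    have h2 := hU' i c
    simp only [Ux] at h1 h2
    have h := kerVec_move_le (perm n i c) (ph n i c) (norm_ph n i c) (a i c) u hu e he ε hε h1 h2
    simp only [hX, Ux, hx0, hK]
    exact h
  have hFn : ‖K‖ = 1 := (key 0 0).1
  have hdisp : disp X K ≤ θ * ‖K‖ ^ 2 := by
    rw [hFn, one_pow, mul_one, disp]
    calc ∑ i, ∑ c, ‖X i c K - K‖ ^ 2 ≤ ∑ _i : Fin 4, ∑ _c : ZMod 11, 8 * ε :=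
          Finset.sum_le_sum fun i _ => Finset.sum_le_sum fun c _ => (key i c).2
      _ ≤ θ := by
          simp [ZMod.card]
          linarith
  obtain ⟨w, hw, hFw⟩ := hgap _ X _ hrel K hdisp
  rw [hFn, mul_one] at hFw
  obtain ⟨hdiag, horb⟩ := hO n (fun b b' => w b' b) (fun i c b b' => by
    have h := congrArg (fun f => f (perm n i c b') (perm n i c b)) (hw i c)
    simp only [hX, Ux, mop_apply_map, PiLp.smul_apply, hx0, one_apply_eq_self,
      smul_eq_mul] at h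
    rw [← h]; ring)
  -- the invariant kernel is diagonal
  have hwn : ‖w‖ ^ 2 = ∑ b, ‖w b b‖ ^ 2 := by
    rw [norm_sq_L2]
    refine Finset.sum_congr rfl fun b' _ => ?_
    rw [norm_sq_L2, Finset.sum_eq_single b' (fun b _ hb => by simp [hdiag b b' hb])
      (fun h => absurd (Finset.mem_univ b') h)]
  have hin : ⟪K, w⟫_ℂ = ∑ b, conj (ker m b b) * w b b := by
    rw [PiLp.inner_apply]
    refine Finset.sum_congr rfl fun b' _ => ?_
    rw [PiLp.inner_apply, Finset.sum_eq_single b' (fun b _ hb => by simp [hdiag b b' hb])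
      (fun h => absurd (Finset.mem_univ b') h)]
    simp [hK, kerVec_apply, mul_comm]
  have hw5 : ‖w‖ ≤ 5 / 4 := by
    have := norm_le_norm_add_norm_sub' w K
    rw [norm_sub_rev] at this
    linarith
  have hlow : (3 / 4 : ℝ) ≤ ‖⟪K, w⟫_ℂ‖ := by
    have h3 : ⟪K, w⟫_ℂ = ⟪K, K⟫_ℂ + ⟪K, w - K⟫_ℂ := by
      rw [← inner_add_right, add_sub_cancel]
    have h4 : ‖⟪K, K⟫_ℂ‖ = 1 := by rw [inner_self_eq_norm_sq_to_K, hFn]; simp
    have h5 := norm_sub_norm_le ⟪K, K⟫_ℂ (-⟪K, w - K⟫_ℂ)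
    rw [sub_neg_eq_add, ← h3, h4, norm_neg] at h5
    have h6 := norm_inner_le_norm (𝕜 := ℂ) K (w - K)
    rw [hFn, one_mul, norm_sub_rev] at h6
    linarith
  set M := ∑ b, ‖ker m b b‖ with hM
  have hM0 : 0 ≤ M := Finset.sum_nonneg fun b _ => norm_nonneg _
  have hMd : M ^ 2 ≤ d := by
    refine (pow_le_pow_left₀ hM0 (sum_norm_ker_diag_le m) 2).trans ?_
    refine sq_sum_le_card_mul_sum_sq.trans ?_
    have h := he.sum_norm_sq (fun i => e i)
    simp only [show ∀ b, ∑ i, m i b • e i = u b from fun b => e.sum_repr' (u b),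
      e.orthonormal.1, one_pow, mul_one, ← norm_sq_L2, hu] at h
    simp [← h]
  have hup : ((n : ℝ) + 1) * ‖⟪K, w⟫_ℂ‖ ^ 2 ≤ M ^ 2 * ‖w‖ ^ 2 := by
    have hb : ∀ b, Real.sqrt ((n : ℝ) + 1) * ‖w b b‖ ≤ ‖w‖ := fun b => by
      refine (sq_le_sq₀ (by positivity) (norm_nonneg _)).1 ?_
      rw [mul_pow, Real.sq_sqrt (by positivity), hwn]
      exact horb b
    have h : Real.sqrt ((n : ℝ) + 1) * ‖⟪K, w⟫_ℂ‖ ≤ M * ‖w‖ := by
      rw [hin, hM, Finset.sum_mul]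
      refine (mul_le_mul_of_nonneg_left (norm_sum_le _ _) (Real.sqrt_nonneg _)).trans ?_
      rw [Finset.mul_sum]
      refine Finset.sum_le_sum fun b _ => ?_
      rw [norm_mul, RCLike.norm_conj]
      calc Real.sqrt ((n : ℝ) + 1) * (‖ker m b b‖ * ‖w b b‖)
          = ‖ker m b b‖ * (Real.sqrt ((n : ℝ) + 1) * ‖w b b‖) := by ring
        _ ≤ ‖ker m b b‖ * ‖w‖ := mul_le_mul_of_nonneg_left (hb b) (norm_nonneg _)
    have h' := pow_le_pow_left₀ (by positivity) h 2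
    rwa [mul_pow, mul_pow, Real.sq_sqrt (by positivity)] at h'
  have h9 : (9 / 16 : ℝ) ≤ ‖⟪K, w⟫_ℂ‖ ^ 2 := by nlinarith
  have h25 : ‖w‖ ^ 2 ≤ 25 / 16 := by nlinarith [norm_nonneg w]
  have hfin : ((n : ℝ) + 1) * (9 / 16) ≤ (d : ℝ) * (25 / 16) :=
    (mul_le_mul_of_nonneg_left h9 (by positivity)).trans
      (hup.trans (mul_le_mul hMd h25 (sq_nonneg _) (Nat.cast_nonneg _)))
  have hnd' : (3 : ℝ) * d ≤ n := by exact_mod_cast hnd
  nlinarith [Nat.cast_nonneg (α := ℝ) d]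

/-- M6: a bounded number of multiplicities does not allow almost invariant vectors at high
levels. -/
theorem endgame (hG : GapExactSpec) (hL : GRelLevelSpec) (hO : OrbitSpec) : EndgameSpec := by
  obtain ⟨θ, hθ, hgap⟩ := hG (1 / 4) (by norm_num)
  refine ⟨min (θ / 352) 1, lt_min (by positivity) one_pos, fun d => ⟨3 * d, ?_⟩⟩
  intro a u hu hU hU'
  exact endgame_at hL hO hgap le_rfl (min_le_right _ _)
    (by linarith [min_le_left (θ / 352) (1 : ℝ)]) a u hu hU hU'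

end Vale.P083
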