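import Vale.Agent.P083.GapKey

/-!
# P083 M1: the spectral gap for approximate and exact solutions
-/

namespace Vale.P083.Gap

variable {H : Type} [NormedAddCommGroup H] [InnerProductSpace ℂ H] [CompleteSpace H]

/-- Laplacian of the four families. -/
noncomputable def lap (x : Fin 4 → F → Op H) : Op H := ∑ i, (1 - avg (x i))

/-- Energy. -/
noncomputable def energy (x : Fin 4 → F → Op H) (v : H) : ℝ := ip v (lap x v)

/-- One averaging step. -/
noncomputable def step (x : Fin 4 → F → Op H) (v : H) : H := v - (1 / 8 : ℝ) • lap x v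

lemma ip_smul_right (r : ℝ) (u v : H) : ip u (r • v) = r * ip u v := by
  rw [ip, ip, ← Complex.coe_smul, inner_smul_right, Complex.re_ofReal_mul]

lemma ip_smul_left (r : ℝ) (u v : H) : ip (r • u) v = r * ip u v := by
  rw [ip_comm, ip_smul_right, ip_comm]

lemma lap_apply (x : Fin 4 → F → Op H) (v : H) :
    lap x v = (v - avg (x 0) v) + (v - avg (x 1) v) + (v - avg (x 2) v) + (v - avg (x 3) v) := by
  simp [lap, Fin.sum_univ_four]
  abel

lemma ip_avg (a : F → Op H) (v : H) : 11 * ip v (avg a v) = ∑ c, ip v (a c v) := by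
  simp only [avg, ip, ContinuousLinearMap.smul_apply, ContinuousLinearMap.coe_sum',
    Finset.sum_apply, inner_smul_right, inner_sum, ← Complex.re_sum]
  rw [show ((11 : ℂ)⁻¹) = (((11 : ℝ)⁻¹ : ℝ) : ℂ) by push_cast; rfl, Complex.re_ofReal_mul]
  ring

lemma sum_disp_one (a : F → Op H) (v : H) :
    ∑ c, ‖a c v - v‖ ^ 2 =
      ∑ c, (‖a c v‖ ^ 2 - ‖v‖ ^ 2) + 22 * ip v (v - avg a v) := by
  have h : ∀ c, ‖a c v - v‖ ^ 2 = ‖a c v‖ ^ 2 - ‖v‖ ^ 2 + (2 * ‖v‖ ^ 2 - 2 * ip v (a c v)) :=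
    fun c => by
      rw [← ip_self (a c v - v)]
      simp only [ip_sub_left, ip_sub_right]
      rw [ip_self, ip_self, ip_comm (a c v) v]
      ring
  rw [Finset.sum_congr rfl fun c _ => h c, Finset.sum_add_distrib, Finset.sum_sub_distrib (f :=
    fun _ => 2 * ‖v‖ ^ 2), ← Finset.mul_sum _ _ (2 : ℝ), ← Finset.mul_sum _ _ (2 : ℝ), ← ip_avg,
    ip_sub_right, ip_self, Finset.sum_const, Finset.card_univ, ZMod.card]
  ring

variable {η : ℝ} {x z : Fin 4 → F → Op H}

lemma hom_x (h : GRel η x z) (i : Fin 4) : Hom η (x i) :=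
  ⟨h.norm_x i, h.iso_x i, h.add_x i⟩

lemma pair_of (h : GRel η x z) (k : Fin 4) : Pair η (x (pr k).1) (x (pr k).2) (z k) :=
  ⟨hom_x h _, hom_x h _, ⟨h.norm_z k, h.iso_z k, h.add_z k⟩, h.heis k, h.zfst k, h.zsnd k⟩

lemma eta_nonneg (h : GRel η x z) : 0 ≤ η := (norm_nonneg _).trans (h.iso_x 0 0)

lemma energy_eq (x : Fin 4 → F → Op H) (v : H) :
    energy x v = ∑ i, ip v (v - avg (x i) v) := by
  rw [energy, lap_apply, Fin.sum_univ_four]
  simp only [ip_add_right]

lemma disp_le_energy (h : GRel η x z) (v : H) : disp x v ≤ 22 * energy x v := by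
  rw [energy_eq, Finset.mul_sum, disp]
  refine Finset.sum_le_sum fun i _ => ?_
  rw [sum_disp_one]
  have : ∑ c, (‖x i c v‖ ^ 2 - ‖v‖ ^ 2) ≤ 0 := Finset.sum_nonpos fun c _ => by
    have := pow_le_pow_left₀ (norm_nonneg _) (((x i c).le_opNorm v).trans
      (mul_le_of_le_one_left (norm_nonneg v) (h.norm_x i c))) 2
    linarith
  linarith

lemma energy_le_disp (h : GRel η x z) (v : H) :
    22 * energy x v ≤ disp x v + 44 * η * ‖v‖ ^ 2 := by
  rw [energy_eq, Finset.mul_sum, disp,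
    show 44 * η * ‖v‖ ^ 2 = ∑ _i : Fin 4, 11 * η * ‖v‖ ^ 2 by simp; ring,
    ← Finset.sum_add_distrib]
  refine Finset.sum_le_sum fun i _ => ?_
  rw [sum_disp_one]
  have : ∀ c, -(η * ‖v‖ ^ 2) ≤ ‖x i c v‖ ^ 2 - ‖v‖ ^ 2 := fun c => by
    have h1 := ip_near (h.iso_x i c) v
    rw [← ip_ops, ip_self] at h1
    rw [show (1 : Op H) v = v from rfl, ip_self] at h1
    linarith [(abs_le.1 h1).1]
  have h2 := Finset.sum_le_sum (s := Finset.univ) fun c (_ : c ∈ Finset.univ) => this c
  rw [Finset.sum_const, Finset.card_univ, ZMod.card] at h2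
  simp only [nsmul_eq_mul] at h2
  push_cast at h2
  linarith

lemma energy_nonneg (h : GRel η x z) (v : H) : 0 ≤ energy x v := by
  have := disp_le_energy h v
  have : 0 ≤ disp x v := Finset.sum_nonneg fun i _ => Finset.sum_nonneg fun c _ => sq_nonneg _
  linarith

lemma norm_lap_le (h : GRel η x z) : ‖lap x‖ ≤ 8 := by
  refine (norm_sum_le _ _).trans ((Finset.sum_le_sum fun i _ =>
    (norm_sub_le _ _).trans (add_le_add norm_one_le (hom_x h i).norm_avg)).trans ?_)
  norm_num

lemma star_lap (h : GRel η x z) : ‖star (lap x) - lap x‖ ≤ 20 * η := by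
  rw [lap, star_sum, ← Finset.sum_sub_distrib]
  refine (norm_sum_le _ _).trans ((Finset.sum_le_sum (g := fun _ => 5 * η) fun i _ => ?_).trans ?_)
  · rw [star_sub, star_one, sub_sub_sub_cancel_left, norm_sub_rev]
    exact (hom_x h i).star_avg
  · simp; linarith [eta_nonneg h]

/-- The gap. -/
lemma gap (h : GRel η x z) (hη : η ≤ 1 / 20000) (v : H) :
    7 / 100 * energy x v - 3300 * η * ‖v‖ ^ 2 ≤ ‖lap x v‖ ^ 2 := by
  have hη0 := eta_nonneg h
  have hR : ∀ i, |‖v - avg (x i) v‖ ^ 2 - ip v (v - avg (x i) v)| ≤ 11 * η * ‖v‖ ^ 2 := by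
    intro i
    have ha := hom_x h i
    have h1 : ‖star (1 - avg (x i)) * (1 - avg (x i)) - (1 - avg (x i))‖ ≤ 11 * η := by
      refine near_trans (b := (1 - avg (x i)) * (1 - avg (x i))) (r := 10 * η) ?_ (s := η) ?_
        (by linarith)
      · refine near_mul_right _ (m := 2) ((norm_sub_le _ _).trans
          (by linarith [norm_one_le (H := H), ha.norm_avg])) (r := 5 * η) ?_ (by linarith)
        rw [star_sub, star_one, sub_sub_sub_cancel_left, norm_sub_rev]
        exact ha.star_avg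
      · rw [show (1 - avg (x i)) * (1 - avg (x i)) - (1 - avg (x i)) =
          avg (x i) * avg (x i) - avg (x i) by noncomm_ring]
        exact ha.avg_sq
    have h2 := ip_near h1 v
    rw [← ip_ops, ip_self] at h2
    exact h2
  have p0 := (pair_of h 0).anticomm hη v
  have p1 := (pair_of h 1).anticomm hη v
  have p2 := (pair_of h 2).anticomm hη v
  have p3 := (pair_of h 3).anticomm hη v
  have c1 := comm_anticomm (hom_x h 0) (hom_x h 3) h.commAT v
  have c2 := comm_anticomm (hom_x h 2) (hom_x h 3) h.commCT v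
  have e0 := abs_le.1 (hR 0)
  have e1 := abs_le.1 (hR 1)
  have e2 := abs_le.1 (hR 2)
  have e3 := abs_le.1 (hR 3)
  simp only [pr, Matrix.cons_val_zero, Matrix.cons_val_one, Matrix.cons_val] at p0 p1 p2 p3
  rw [energy_eq, Fin.sum_univ_four, lap_apply]
  generalize v - avg (x 0) v = a at *
  generalize v - avg (x 1) v = b at *
  generalize v - avg (x 2) v = c at *
  generalize v - avg (x 3) v = d at *
  rw [← ip_self (a + b + c + d)]
  simp only [ip_add_left, ip_add_right]
  simp only [ip_self]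
  rw [ip_comm b a, ip_comm c a, ip_comm c b, ip_comm d a, ip_comm d b, ip_comm d c]
  rw [ip_comm c a] at p2
  have := sq_nonneg ‖a‖
  have := sq_nonneg ‖b‖
  have := sq_nonneg ‖c‖
  have := sq_nonneg ‖d‖
  have hn : 0 ≤ η * ‖v‖ ^ 2 := mul_nonneg hη0 (sq_nonneg _)
  linarith [e0.1, e0.2, e1.1, e1.2, e2.1, e2.2, e3.1, e3.2]

lemma norm_sq_step (x : Fin 4 → F → Op H) (v : H) :
    ‖step x v‖ ^ 2 = ‖v‖ ^ 2 - energy x v / 4 + ‖lap x v‖ ^ 2 / 64 := by
  rw [step, energy, ← ip_self]
  simp only [ip_sub_left, ip_sub_right, ip_smul_left, ip_smul_right]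
  rw [ip_self, ip_self, ip_comm (lap x v) v]
  ring

lemma norm_step_le (h : GRel η x z) (v : H) : ‖step x v‖ ≤ ‖v‖ := by
  have e : step x v = (1 / 8 : ℝ) • ((4 : ℝ) • v + ∑ i, avg (x i) v) := by
    rw [step, lap_apply, Fin.sum_univ_four]
    module
  rw [e, norm_smul]
  have : ‖(4 : ℝ) • v + ∑ i, avg (x i) v‖ ≤ 8 * ‖v‖ := by
    refine (norm_add_le _ _).trans ?_
    have h1 : ‖∑ i, avg (x i) v‖ ≤ 4 * ‖v‖ := by
      refine (norm_sum_le _ _).trans ((Finset.sum_le_sum fun i _ => ((avg (x i)).le_opNorm v).trans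
        (mul_le_of_le_one_left (norm_nonneg v) (hom_x h i).norm_avg)).trans ?_)
      simp
    rw [norm_smul]
    norm_num
    linarith
  rw [Real.norm_eq_abs, abs_of_pos (by norm_num : (0 : ℝ) < 1 / 8)]
  linarith

lemma energy_step_le (h : GRel η x z) (v : H) :
    energy x (step x v) ≤ energy x v - ‖lap x v‖ ^ 2 / 8 + 20 * η * ‖v‖ ^ 2 := by
  have hη := eta_nonneg h
  have h1 : |ip (lap x v) (lap x v) - ip v (lap x (lap x v))| ≤ 160 * η * ‖v‖ ^ 2 := by
    have := ip_near (near_mul_right (lap x) (norm_lap_le h) (star_lap h)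
      (le_of_eq (by ring : 20 * η * 8 = 160 * η))) v
    rwa [← ip_ops, show (lap x * lap x) v = lap x (lap x v) from rfl] at this
  have h2 : ip (lap x v) (lap x (lap x v)) ≤ 8 * ‖lap x v‖ ^ 2 := by
    refine (le_abs_self _).trans ((abs_ip_le _ _).trans ?_)
    have := (lap x).le_of_opNorm_le (norm_lap_le h) (lap x v)
    nlinarith [norm_nonneg (lap x v)]
  simp only [energy, step, map_sub, ContinuousLinearMap.map_smul_of_tower, ip_sub_left,
    ip_sub_right, ip_smul_left, ip_smul_right]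
  rw [ip_self] at h1 ⊢
  linarith [(abs_le.1 h1).1, (abs_le.1 h1).2]

lemma energy_step (h : GRel η x z) (hη : η ≤ 1 / 20000) (v : H) :
    energy x (step x v) ≤ 793 / 800 * energy x v + 440 * η * ‖v‖ ^ 2 := by
  have := gap h hη v
  have := energy_step_le h v
  have : 0 ≤ η * ‖v‖ ^ 2 := mul_nonneg (eta_nonneg h) (sq_nonneg _)
  linarith

lemma iterate_facts (h : GRel η x z) (hη : η ≤ 1 / 20000) (v : H) (hv : ‖v‖ = 1) (k : ℕ) :
    ‖(step x)^[k] v‖ ≤ 1 ∧
    energy x ((step x)^[k] v) ≤ (793 / 800) ^ k * energy x v + 51000 * η ∧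
    1 - 200 / 7 * energy x v * (1 - (793 / 800) ^ k) - k * (12750 * η) ≤
      ‖(step x)^[k] v‖ ^ 2 := by
  have hη0 := eta_nonneg h
  induction k with
  | zero => simp [hv, hη0]
  | succ k ih =>
    obtain ⟨i1, i2, i3⟩ := ih
    rw [Function.iterate_succ_apply']
    set w := (step x)^[k] v
    refine ⟨(norm_step_le h w).trans i1, ?_, ?_⟩
    · refine (energy_step h hη w).trans ?_
      have : ‖w‖ ^ 2 ≤ 1 := pow_le_one₀ (norm_nonneg _) i1
      have : η * ‖w‖ ^ 2 ≤ η := mul_le_of_le_one_right hη0 this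
      rw [pow_succ (793 / 800 : ℝ)]
      linarith
    · rw [norm_sq_step, pow_succ (793 / 800 : ℝ)]
      push_cast
      linarith [sq_nonneg ‖lap x w‖]

theorem gapReset : GapResetSpec := by
  refine ⟨77 / 800, by norm_num, fun δ hδ => ?_⟩
  obtain ⟨M, hM⟩ := exists_pow_lt_of_lt_one (x := δ / 88) (by positivity)
    (by norm_num : (793 / 800 : ℝ) < 1)
  refine ⟨min (1 / 20000) (min (δ / 88 / 51000) (1 / (4 * 12750 * ((M : ℝ) + 1)))), by positivity, ?_⟩
  intro H _ _ _ x z h v hv hd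
  set η := min (1 / 20000 : ℝ) (min (δ / 88 / 51000) (1 / (4 * 12750 * ((M : ℝ) + 1)))) with hηdef
  have hη1 : η ≤ 1 / 20000 := min_le_left _ _
  have hη2 : η ≤ δ / 88 / 51000 := (min_le_right _ _).trans (min_le_left _ _)
  have hη3 : η ≤ 1 / (4 * 12750 * ((M : ℝ) + 1)) := (min_le_right _ _).trans (min_le_right _ _)
  obtain ⟨i1, i2, i3⟩ := iterate_facts h hη1 v hv M
  have hE0 := energy_nonneg h v
  have hE := energy_le_disp h v
  rw [hv] at hE
  have hE1 : energy x v ≤ 7 / 800 := by linarith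
  have hq : 0 ≤ (793 / 800 : ℝ) ^ M := by positivity
  set w := (step x)^[M] v
  have hMη : (M : ℝ) * (12750 * η) ≤ 1 / 4 := by
    have h4 := mul_le_mul_of_nonneg_left hη3 (by positivity : (0 : ℝ) ≤ 4 * 12750 * ((M : ℝ) + 1))
    rw [mul_one_div, div_self (by positivity)] at h4
    nlinarith [eta_nonneg h]
  have hw2 : 1 / 2 ≤ ‖w‖ ^ 2 := by nlinarith
  have hw : w ≠ 0 := fun h0 => by rw [h0, norm_zero] at hw2; norm_num at hw2
  refine ⟨(‖w‖ : ℝ)⁻¹ • w, norm_smul_inv_norm hw, ?_⟩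
  have e : disp x ((‖w‖ : ℝ)⁻¹ • w) = (‖w‖ ^ 2)⁻¹ * disp x w := by
    simp only [disp, Finset.mul_sum, ContinuousLinearMap.map_smul_of_tower, ← smul_sub, norm_smul,
      norm_inv, norm_norm, mul_pow, inv_pow]
  rw [e]
  have hd1 := disp_le_energy h w
  have hE2 : (793 / 800 : ℝ) ^ M * energy x v ≤ (793 / 800) ^ M :=
    mul_le_of_le_one_right hq (by linarith)
  have hi : (‖w‖ ^ 2)⁻¹ ≤ 2 := by
    rw [inv_le_comm₀ (by positivity) (by norm_num)]
    linarith
  calc (‖w‖ ^ 2)⁻¹ * disp x w ≤ 2 * (22 * energy x w) :=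
        mul_le_mul hi hd1 (Finset.sum_nonneg fun i _ => Finset.sum_nonneg fun c _ => sq_nonneg _)
          (by norm_num)
    _ ≤ δ := by linarith

theorem gapExact : GapExactSpec := by
  intro ε hε
  refine ⟨22 * 8 * (7 / 1600 * ε) ^ 2, by positivity, ?_⟩
  intro H _ _ _ x z h v hd
  have hη : (0 : ℝ) ≤ 1 / 20000 := by norm_num
  set u : ℕ → H := fun k => (step x)^[k] v with hu
  have hsucc : ∀ k, u (k + 1) = step x (u k) := fun k => Function.iterate_succ_apply' _ _ _
  have hE : ∀ k, energy x (u k) ≤ (793 / 800) ^ k * energy x v := by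
    intro k
    induction k with
    | zero => simp [hu]
    | succ k ih =>
      rw [hsucc, pow_succ]
      have := energy_step h hη (u k)
      linarith
  set C := 7 / 1600 * ε * ‖v‖ with hC
  have hE0 : energy x v ≤ 8 * C ^ 2 := by
    have := energy_le_disp h v
    rw [hC, mul_pow]
    linarith
  have hr : ∀ k, (793 / 800 : ℝ) ^ k ≤ ((1593 / 1600 : ℝ) ^ k) ^ 2 := fun k => by
    rw [← pow_mul, mul_comm, pow_mul]
    exact pow_le_pow_left₀ (by norm_num) (by norm_num) k
  have hdist : ∀ k, dist (u k) (u (k + 1)) ≤ C * (1593 / 1600) ^ k := by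
    intro k
    refine (sq_le_sq₀ dist_nonneg (by positivity)).1 ?_
    rw [dist_eq_norm, hsucc, step, sub_sub_cancel, norm_smul, mul_pow, mul_pow]
    have h1 := energy_step_le h (u k)
    have h2 := energy_nonneg h (step x (u k))
    have h3 := hE k
    have h4 : (793 / 800 : ℝ) ^ k * energy x v ≤ ((1593 / 1600 : ℝ) ^ k) ^ 2 * (8 * C ^ 2) :=
      mul_le_mul (hr k) hE0 (energy_nonneg h v) (by positivity)
    norm_num
    linarith
  obtain ⟨w, hw⟩ := cauchySeq_tendsto_of_complete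
    (cauchySeq_of_le_geometric _ C (by norm_num : (1593 / 1600 : ℝ) < 1) hdist)
  refine ⟨w, ?_, ?_⟩
  · have hcont : Continuous fun y => disp x y := by unfold disp; fun_prop
    have h0 : Filter.Tendsto (fun k => disp x (u k)) Filter.atTop (nhds 0) := by
      refine squeeze_zero (fun k => Finset.sum_nonneg fun i _ => Finset.sum_nonneg
        fun c _ => sq_nonneg _) (fun k => (disp_le_energy h (u k)).trans
          (mul_le_mul_of_nonneg_left (hE k) (by norm_num))) ?_
      simpa using ((tendsto_pow_atTop_nhds_zero_of_lt_one (by norm_num)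
        (by norm_num : (793 / 800 : ℝ) < 1)).mul_const (energy x v)).const_mul 22
    have hz := tendsto_nhds_unique ((hcont.tendsto w).comp hw) h0
    intro i c
    rw [disp, Finset.sum_eq_zero_iff_of_nonneg
      (fun i _ => Finset.sum_nonneg fun c _ => sq_nonneg _)] at hz
    have := (Finset.sum_eq_zero_iff_of_nonneg (fun c _ => sq_nonneg _)).1
      (hz i (Finset.mem_univ i)) c (Finset.mem_univ c)
    exact sub_eq_zero.1 (norm_eq_zero.1 (pow_eq_zero_iff two_ne_zero |>.1 this))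
  · have := dist_le_of_le_geometric_of_tendsto₀ _ C (by norm_num : (1593 / 1600 : ℝ) < 1) hdist hw
    rw [dist_eq_norm] at this
    refine (show ‖v - w‖ ≤ _ from this).trans ?_
    rw [hC]
    apply le_of_eq
    ring

end Vale.P083.Gap
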