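import Vale.Agent.P083.GapPair

/-!
# P083 M1b: the anticommutator inequality for a pair
-/

namespace Vale.P083.Gap

open scoped ComplexConjugate

variable {H : Type} [NormedAddCommGroup H] [InnerProductSpace ℂ H] [CompleteSpace H]

/-- Real inner product. -/
noncomputable def ip (u v : H) : ℝ := (inner ℂ u v).re

lemma ip_self (v : H) : ip v v = ‖v‖ ^ 2 := by
  rw [ip]
  exact_mod_cast inner_self_eq_norm_sq (𝕜 := ℂ) v

lemma ip_comm (u v : H) : ip u v = ip v u := by
  exact inner_re_symm (𝕜 := ℂ) u v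

lemma abs_ip_le (u v : H) : |ip u v| ≤ ‖u‖ * ‖v‖ :=
  (Complex.abs_re_le_norm _).trans (norm_inner_le_norm u v)

lemma ip_add_left (u v w : H) : ip (u + v) w = ip u w + ip v w := by
  simp [ip, inner_add_left]

lemma ip_add_right (u v w : H) : ip u (v + w) = ip u v + ip u w := by
  simp [ip, inner_add_right]

lemma ip_sub_left (u v w : H) : ip (u - v) w = ip u w - ip v w := by
  simp [ip, inner_sub_left]

lemma ip_sub_right (u v w : H) : ip u (v - w) = ip u v - ip u w := by
  simp [ip, inner_sub_right]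

lemma ip_ops (S T : Op H) (v : H) : ip (S v) (T v) = ip v ((star S * T) v) := by
  rw [ip, ip, ContinuousLinearMap.star_eq_adjoint]
  rw [show (ContinuousLinearMap.adjoint S * T) v = ContinuousLinearMap.adjoint S (T v) from rfl,
    ContinuousLinearMap.adjoint_inner_right]

lemma ip_near {S T : Op H} {r : ℝ} (h : ‖S - T‖ ≤ r) (v : H) :
    |ip v (S v) - ip v (T v)| ≤ r * ‖v‖ ^ 2 := by
  rw [← ip_sub_right, show S v - T v = (S - T) v from rfl]
  refine (abs_ip_le _ _).trans ?_
  calc ‖v‖ * ‖(S - T) v‖ ≤ ‖v‖ * (r * ‖v‖) :=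
        mul_le_mul_of_nonneg_left (((S - T).le_opNorm v).trans
          (mul_le_mul_of_nonneg_right h (norm_nonneg _))) (norm_nonneg _)
    _ = r * ‖v‖ ^ 2 := by ring

lemma norm_one_le : ‖(1 : Op H)‖ ≤ 1 := ContinuousLinearMap.norm_id_le

namespace Pair

variable {η : ℝ} {x y z : F → Op H} (h : Pair η x y z)
include h

/-- The operator facts needed for the angle inequality. -/
lemma angle_facts (hη : η ≤ 1 / 20000) :
    ‖avg x * avg y - avg x * avg y * avg z‖ ≤ 31 / 100 ∧
    ‖star (1 - avg x) * (avg x - avg x * avg y * avg z)‖ ≤ 12 * η ∧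
    ‖star (1 - avg y) * (avg y - avg x * avg y * avg z)‖ ≤ 16 * η ∧
    ‖star (avg x - avg x * avg y * avg z) * (avg y - avg x * avg y * avg z) -
      star (avg x - avg x * avg y * avg z) * (avg x * avg y - avg x * avg y * avg z) *
        (avg y - avg x * avg y * avg z)‖ ≤ 212 * η := by
  have hη0 := h.hx.eta_nonneg
  obtain ⟨hQ, faQ, fbQ, fQb, fQa, fQQ, fQs⟩ := h.Q_facts
  have hsand := h.sandwich
  have hL1 := h.comm_on_Z
  set a := avg x
  set b := avg y
  set Z := avg z
  have ha : ‖a‖ ≤ 1 := h.hx.norm_avg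
  have hb : ‖b‖ ≤ 1 := h.hy.norm_avg
  have hZ : ‖Z‖ ≤ 1 := h.hz.norm_avg
  have haa : ‖a * a - a‖ ≤ η := h.hx.avg_sq
  have hbb : ‖b * b - b‖ ≤ η := h.hy.avg_sq
  have hZZ : ‖Z * Z - Z‖ ≤ η := h.hz.avg_sq
  have sa : ‖star a - a‖ ≤ 5 * η := h.hx.star_avg
  have sb : ‖star b - b‖ ≤ 5 * η := h.hy.star_avg
  have sZ : ‖star Z - Z‖ ≤ 5 * η := h.hz.star_avg
  generalize hQdef : a * b * Z = Q at *
  clear_value a b Z
  have hba := norm_mul_le_one hb ha
  have hab := norm_mul_le_one ha hb
  have h2a : ‖a - Q‖ ≤ 2 := (norm_sub_le _ _).trans (by linarith)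
  have h2b : ‖b - Q‖ ≤ 2 := (norm_sub_le _ _).trans (by linarith)
  have h2X : ‖a * b - Q‖ ≤ 2 := (norm_sub_le _ _).trans (by linarith)
  have h2s : ‖star (a * b - Q)‖ ≤ 2 := by rwa [norm_star]
  -- `‖1 - Z‖`
  have hN : ‖1 - Z‖ ≤ 1 + 11 * η := by
    have h2 : ‖(1 : Op H) - Z‖ ≤ 2 :=
      (norm_sub_le _ _).trans (by linarith [norm_one_le (H := H)])
    have h1 : ‖star (1 - Z) * (1 - Z) - (1 - Z)‖ ≤ 11 * η := by
      refine near_trans (b := (1 - Z) * (1 - Z)) (r := 10 * η) ?_ (s := η) ?_ (by linarith)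
      · refine near_mul_right _ h2 (r := 5 * η) ?_ (by linarith)
        rw [star_sub, star_one, sub_sub_sub_cancel_left, norm_sub_rev]
        exact sZ
      · rw [show (1 - Z) * (1 - Z) - (1 - Z) = Z * Z - Z by noncomm_ring]
        exact hZZ
    have h3 : ‖1 - Z‖ * ‖1 - Z‖ ≤ ‖1 - Z‖ + 11 * η := by
      rw [← CStarRing.norm_star_mul_self]
      exact (norm_le_norm_add_norm_sub' _ _).trans (add_le_add le_rfl h1)
    by_contra hc
    push Not at hc
    nlinarith
  -- `X = a b - Q`
  have hXX : ‖star (a * b - Q) * (a * b - Q) - (11 : ℂ)⁻¹ • (b - b * Z)‖ ≤ 96 * η := by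
    have hsX : ‖star (a * b - Q) - (b * a - Q)‖ ≤ 29 * η := by
      rw [star_sub, star_mul]
      exact near_sub (near_trans (near_mul_right _ (by rwa [norm_star]) sb
        (le_of_eq (mul_one _))) (near_mul_left _ hb sa (le_of_eq (one_mul _))) le_rfl) fQs
        (by linarith)
    refine near_trans (b := (b * a - Q) * (a * b - Q))
      (near_mul_right _ h2X hsX le_rfl) (s := 38 * η) ?_ (by linarith)
    refine near_trans (b := b * a * b - Q) (r := 24 * η) ?_ (s := 14 * η) ?_ (by linarith)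
    · have e1 : ‖b * a * (a * b) - b * a * b‖ ≤ η := by
        have := near_mul_left b hb (near_mul_right b hb haa (le_of_eq (mul_one η)))
          (le_of_eq (one_mul η))
        simpa [mul_assoc] using this
      have e2 : ‖b * a * Q - Q‖ ≤ 6 * η := by
        refine near_trans (b := b * Q) (r := η) ?_ fbQ (by linarith)
        rw [mul_assoc]
        exact near_mul_left _ hb faQ (le_of_eq (one_mul η))
      have e3 : ‖Q * (a * b) - Q‖ ≤ 8 * η := by
        refine near_trans (b := Q * b) (r := 6 * η) ?_ fQb (by linarith)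
        rw [← mul_assoc]
        exact near_mul_right _ hb fQa (le_of_eq (mul_one _))
      have := near_add (near_sub (near_sub e1 e2 le_rfl) e3 le_rfl) fQQ
        (t := 24 * η) (by linarith)
      rw [show (b * a - Q) * (a * b - Q) =
        b * a * (a * b) - b * a * Q - Q * (a * b) + Q * Q by noncomm_ring]
      rw [show b * a * b - Q - Q + Q = b * a * b - Q by abel] at this
      exact this
    · have e4 : ‖b * a * Z - Q‖ ≤ 2 * η := near_symm hL1
      have := near_trans (b := b * a * Z + (11 : ℂ)⁻¹ • (b - b * Z) - Q)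
        (near_sub hsand (show ‖Q - Q‖ ≤ 0 by simp) le_rfl)
        (show ‖b * a * Z + (11 : ℂ)⁻¹ • (b - b * Z) - Q - (11 : ℂ)⁻¹ • (b - b * Z)‖ ≤ 2 * η by
          rw [show b * a * Z + (11 : ℂ)⁻¹ • (b - b * Z) - Q - (11 : ℂ)⁻¹ • (b - b * Z)
            = b * a * Z - Q by abel]
          exact e4) (t := 14 * η) (by linarith)
      exact this
  have hXc : ‖a * b - Q‖ ≤ 31 / 100 := by
    have h1 : ‖b - b * Z‖ ≤ 1 + 11 * η := by
      rw [show b - b * Z = b * (1 - Z) by noncomm_ring]
      exact (norm_mul_le _ _).trans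
        ((mul_le_mul hb hN (norm_nonneg _) zero_le_one).trans_eq (one_mul _))
    have h3 : ‖a * b - Q‖ * ‖a * b - Q‖ ≤ (11 : ℝ)⁻¹ * (1 + 11 * η) + 96 * η := by
      rw [← CStarRing.norm_star_mul_self]
      refine (norm_le_norm_add_norm_sub' _ _).trans (add_le_add ?_ hXX)
      rw [norm_smul, norm_inv, Complex.norm_ofNat]
      exact mul_le_mul_of_nonneg_left h1 (by norm_num)
    nlinarith [norm_nonneg (a * b - Q)]
  refine ⟨hXc, ?_, ?_, ?_⟩
  · rw [← sub_zero (star (1 - a) * (a - Q))]
    refine near_trans (b := (1 - a) * (a - Q)) (r := 10 * η) ?_ (s := 2 * η) ?_ (by linarith)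
    · refine near_mul_right _ h2a (r := 5 * η) ?_ (by linarith)
      rw [star_sub, star_one, sub_sub_sub_cancel_left, norm_sub_rev]
      exact sa
    · rw [sub_zero, show (1 - a) * (a - Q) = (a * Q - Q) - (a * a - a) by noncomm_ring]
      exact (norm_sub_le _ _).trans (by linarith)
  · rw [← sub_zero (star (1 - b) * (b - Q))]
    refine near_trans (b := (1 - b) * (b - Q)) (r := 10 * η) ?_ (s := 6 * η) ?_ (by linarith)
    · refine near_mul_right _ h2b (r := 5 * η) ?_ (by linarith)
      rw [star_sub, star_one, sub_sub_sub_cancel_left, norm_sub_rev]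
      exact sb
    · rw [sub_zero, show (1 - b) * (b - Q) = (b * Q - Q) - (b * b - b) by noncomm_ring]
      exact (norm_sub_le _ _).trans (by linarith)
  · have hsp : ‖star (a - Q) - (a - Q)‖ ≤ 24 * η := by
      rw [star_sub]
      exact near_sub sa fQs (by linarith)
    have eX : ‖(a - Q) * (a * b - Q) - (a * b - Q)‖ ≤ 19 * η := by
      have e1 : ‖a * (a * b) - a * b‖ ≤ η := by
        rw [← mul_assoc]
        exact near_mul_right _ hb haa (le_of_eq (mul_one η))
      have e3 : ‖Q * (a * b) - Q‖ ≤ 8 * η := by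
        refine near_trans (b := Q * b) (r := 6 * η) ?_ fQb (by linarith)
        rw [← mul_assoc]
        exact near_mul_right _ hb fQa (le_of_eq (mul_one _))
      have := near_add (near_sub (near_sub e1 faQ le_rfl) e3 le_rfl) fQQ
        (t := 19 * η) (by linarith)
      rw [show (a - Q) * (a * b - Q) = a * (a * b) - a * Q - Q * (a * b) + Q * Q by noncomm_ring]
      rw [show a * b - Q - Q + Q = a * b - Q by abel] at this
      exact this
    have eXq : ‖(a * b - Q) * (b - Q) - (a * b - Q)‖ ≤ 18 * η := by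
      have e1 : ‖a * b * b - a * b‖ ≤ η := by
        rw [mul_assoc]
        exact near_mul_left _ ha hbb (le_of_eq (one_mul η))
      have e2 : ‖a * b * Q - Q‖ ≤ 6 * η := by
        refine near_trans (b := a * Q) (r := 5 * η) ?_ faQ (by linarith)
        rw [mul_assoc]
        exact near_mul_left _ ha fbQ (le_of_eq (one_mul _))
      have := near_add (near_sub (near_sub e1 e2 le_rfl) fQb le_rfl) fQQ
        (t := 18 * η) (by linarith)
      rw [show (a * b - Q) * (b - Q) = a * b * b - a * b * Q - Q * b + Q * Q by noncomm_ring]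
      rw [show a * b - Q - Q + Q = a * b - Q by abel] at this
      exact this
    have epq : ‖(a - Q) * (b - Q) - (a * b - Q)‖ ≤ 12 * η := by
      have := near_add (near_sub (near_sub (show ‖a * b - a * b‖ ≤ 0 by simp) faQ le_rfl) fQb
        le_rfl) fQQ (t := 12 * η) (by linarith)
      rw [show (a - Q) * (b - Q) = a * b - a * Q - Q * b + Q * Q by noncomm_ring]
      rw [show a * b - Q - Q + Q = a * b - Q by abel] at this
      exact this
    refine near_trans (b := a * b - Q)
      (near_trans (near_mul_right _ h2b hsp le_rfl) epq le_rfl) (s := 152 * η) ?_ (by linarith)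
    refine near_symm (near_trans (b := (a * b - Q) * (b - Q)) ?_ eXq (r := 134 * η) (by linarith))
    refine near_mul_right _ h2b (r := 67 * η) ?_ (by linarith)
    exact near_trans (near_mul_right _ h2X hsp le_rfl) eX (by linarith)

/-- The angle inequality. -/
lemma anticomm (hη : η ≤ 1 / 20000) (v : H) :
    -(31 / 100) * (‖v - avg x v‖ ^ 2 + ‖v - avg y v‖ ^ 2) - 700 * η * ‖v‖ ^ 2 ≤
      2 * ip (v - avg x v) (v - avg y v) := by
  obtain ⟨hX, h1, h2, h3⟩ := h.angle_facts hη
  generalize avg x * avg y * avg z = Q at hX h1 h2 h3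
  have hη0 := h.hx.eta_nonneg
  obtain ⟨u, hu⟩ : ∃ u, u = avg x v - Q v := ⟨_, rfl⟩
  obtain ⟨r, hr⟩ : ∃ r, r = avg y v - Q v := ⟨_, rfl⟩
  obtain ⟨w, hw⟩ : ∃ w, w = v - Q v := ⟨_, rfl⟩
  have e1 : |ip (w - u) u| ≤ 12 * η * ‖v‖ ^ 2 := by
    have := ip_near (S := star (1 - avg x) * (avg x - Q)) (T := 0) (by simpa using h1) v
    rw [← ip_ops] at this
    simpa [hu, hw, ip, sub_sub_sub_cancel_right] using this
  have e2 : |ip (w - r) r| ≤ 16 * η * ‖v‖ ^ 2 := by
    have := ip_near (S := star (1 - avg y) * (avg y - Q)) (T := 0) (by simpa using h2) v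
    rw [← ip_ops] at this
    simpa [hr, hw, ip, sub_sub_sub_cancel_right] using this
  have e3 : |ip u r| ≤ 31 / 100 * (‖u‖ * ‖r‖) + 212 * η * ‖v‖ ^ 2 := by
    have h4 := ip_near h3 v
    rw [← ip_ops, mul_assoc, ← ip_ops] at h4
    have h5 : |ip ((avg x - Q) v) (((avg x * avg y - Q) * (avg y - Q)) v)| ≤
        31 / 100 * (‖u‖ * ‖r‖) := by
      refine (abs_ip_le _ _).trans ?_
      have := (avg x * avg y - Q).le_of_opNorm_le hX ((avg y - Q) v)
      simp only [hu, hr]
      calc _ ≤ ‖(avg x - Q) v‖ * (31 / 100 * ‖(avg y - Q) v‖) :=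
            mul_le_mul_of_nonneg_left this (norm_nonneg _)
        _ = _ := by simp only [ContinuousLinearMap.sub_apply]; ring
    have h6 := abs_sub_abs_le_abs_sub (ip ((avg x - Q) v) ((avg y - Q) v))
      (ip ((avg x - Q) v) (((avg x * avg y - Q) * (avg y - Q)) v))
    rw [hu, hr] at *
    simp only [ContinuousLinearMap.sub_apply] at h4 h5 h6
    linarith
  rw [show v - avg x v = w - u by rw [hu, hw]; abel, show v - avg y v = w - r by rw [hr, hw]; abel]
  rw [ip_sub_left, ip_self] at e1 e2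
  have sq0 : 0 ≤ ‖(131 / 100 : ℂ) • w - (u + r)‖ ^ 2 := sq_nonneg _
  rw [← ip_self] at sq0
  have es : ∀ a b : H, ip ((131 / 100 : ℂ) • a) b = 131 / 100 * ip a b := fun a b => by
    rw [ip, ip, inner_smul_left,
      show (131 / 100 : ℂ) = ((131 / 100 : ℝ) : ℂ) by norm_num, Complex.conj_ofReal,
      Complex.re_ofReal_mul]
  have et : ∀ a b : H, ip a ((131 / 100 : ℂ) • b) = 131 / 100 * ip a b := fun a b => by
    rw [ip_comm, es, ip_comm]
  simp only [ip_sub_left, ip_sub_right, ip_add_left, ip_add_right, es, et] at sq0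
  simp only [ip_self] at sq0
  rw [← ip_self (w - u), ← ip_self (w - r)]
  simp only [ip_sub_left, ip_sub_right]
  simp only [ip_self]
  simp only [ip_comm u w, ip_comm r w, ip_comm r u] at sq0 ⊢
  obtain ⟨p1, p2⟩ := abs_le.1 e1
  obtain ⟨q1, q2⟩ := abs_le.1 e2
  obtain ⟨t1, t2⟩ := abs_le.1 e3
  have am := two_mul_le_add_sq ‖u‖ ‖r‖
  have hn : 0 ≤ η * ‖v‖ ^ 2 := mul_nonneg hη0 (sq_nonneg _)
  nlinarith

end Pair

/-- The inequality for a commuting pair. -/
lemma comm_anticomm {η : ℝ} {x y : F → Op H} (hx : Hom η x) (hy : Hom η y)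
    (hc : ∀ c d, ‖x c * y d - y d * x c‖ ≤ η) (v : H) :
    -(200 * η) * ‖v‖ ^ 2 ≤ 2 * ip (v - avg x v) (v - avg y v) := by
  have hη := hx.eta_nonneg
  have hcomm : ‖avg x * avg y - avg y * avg x‖ ≤ η := by
    rw [avg_mul, mul_avg]
    refine avg_near fun c => ?_
    rw [mul_avg, avg_mul]
    exact avg_near fun d => hc c d
  have ha2 : ‖(1 : Op H) - avg x‖ ≤ 2 := (norm_sub_le _ _).trans
    (by linarith [norm_one_le (H := H), hx.norm_avg])
  have hb2 : ‖(1 : Op H) - avg y‖ ≤ 2 := (norm_sub_le _ _).trans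
    (by linarith [norm_one_le (H := H), hy.norm_avg])
  have sa : ‖star (1 - avg x) - (1 - avg x)‖ ≤ 5 * η := by
    rw [star_sub, star_one, sub_sub_sub_cancel_left, norm_sub_rev]; exact hx.star_avg
  have sb : ‖star (1 - avg y) - (1 - avg y)‖ ≤ 5 * η := by
    rw [star_sub, star_one, sub_sub_sub_cancel_left, norm_sub_rev]; exact hy.star_avg
  have haa : ‖(1 - avg x) * (1 - avg x) - (1 - avg x)‖ ≤ η := by
    rw [show (1 - avg x) * (1 - avg x) - (1 - avg x) = avg x * avg x - avg x by noncomm_ring]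
    exact hx.avg_sq
  have hbb : ‖(1 - avg y) * (1 - avg y) - (1 - avg y)‖ ≤ η := by
    rw [show (1 - avg y) * (1 - avg y) - (1 - avg y) = avg y * avg y - avg y by noncomm_ring]
    exact hy.avg_sq
  have hco : ‖(1 - avg y) * (1 - avg x) - (1 - avg x) * (1 - avg y)‖ ≤ η := by
    rw [show (1 - avg y) * (1 - avg x) - (1 - avg x) * (1 - avg y) =
      avg y * avg x - avg x * avg y by noncomm_ring]
    exact near_symm hcomm
  have key : ∀ A B : Op H, ‖A‖ ≤ 2 → ‖B‖ ≤ 2 → ‖star A - A‖ ≤ 5 * η → ‖star B - B‖ ≤ 5 * η →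
      ‖A * A - A‖ ≤ η → ‖B * B - B‖ ≤ η → ‖B * A - A * B‖ ≤ η →
      ‖star (A * B) * (A * B) - star A * B‖ ≤ 100 * η := by
    intro A B hA hB sA sB hAA hBB hBA
    rw [star_mul]
    refine near_trans (b := B * A * (A * B)) (r := 80 * η) ?_ (s := 20 * η) ?_ (by linarith)
    · refine near_mul_right _ (m := 4) ((norm_mul_le _ _).trans (by nlinarith [norm_nonneg A, norm_nonneg B]))
        (r := 20 * η) ?_ (by linarith)
      exact near_trans (near_mul_right _ (m := 2) (by rwa [norm_star]) sB le_rfl)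
        (near_mul_left _ hB sA le_rfl) (by linarith)
    · refine near_trans (b := B * (A * B)) (r := 4 * η) ?_ (s := 16 * η) ?_ (by linarith)
      · have := near_mul_left B hB (near_mul_right B hB hAA le_rfl) le_rfl
        simp only [mul_assoc] at this ⊢
        linarith
      · refine near_trans (b := A * B * B) (r := 2 * η) ?_ (s := 14 * η) ?_ (by linarith)
        · rw [← mul_assoc]
          exact near_mul_right _ hB hBA (by linarith)
        · refine near_trans (b := A * B) (r := 2 * η) ?_ (s := 12 * η) ?_ (by linarith)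
          · rw [mul_assoc]
            exact near_mul_left _ hA hBB le_rfl
          · exact near_mul_right _ hB (near_symm sA) (by linarith)
  have h1 := key _ _ ha2 hb2 sa sb haa hbb hco
  have h2 := ip_near h1 v
  rw [← ip_ops, ← ip_ops, ip_self] at h2
  have e : ∀ T : Op H, (1 - T) v = v - T v := fun T => rfl
  rw [← e, ← e]
  have := (abs_le.1 h2).2
  nlinarith [sq_nonneg ‖((1 - avg x) * (1 - avg y)) v‖]

end Vale.P083.Gap
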