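import Vale.Agent.P083.Spec

/-!
# P083 M1a: angles between fixed spaces of approximate representations
-/

namespace Vale.P083.Gap

instance fact_prime : Fact (Nat.Prime 11) := ⟨by norm_num⟩

open scoped ComplexConjugate

variable {H : Type} [NormedAddCommGroup H] [InnerProductSpace ℂ H]

/-- Bounded operators. -/
abbrev Op (H : Type) [NormedAddCommGroup H] [InnerProductSpace ℂ H] := H →L[ℂ] H

/-- Average over the field. -/
noncomputable def avg (a : F → Op H) : Op H := (11 : ℂ)⁻¹ • ∑ c, a c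

lemma near_trans {a b c : Op H} {r s t : ℝ} (h₁ : ‖a - b‖ ≤ r) (h₂ : ‖b - c‖ ≤ s)
    (h : r + s ≤ t) : ‖a - c‖ ≤ t :=
  ((norm_sub_le_norm_sub_add_norm_sub a b c).trans (add_le_add h₁ h₂)).trans h

lemma near_symm {a b : Op H} {r : ℝ} (h : ‖a - b‖ ≤ r) : ‖b - a‖ ≤ r := by
  rwa [norm_sub_rev]

lemma near_add {a a' b b' : Op H} {r s t : ℝ} (h₁ : ‖a - a'‖ ≤ r) (h₂ : ‖b - b'‖ ≤ s)
    (h : r + s ≤ t) : ‖a + b - (a' + b')‖ ≤ t := by
  rw [add_sub_add_comm]
  exact ((norm_add_le _ _).trans (add_le_add h₁ h₂)).trans h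

lemma near_sub {a a' b b' : Op H} {r s t : ℝ} (h₁ : ‖a - a'‖ ≤ r) (h₂ : ‖b - b'‖ ≤ s)
    (h : r + s ≤ t) : ‖a - b - (a' - b')‖ ≤ t := by
  rw [sub_sub_sub_comm]
  exact ((norm_sub_le _ _).trans (add_le_add h₁ h₂)).trans h

lemma near_mul_left (c : Op H) {a b : Op H} {m r t : ℝ} (hc : ‖c‖ ≤ m) (h : ‖a - b‖ ≤ r)
    (ht : m * r ≤ t) : ‖c * a - c * b‖ ≤ t := by
  rw [← mul_sub]
  exact ((norm_mul_le _ _).trans
    (mul_le_mul hc h (norm_nonneg _) ((norm_nonneg _).trans hc))).trans ht

lemma near_mul_right (c : Op H) {a b : Op H} {m r t : ℝ} (hc : ‖c‖ ≤ m) (h : ‖a - b‖ ≤ r)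
    (ht : r * m ≤ t) : ‖a * c - b * c‖ ≤ t := by
  rw [← sub_mul]
  exact ((norm_mul_le _ _).trans
    (mul_le_mul h hc (norm_nonneg _) ((norm_nonneg _).trans h))).trans ht

lemma norm_mul_le_one {a b : Op H} (ha : ‖a‖ ≤ 1) (hb : ‖b‖ ≤ 1) : ‖a * b‖ ≤ 1 :=
  (norm_mul_le _ _).trans (mul_le_one₀ ha (norm_nonneg _) hb)

lemma avg_norm_le {a : F → Op H} {r : ℝ} (h : ∀ c, ‖a c‖ ≤ r) : ‖avg a‖ ≤ r := by
  rw [avg, norm_smul, norm_inv, Complex.norm_ofNat]
  have h1 : ‖∑ c, a c‖ ≤ 11 * r := by
    refine (norm_sum_le _ _).trans ((Finset.sum_le_sum fun c _ => h c).trans ?_)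
    simp
  calc (11 : ℝ)⁻¹ * ‖∑ c, a c‖ ≤ (11 : ℝ)⁻¹ * (11 * r) := by gcongr
    _ = r := by ring

lemma avg_sub (a b : F → Op H) : avg a - avg b = avg (fun c => a c - b c) := by
  simp [avg, Finset.sum_sub_distrib, smul_sub]

lemma avg_add (a b : F → Op H) : avg a + avg b = avg (fun c => a c + b c) := by
  simp [avg, Finset.sum_add_distrib, smul_add]

lemma avg_near {a b : F → Op H} {r : ℝ} (h : ∀ c, ‖a c - b c‖ ≤ r) : ‖avg a - avg b‖ ≤ r := by
  rw [avg_sub]; exact avg_norm_le h

lemma avg_const (b : Op H) : avg (fun _ => b) = b := by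
  rw [avg, Finset.sum_const, Finset.card_univ, ZMod.card, ← Nat.cast_smul_eq_nsmul ℂ, smul_smul]
  norm_num

lemma avg_mul (a : F → Op H) (b : Op H) : avg a * b = avg (fun c => a c * b) := by
  simp [avg, Finset.sum_mul]

lemma mul_avg (a : F → Op H) (b : Op H) : b * avg a = avg (fun c => b * a c) := by
  simp [avg, Finset.mul_sum]

lemma avg_comp (e : F ≃ F) (a : F → Op H) : avg (fun c => a (e c)) = avg a := by
  rw [avg, avg, Equiv.sum_comp e a]

lemma avg_single (b : Op H) : avg (fun c => if c = 0 then b else 0) = (11 : ℂ)⁻¹ • b := by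
  simp [avg]

variable [CompleteSpace H]

lemma avg_star (a : F → Op H) : star (avg a) = avg (fun c => star (a c)) := by
  simp [avg, star_smul, star_sum]

lemma near_star {a b : Op H} {r : ℝ} (h : ‖a - b‖ ≤ r) : ‖star a - star b‖ ≤ r := by
  rwa [← star_sub, norm_star]

/-- An approximate unitary representation of the additive group of the field. -/
structure Hom (η : ℝ) (x : F → Op H) : Prop where
  norm_le : ∀ c, ‖x c‖ ≤ 1
  iso : ∀ c, ‖star (x c) * x c - 1‖ ≤ η
  add : ∀ c d, ‖x c * x d - x (c + d)‖ ≤ η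

namespace Hom

variable {η : ℝ} {x : F → Op H} (h : Hom η x)
include h

lemma eta_nonneg : 0 ≤ η := (norm_nonneg _).trans (h.iso 0)

lemma zero_near : ‖x 0 - 1‖ ≤ 3 * η := by
  have hη := h.eta_nonneg
  have h1 : ‖star (x 0) * x 0 * x 0 - 1 * x 0‖ ≤ η :=
    near_mul_right _ (h.norm_le 0) (h.iso 0) (by linarith)
  have h2 : ‖star (x 0) * (x 0 * x 0) - star (x 0) * x 0‖ ≤ η :=
    near_mul_left _ (m := 1) (by rw [norm_star]; exact h.norm_le 0)
      (by simpa using h.add 0 0) (by linarith)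
  rw [← mul_assoc] at h2
  rw [one_mul] at h1
  exact near_trans (near_trans (near_symm h1) h2 le_rfl) (h.iso 0) (by linarith)

lemma star_near (c : F) : ‖star (x c) - x (-c)‖ ≤ 5 * η := by
  have hη := h.eta_nonneg
  have hs : ‖star (x c)‖ ≤ 1 := by rw [norm_star]; exact h.norm_le c
  have h1 : ‖star (x c) * x c * x (-c) - 1 * x (-c)‖ ≤ η :=
    near_mul_right _ (h.norm_le _) (h.iso c) (by linarith)
  have h2 : ‖star (x c) * (x c * x (-c)) - star (x c) * x 0‖ ≤ η :=
    near_mul_left _ hs (by simpa using h.add c (-c)) (by linarith)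
  have h3 : ‖star (x c) * x 0 - star (x c) * 1‖ ≤ 3 * η :=
    near_mul_left _ hs h.zero_near (by linarith)
  rw [← mul_assoc] at h2
  rw [mul_one] at h3
  rw [one_mul] at h1
  exact near_symm (near_trans (near_trans (near_symm h1) h2 le_rfl) h3 (by linarith))

lemma norm_avg : ‖avg x‖ ≤ 1 := avg_norm_le h.norm_le

lemma star_avg : ‖star (avg x) - avg x‖ ≤ 5 * η := by
  rw [avg_star, ← avg_comp (Equiv.neg F) x]
  exact avg_near h.star_near

lemma avg_fix_left (c : F) : ‖x c * avg x - avg x‖ ≤ η := by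
  rw [mul_avg]
  rw [← avg_comp (Equiv.addLeft c) x]
  exact avg_near fun d => h.add c d

lemma avg_fix_right (c : F) : ‖avg x * x c - avg x‖ ≤ η := by
  rw [avg_mul]
  rw [← avg_comp (Equiv.addRight c) x]
  exact avg_near fun d => h.add d c

lemma avg_sq : ‖avg x * avg x - avg x‖ ≤ η := by
  rw [avg_mul]
  have h1 := avg_near (a := fun c => x c * avg x) (b := fun _ => avg x) h.avg_fix_left
  rwa [avg_const] at h1

end Hom

/-- An approximate Heisenberg pair. -/
structure Pair (η : ℝ) (x y z : F → Op H) : Prop where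
  hx : Hom η x
  hy : Hom η y
  hz : Hom η z
  heis : ∀ c d, ‖x c * y d - y d * x c * z (c * d)‖ ≤ η
  zx : ∀ c e, ‖z e * x c - x c * z e‖ ≤ η
  zy : ∀ d e, ‖z e * y d - y d * z e‖ ≤ η

namespace Pair

variable {η : ℝ} {x y z : F → Op H} (h : Pair η x y z)
include h

lemma Z_comm_x : ‖avg z * avg x - avg x * avg z‖ ≤ η := by
  rw [mul_avg, avg_mul]
  refine avg_near fun c => ?_
  rw [avg_mul, mul_avg]
  exact avg_near fun e => h.zx c e

lemma Z_comm_y : ‖avg z * avg y - avg y * avg z‖ ≤ η := by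
  rw [mul_avg, avg_mul]
  refine avg_near fun c => ?_
  rw [avg_mul, mul_avg]
  exact avg_near fun e => h.zy c e

lemma comm_on_Z : ‖avg x * avg y * avg z - avg y * avg x * avg z‖ ≤ 2 * η := by
  have key : ∀ c d, ‖x c * y d * avg z - y d * x c * avg z‖ ≤ 2 * η := fun c d =>
    near_trans (s := η) (near_mul_right _ h.hz.norm_avg (h.heis c d) (le_of_eq (mul_one η)))
      (by
        rw [mul_assoc (y d * x c)]
        exact near_mul_left _ (norm_mul_le_one (h.hy.norm_le d) (h.hx.norm_le c))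
          (h.hz.avg_fix_left (c * d)) (le_of_eq (one_mul η)))
      (by linarith)
  have e1 : avg x * avg y * avg z = avg (fun c => avg (fun d => x c * y d * avg z)) := by
    rw [avg_mul x, avg_mul]
    refine congrArg avg (funext fun c => ?_)
    rw [mul_avg y, avg_mul]
  have e2 : avg y * avg x * avg z = avg (fun c => avg (fun d => y d * x c * avg z)) := by
    rw [mul_avg x, avg_mul]
    refine congrArg avg (funext fun c => ?_)
    rw [avg_mul y, avg_mul]
  rw [e1, e2]
  exact avg_near fun c => avg_near (key c)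

lemma sandwich : ‖avg y * avg x * avg y -
    (avg y * avg x * avg z + (11 : ℂ)⁻¹ • (avg y - avg y * avg z))‖ ≤ 12 * η := by
  have hη := h.hx.eta_nonneg
  have e1 : avg y * avg x * avg y = avg (fun c => avg (fun d => avg y * (x c * y d))) := by
    rw [mul_assoc, avg_mul x, mul_avg]
    refine congrArg avg (funext fun c => ?_)
    rw [mul_avg y, mul_avg]
  have step : ∀ c, ‖avg (fun d => avg y * (x c * y d)) -
      (avg y * x c * avg z + if c = 0 then avg y - avg y * avg z else 0)‖ ≤ 12 * η := by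
    intro c
    have s1 : ∀ d, ‖avg y * (x c * y d) - avg y * x c * z (c * d)‖ ≤ 2 * η := fun d => by
      refine near_trans (b := avg y * (y d * x c * z (c * d)))
        (near_mul_left _ h.hy.norm_avg (h.heis c d) (le_of_eq (one_mul η))) ?_
        (le_of_eq (by ring : η + η = 2 * η))
      have := near_mul_right (x c * z (c * d))
        (norm_mul_le_one (h.hx.norm_le c) (h.hz.norm_le _)) (h.hy.avg_fix_right d)
        (le_of_eq (mul_one η))
      simpa [mul_assoc] using this
    refine near_trans (avg_near s1) (s := 10 * η) ?_ (by linarith)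
    rw [← mul_avg]
    by_cases hc : c = 0
    · subst hc
      simp only [zero_mul, avg_const, if_pos]
      have h1 : ‖avg y * x 0 * z 0 - avg y * 1‖ ≤ 6 * η := by
        rw [mul_assoc]
        refine near_mul_left _ h.hy.norm_avg (r := 6 * η) ?_ (by linarith)
        exact near_trans (s := 3 * η)
          (near_mul_right _ (h.hz.norm_le 0) h.hx.zero_near (le_of_eq (mul_one _)))
          (by rw [one_mul]; exact h.hz.zero_near) (by linarith)
      have h2 : ‖avg y * x 0 * avg z - avg y * avg z‖ ≤ 3 * η := by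
        refine near_mul_right _ h.hz.norm_avg (r := 3 * η) ?_ (by linarith)
        simpa using near_mul_left _ h.hy.norm_avg h.hx.zero_near (le_of_eq (one_mul _))
      rw [mul_one] at h1
      have h3 := near_add (t := 10 * η) h1 (near_symm h2) (by linarith)
      rw [add_sub_assoc] at h3
      calc ‖avg y * x 0 * z 0 - (avg y * x 0 * avg z + (avg y - avg y * avg z))‖
          = ‖avg y * x 0 * z 0 + (avg y * avg z - (avg y + avg y * x 0 * avg z))‖ := by
            congr 1; abel
        _ ≤ 10 * η := h3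
    · have e : avg (fun d => z (c * d)) = avg z := avg_comp (Equiv.mulLeft₀ c hc) z
      rw [e, if_neg hc, add_zero, sub_self, norm_zero]
      linarith
  rw [e1, ← avg_single, mul_avg x, avg_mul, avg_add]
  exact avg_near step

/-- The limit projection `Q`. -/
lemma Q_facts :
    ‖avg x * avg y * avg z‖ ≤ 1 ∧
    ‖avg x * (avg x * avg y * avg z) - avg x * avg y * avg z‖ ≤ η ∧
    ‖avg y * (avg x * avg y * avg z) - avg x * avg y * avg z‖ ≤ 5 * η ∧
    ‖avg x * avg y * avg z * avg y - avg x * avg y * avg z‖ ≤ 2 * η ∧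
    ‖avg x * avg y * avg z * avg x - avg x * avg y * avg z‖ ≤ 6 * η ∧
    ‖avg x * avg y * avg z * (avg x * avg y * avg z) - avg x * avg y * avg z‖ ≤ 9 * η ∧
    ‖star (avg x * avg y * avg z) - avg x * avg y * avg z‖ ≤ 19 * η := by
  have hη := h.hx.eta_nonneg
  have hL1 := h.comm_on_Z
  set a := avg x
  set b := avg y
  set Z := avg z
  have ha : ‖a‖ ≤ 1 := h.hx.norm_avg
  have hb : ‖b‖ ≤ 1 := h.hy.norm_avg
  have hZ : ‖Z‖ ≤ 1 := h.hz.norm_avg
  have haa : ‖a * a - a‖ ≤ η := h.hx.avg_sq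
  have hbb : ‖b * b - b‖ ≤ η := h.hy.avg_sq
  have hZZ : ‖Z * Z - Z‖ ≤ η := h.hz.avg_sq
  have hab := norm_mul_le_one ha hb
  have hba := norm_mul_le_one hb ha
  have hQ := norm_mul_le_one hab hZ
  have hcx : ‖Z * a - a * Z‖ ≤ η := h.Z_comm_x
  have hcy : ‖Z * b - b * Z‖ ≤ η := h.Z_comm_y
  have sa : ‖star a - a‖ ≤ 5 * η := h.hx.star_avg
  have sb : ‖star b - b‖ ≤ 5 * η := h.hy.star_avg
  have sZ : ‖star Z - Z‖ ≤ 5 * η := h.hz.star_avg
  clear_value a b Z
  have f2 : ‖a * (a * b * Z) - a * b * Z‖ ≤ η := by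
    simpa [mul_assoc] using near_mul_right (b * Z) (norm_mul_le_one hb hZ) haa
      (le_of_eq (mul_one η))
  have f3 : ‖b * (a * b * Z) - a * b * Z‖ ≤ 5 * η := by
    refine near_trans (b := b * a * Z) (r := 3 * η) ?_ (near_symm hL1) (by linarith)
    refine near_trans (b := b * (b * a * Z)) (near_mul_left _ hb hL1 (le_of_eq (one_mul _)))
      (s := η) ?_ (by linarith)
    simpa [mul_assoc] using near_mul_right (a * Z) (norm_mul_le_one ha hZ) hbb
      (le_of_eq (mul_one η))
  have f4 : ‖a * b * Z * b - a * b * Z‖ ≤ 2 * η := by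
    refine near_trans (b := a * b * (b * Z)) (r := η) ?_ (s := η) ?_ (by linarith)
    · rw [mul_assoc (a * b)]
      exact near_mul_left _ hab hcy (le_of_eq (one_mul η))
    · simpa [mul_assoc] using near_mul_left a ha
        (near_mul_right Z hZ hbb (le_of_eq (mul_one η))) (le_of_eq (one_mul η))
  have f5 : ‖a * b * Z * a - a * b * Z‖ ≤ 6 * η := by
    refine near_trans (b := b * a * Z * a) (near_mul_right _ ha hL1 (le_of_eq (mul_one _)))
      (s := 4 * η) ?_ (by linarith)
    refine near_trans (b := b * a * (a * Z)) (r := η) ?_ (s := 3 * η) ?_ (by linarith)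
    · rw [mul_assoc (b * a)]
      exact near_mul_left _ hba hcx (le_of_eq (one_mul η))
    · refine near_trans (b := b * a * Z) (r := η) ?_ (near_symm hL1) (by linarith)
      simpa [mul_assoc] using near_mul_left b hb
        (near_mul_right Z hZ haa (le_of_eq (mul_one η))) (le_of_eq (one_mul η))
  have f6 : ‖a * b * Z * (a * b * Z) - a * b * Z‖ ≤ 9 * η := by
    refine near_trans (b := a * b * Z * (b * Z)) (r := 6 * η) ?_ (s := 3 * η) ?_ (by linarith)
    · have := near_mul_right (b * Z) (norm_mul_le_one hb hZ) f5 (t := 6 * η) (le_of_eq (mul_one (6 * η)))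
      rw [mul_assoc (a * b * Z) a (b * Z), ← mul_assoc a b Z] at this
      exact this
    · refine near_trans (b := a * b * Z * Z) (r := 2 * η) ?_ (s := η) ?_ (by linarith)
      · have := near_mul_right Z hZ f4 (t := 2 * η) (le_of_eq (mul_one (2 * η)))
        rw [mul_assoc (a * b * Z) b Z] at this
        exact this
      · rw [mul_assoc]
        exact near_mul_left _ hab hZZ (le_of_eq (one_mul η))
  refine ⟨hQ, f2, f3, f4, f5, f6, ?_⟩
  rw [star_mul, star_mul]
  refine near_trans (b := Z * (b * a)) (r := 15 * η) ?_ (s := 4 * η) ?_ (by linarith)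
  · refine near_trans (b := Z * (star b * star a))
      (near_mul_right _ (norm_mul_le_one (by rwa [norm_star]) (by rwa [norm_star])) sZ
        (le_of_eq (mul_one _))) (s := 10 * η) ?_ (by linarith)
    refine near_mul_left _ hZ (r := 10 * η) ?_ (by linarith)
    exact near_trans (near_mul_right _ (by rwa [norm_star]) sb (le_of_eq (mul_one _)))
      (near_mul_left _ hb sa (le_of_eq (one_mul _))) (by linarith)
  · refine near_trans (b := b * Z * a) (r := η) ?_ (s := 3 * η) ?_ (by linarith)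
    · rw [← mul_assoc]
      exact near_mul_right _ ha hcy (le_of_eq (mul_one η))
    · refine near_trans (b := b * a * Z) (r := η) ?_ (near_symm hL1) (by linarith)
      rw [mul_assoc, mul_assoc]
      exact near_mul_left _ hb hcx (le_of_eq (one_mul η))

end Pair

end Vale.P083.Gap
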