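import Vale.Agent.P083.Spec
import Vale.Agent.P083.Mop

/-!
# P083, M4: almost invariant vectors at every level

The sections carry an almost invariant vector of level `n` to one of level `n + 1` at the cost of a
constant factor in displacement; the gap resets the displacement, so nothing accumulates.
-/

namespace Vale.P083

open scoped ComplexConjugate
open ContinuousLinearMap

noncomputable section

/-- The pairing of labels and digits. -/
def dot (a d : V) : F := a.1 * d.1 + a.2.1 * d.2.1 + a.2.2 * d.2.2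

lemma sum_chi_mul (b : F) : ∑ x : F, chi (x * b) = if b = 0 then 11 else 0 := by
  have h := AddChar.sum_mulShift b (ZMod.isPrimitive_stdAddChar 11)
  simp only [ZMod.card] at h
  rw [show (fun x : F => chi (x * b)) = fun x => ZMod.stdAddChar (x * b) from rfl, h]
  split <;> simp

lemma sum_chi_dot (a : V) : ∑ d : V, chi (dot a d) = if a = 0 then (1331 : ℂ) else 0 := by
  have e : ∀ d : V, chi (dot a d) =
      chi (d.1 * a.1) * (chi (d.2.1 * a.2.1) * chi (d.2.2 * a.2.2)) := fun d => by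
    rw [← chi_add, ← chi_add]; congr 1; simp [dot]; ring
  simp only [e, Fintype.sum_prod_type, ← Finset.mul_sum, ← Finset.sum_mul, sum_chi_mul]
  obtain ⟨a1, a2, a3⟩ := a
  simp only [Prod.mk_eq_zero]
  by_cases h1 : a1 = 0 <;> by_cases h2 : a2 = 0 <;> by_cases h3 : a3 = 0 <;> simp [h1, h2, h3]
  norm_num

variable {H : Type} [NormedAddCommGroup H] [InnerProductSpace ℂ H]

/-- The finite Fourier transform of a family indexed by labels. -/
def four (u : V → H) (d : V) : H := ∑ a, chi (-dot a d) • u a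

lemma four_sub (u w : V → H) (d : V) :
    four u d - four w d = four (fun a => u a - w a) d := by
  simp [four, smul_sub]

lemma parseval (u : V → H) : ∑ d, ‖four u d‖ ^ 2 = 1331 * ∑ a, ‖u a‖ ^ 2 := by
  have h : ((∑ d, ‖four u d‖ ^ 2 : ℝ) : ℂ) = ((1331 * ∑ a, ‖u a‖ ^ 2 : ℝ) : ℂ) := by
    push_cast
    simp only [← inner_self_eq_norm_sq_to_K (𝕜 := ℂ), ← RCLike.ofReal_eq_complex_ofReal]
    simp only [four, inner_sum, sum_inner, inner_smul_left, inner_smul_right, conj_chi, neg_neg]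
    rw [Finset.sum_comm, Finset.mul_sum]
    refine Finset.sum_congr rfl fun a _ => ?_
    simp only [Finset.mul_sum]
    rw [Finset.sum_comm]
    have e : ∀ b d, chi (-dot a d) * (chi (dot b d) * inner ℂ (u b) (u a)) =
        chi (dot (b - a) d) * inner ℂ (u b) (u a) := fun b d => by
      rw [← mul_assoc, ← chi_add]; congr 2; simp [dot]; ring
    simp only [e, ← Finset.sum_mul, sum_chi_dot, sub_eq_zero]
    simp
  exact_mod_cast h

lemma sq_norm_add_le {u w : H} {p q : ℝ} (hu : ‖u‖ ≤ p) (hw : ‖w‖ ≤ q) :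
    ‖u + w‖ ^ 2 ≤ 2 * (p ^ 2 + q ^ 2) :=
  (pow_le_pow_left₀ (norm_nonneg _) ((norm_add_le u w).trans (add_le_add hu hw)) 2).trans
    (by nlinarith [sq_nonneg (p - q)])

/-- Moving an operator across a section. -/
lemma swap_le {x s s' y : H →L[ℂ] H} {η : ℝ} (h : ‖x * s - s' * y‖ ≤ η) (hs : ‖s'‖ ≤ 1)
    (f g : H) : ‖x (s f) - s' g‖ ^ 2 ≤ 2 * (η ^ 2 * ‖f‖ ^ 2 + ‖y f - g‖ ^ 2) := by
  rw [show x (s f) - s' g = (x * s - s' * y) f + s' (y f - g) by simp, ← mul_pow]
  refine sq_norm_add_le ((le_opNorm _ _).trans (mul_le_mul_of_nonneg_right h (norm_nonneg _))) ?_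
  exact (le_opNorm _ _).trans (mul_le_of_le_one_left (norm_nonneg _) hs)

variable {W : Type} [Fintype W]

/-- Prepend a digit through the sections. -/
def secMap (s : V → (H →L[ℂ] H)) (f : W → H) (p : V × W) : H :=
  four (fun a => s a (f p.2)) p.1

/-- Translation of labels. -/
def labAe (c : F) : V ≃ V where
  toFun := labA c
  invFun := labA (-c)
  left_inv a := by simp [labA]
  right_inv a := by simp [labA]

/-- Translation of labels. -/
def labBe (c : F) : V ≃ V where
  toFun := labB c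
  invFun := labB (-c)
  left_inv a := by simp [labB]
  right_inv a := by simp [labB]

/-- Translation of labels. -/
def labTe (c : F) : V ≃ V where
  toFun := labT c
  invFun := labT (-c)
  left_inv a := by simp [labT]
  right_inv a := by simp [labT]

lemma sum_four (u : W → V → H) :
    ∑ p : V × W, ‖four (u p.2) p.1‖ ^ 2 = 1331 * ∑ b, ∑ a, ‖u b a‖ ^ 2 := by
  rw [Fintype.sum_prod_type, Finset.sum_comm, Finset.mul_sum]
  exact Finset.sum_congr rfl fun b _ => parseval (u b)

lemma card_V : Fintype.card V = 1331 := by simp [Fintype.card_prod, ZMod.card]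

variable {S : Sol (H →L[ℂ] H)} [CompleteSpace H] {η : ℝ}

/-- Displacement of `secMap` under the linear families `A` and `B`. -/
lemma step_lin (hS : Rel η S) (i : Fin 4) (c : F) (e : V ≃ V) (M : V → V)
    (hdot : ∀ a d, dot (e a) (M d) = dot a d)
    (hsec : ∀ a, ‖S.x i c * S.s a - S.s (e a) * S.x i c‖ ≤ η) (f : W → H) (π : W → W) :
    ∑ p : V × W, ‖S.x i c (secMap S.s f p) - secMap S.s f (M p.1, π p.2)‖ ^ 2 ≤
      2 * 1331 ^ 2 * (η ^ 2 * (∑ b, ‖f b‖ ^ 2) + ∑ b, ‖S.x i c (f b) - f (π b)‖ ^ 2) := by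
  have h : ∀ p : V × W, S.x i c (secMap S.s f p) - secMap S.s f (M p.1, π p.2) =
      four (fun a => S.x i c (S.s a (f p.2)) - S.s (e a) (f (π p.2))) p.1 := fun p => by
    rw [← four_sub]
    simp only [secMap, four, map_sum, map_smul]
    rw [← e.sum_comp (fun a => chi (-dot a (M p.1)) • S.s a (f (π p.2)))]
    simp [hdot]
  simp only [h]
  rw [sum_four (fun b a => S.x i c (S.s a (f b)) - S.s (e a) (f (π b)))]
  calc 1331 * ∑ b, ∑ a, ‖S.x i c (S.s a (f b)) - S.s (e a) (f (π b))‖ ^ 2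
      ≤ 1331 * ∑ b, ∑ _a : V, 2 * (η ^ 2 * ‖f b‖ ^ 2 + ‖S.x i c (f b) - f (π b)‖ ^ 2) :=
        mul_le_mul_of_nonneg_left (Finset.sum_le_sum fun b _ => Finset.sum_le_sum fun a _ =>
          swap_le (hsec a) (hS.norm_s _) _ _) (by norm_num)
    _ = _ := by
        simp only [Finset.sum_const, Finset.card_univ, card_V, nsmul_eq_mul, Finset.mul_sum,
          ← Finset.sum_add_distrib]
        exact Finset.sum_congr rfl fun b _ => by push_cast; ring

/-- Displacement of `secMap` under `τ`. -/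
lemma step_T (hS : Rel η S) (c : F) (f : W → H) :
    ∑ p : V × W, ‖chi (-(c * p.1.2.2)) • S.x 3 c (secMap S.s f p) - secMap S.s f p‖ ^ 2 ≤
      1331 ^ 2 * (η ^ 2 * ∑ b, ‖f b‖ ^ 2) := by
  have h : ∀ p : V × W, chi (-(c * p.1.2.2)) • S.x 3 c (secMap S.s f p) - secMap S.s f p =
      chi (-(c * p.1.2.2)) •
        four (fun a => S.x 3 c (S.s a (f p.2)) - S.s (labT c a) (f p.2)) p.1 := fun p => by
    rw [← four_sub, smul_sub]
    simp only [secMap, four, map_sum, map_smul]
    congr 1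
    rw [← (labTe c).sum_comp (fun a => chi (-dot a p.1) • S.s a (f p.2)), Finset.smul_sum]
    refine Finset.sum_congr rfl fun a _ => ?_
    rw [smul_smul, ← chi_add]
    congr 2
    simp [labTe, labT, dot]
    ring
  simp only [h, norm_smul, norm_chi, one_mul]
  rw [sum_four (fun b a => S.x 3 c (S.s a (f b)) - S.s (labT c a) (f b))]
  calc 1331 * ∑ b, ∑ a, ‖S.x 3 c (S.s a (f b)) - S.s (labT c a) (f b)‖ ^ 2
      ≤ 1331 * ∑ b, ∑ _a : V, η ^ 2 * ‖f b‖ ^ 2 :=
        mul_le_mul_of_nonneg_left (Finset.sum_le_sum fun b _ => Finset.sum_le_sum fun a _ => by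
          rw [← mul_pow]
          refine pow_le_pow_left₀ (norm_nonneg _) ?_ 2
          rw [show S.x 3 c (S.s a (f b)) - S.s (labT c a) (f b) =
            (S.x 3 c * S.s a - S.s (labT c a)) (f b) by simp]
          exact (le_opNorm _ _).trans
            (mul_le_mul_of_nonneg_right (hS.secT c a) (norm_nonneg _))) (by norm_num)
    _ = _ := by
        simp only [Finset.sum_const, Finset.card_univ, card_V, nsmul_eq_mul, Finset.mul_sum]
        exact Finset.sum_congr rfl fun b _ => by push_cast; ring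

/-- Displacement of `secMap` under `C`. -/
lemma step_C (hS : Rel η S) (c : F) (f : W → H) (π : W ≃ W) (β : W → F)
    (hβ : ∀ b, β (π b) = β b) (δ : ℝ)
    (h2 : ∑ b, ‖S.x 2 c (f b) - f (π b)‖ ^ 2 ≤ δ)
    (h3 : ∀ e, ∑ b, ‖chi (-(e * β b)) • S.x 3 e (f b) - f b‖ ^ 2 ≤ δ) :
    ∑ p : V × W, ‖S.x 2 c (secMap S.s f p) -
        secMap S.s f ((p.1.1 - c * β p.2, p.1.2.1, p.1.2.2), π p.2)‖ ^ 2 ≤
      2 * 1331 ^ 2 * (η ^ 2 * (∑ b, ‖f b‖ ^ 2) + 4 * δ) := by
  have h : ∀ p : V × W, S.x 2 c (secMap S.s f p) -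
      secMap S.s f ((p.1.1 - c * β p.2, p.1.2.1, p.1.2.2), π p.2) =
      four (fun a => S.x 2 c (S.s a (f p.2)) -
        S.s a (chi (c * a.1 * β p.2) • f (π p.2))) p.1 := fun p => by
    rw [← four_sub]
    simp only [secMap, four, map_sum, map_smul, smul_smul, ← chi_add]
    congr 1
    refine Finset.sum_congr rfl fun a _ => ?_
    congr 2
    simp [dot]
    ring
  simp only [h]
  rw [sum_four (fun b a => S.x 2 c (S.s a (f b)) - S.s a (chi (c * a.1 * β b) • f (π b)))]
  have inner_le : ∀ a : V, ∑ b, ‖(S.x 3 (c * a.1) * S.x 2 c) (f b) -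
      chi (c * a.1 * β b) • f (π b)‖ ^ 2 ≤ 4 * δ := fun a => by
    set e := c * a.1
    calc ∑ b, ‖(S.x 3 e * S.x 2 c) (f b) - chi (e * β b) • f (π b)‖ ^ 2
        ≤ ∑ b, 2 * (‖S.x 2 c (f b) - f (π b)‖ ^ 2 +
            ‖chi (-(e * β (π b))) • S.x 3 e (f (π b)) - f (π b)‖ ^ 2) :=
          Finset.sum_le_sum fun b _ => by
            rw [show (S.x 3 e * S.x 2 c) (f b) - chi (e * β b) • f (π b) =
              S.x 3 e (S.x 2 c (f b) - f (π b)) +
                chi (e * β b) • (chi (-(e * β (π b))) • S.x 3 e (f (π b)) - f (π b)) by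
              rw [hβ, smul_sub, smul_smul, ← chi_add, add_neg_cancel, chi_zero, one_smul]
              simp]
            refine sq_norm_add_le ((le_opNorm _ _).trans
              (mul_le_of_le_one_left (norm_nonneg _) (hS.grp.norm_x _ _))) ?_
            rw [norm_smul, norm_chi, one_mul]
      _ ≤ 4 * δ := by
          rw [← Finset.mul_sum, Finset.sum_add_distrib,
            π.sum_comp (fun b => ‖chi (-(e * β b)) • S.x 3 e (f b) - f b‖ ^ 2)]
          linarith [h3 e]
  calc 1331 * ∑ b, ∑ a, ‖S.x 2 c (S.s a (f b)) - S.s a (chi (c * a.1 * β b) • f (π b))‖ ^ 2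
      ≤ 1331 * ∑ b, ∑ a : V, 2 * (η ^ 2 * ‖f b‖ ^ 2 +
          ‖(S.x 3 (c * a.1) * S.x 2 c) (f b) - chi (c * a.1 * β b) • f (π b)‖ ^ 2) :=
        mul_le_mul_of_nonneg_left (Finset.sum_le_sum fun b _ => Finset.sum_le_sum fun a _ =>
          swap_le (by rw [← mul_assoc]; exact hS.secC c a) (hS.norm_s _) _ _) (by norm_num)
    _ = 1331 * (2 * (1331 * (η ^ 2 * ∑ b, ‖f b‖ ^ 2) +
          ∑ a : V, ∑ b, ‖(S.x 3 (c * a.1) * S.x 2 c) (f b) -
            chi (c * a.1 * β b) • f (π b)‖ ^ 2)) := by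
        simp only [← Finset.mul_sum, Finset.sum_add_distrib, Finset.sum_const, Finset.card_univ,
          card_V, nsmul_eq_mul]
        rw [Finset.sum_comm]
        simp [Finset.mul_sum, mul_left_comm]
    _ ≤ _ := by
        have := Finset.sum_le_sum fun a (_ : a ∈ Finset.univ) => inner_le a
        rw [Finset.sum_const, Finset.card_univ, card_V, nsmul_eq_mul] at this
        norm_num only [Nat.cast_ofNat] at this ⊢
        linarith

omit [Fintype W] in
lemma sq_norm_ge_of_iso {s : H →L[ℂ] H} (h : ‖star s * s - 1‖ ≤ η) (v : H) :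
    (1 - η) * ‖v‖ ^ 2 ≤ ‖s v‖ ^ 2 := by
  have e : ‖s v‖ ^ 2 = ‖v‖ ^ 2 + (inner ℂ ((star s * s - 1) v) v).re := by
    rw [s.apply_norm_sq_eq_inner_adjoint_left v, ← star_eq_adjoint, ← ContinuousLinearMap.mul_def]
    simp [inner_sub_left, ← Complex.ofReal_pow]
  have h2 : |(inner ℂ ((star s * s - 1) v) v).re| ≤ η * ‖v‖ ^ 2 := by
    refine ((Complex.abs_re_le_norm _).trans (norm_inner_le_norm _ _)).trans ?_
    rw [sq, ← mul_assoc]
    exact mul_le_mul_of_nonneg_right
      ((le_opNorm _ _).trans (mul_le_mul_of_nonneg_right h (norm_nonneg _))) (norm_nonneg _)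
  linarith [(abs_le.1 h2).1]

lemma norm_sq_secMap (hS : Rel η S) (f : W → H) :
    1331 ^ 2 * (1 - η) * ∑ b, ‖f b‖ ^ 2 ≤ ∑ p : V × W, ‖secMap S.s f p‖ ^ 2 := by
  unfold secMap
  rw [sum_four (fun b a => S.s a (f b)), sq, mul_assoc, mul_assoc]
  refine mul_le_mul_of_nonneg_left ?_ (by norm_num)
  rw [Finset.mul_sum, Finset.mul_sum]
  refine Finset.sum_le_sum fun b _ => ?_
  calc 1331 * ((1 - η) * ‖f b‖ ^ 2) = ∑ _a : V, (1 - η) * ‖f b‖ ^ 2 := by
        simp only [Finset.sum_const, Finset.card_univ, card_V, nsmul_eq_mul]; push_cast; ring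
    _ ≤ ∑ a, ‖S.s a (f b)‖ ^ 2 := Finset.sum_le_sum fun a _ =>
        sq_norm_ge_of_iso (by simpa using hS.orth a a) _

/-- The head digit and the tail of a digit sequence of level `n + 1`. -/
def split (n : ℕ) : Vale.P083.W (n + 1) ≃ V × Vale.P083.W n where
  toFun b := (b.1 0, ⟨Fin.tail b.1, by simpa [Fin.tail] using b.2⟩)
  invFun p := ⟨Fin.cons p.1 p.2.1, by simpa [← Fin.succ_last] using p.2.2⟩
  left_inv b := Subtype.ext (Fin.cons_self_tail b.1)
  right_inv p := by ext1 <;> simp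

lemma nxt_succ {n : ℕ} (b : Dg (n + 1)) (m : Fin (n + 1)) :
    nxt b m.succ = nxt (Fin.tail b) m := by
  simp only [nxt, Fin.val_succ, Fin.tail, Nat.add_lt_add_iff_right]
  split <;> rfl

lemma nxt_zero {n : ℕ} (b : Dg (n + 1)) : nxt b 0 = Fin.tail b 0 := by simp [nxt, Fin.tail]

lemma tail_act {n : ℕ} (i : Fin 4) (c : F) (b : Dg (n + 1)) :
    Fin.tail (act i c b) = act i c (Fin.tail b) := by
  fin_cases i <;> funext m <;> simp [act, Fin.tail, nxt_succ]

lemma split_perm_snd {n : ℕ} (i : Fin 4) (c : F) (b : Vale.P083.W (n + 1)) :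
    (split n (perm (n + 1) i c b)).2 = perm n i c (split n b).2 :=
  Subtype.ext (tail_act i c b.1)

lemma act2_third {n : ℕ} (c : F) (b : Dg n) (m : Fin (n + 1)) :
    (act 2 c b m).2.2 = (b m).2.2 := by simp [act]

lemma norm_sq_Ux_sub {n : ℕ} (x : Fin 4 → F → (H →L[ℂ] H)) (i : Fin 4) (c : F)
    (f : L2 (Vale.P083.W n) H) :
    ‖Ux n x i c f - f‖ ^ 2 = ∑ b, ‖ph n i c b • x i c (f b) - f (perm n i c b)‖ ^ 2 := by
  rw [norm_sq_L2, ← Equiv.sum_comp (perm n i c)]
  simp [Ux, mop_apply_map]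

lemma perm_three {n : ℕ} (c : F) (b : Vale.P083.W n) : perm n 3 c b = b := Subtype.ext rfl

lemma ph_ne {n : ℕ} {i : Fin 4} (hi : i ≠ 3) (c : F) (b : Vale.P083.W n) :
    ph n i c b = 1 := if_neg hi

/-- Prepending a digit costs a constant factor in displacement. -/
lemma step (hS : Rel η S) {n : ℕ} (f : L2 (Vale.P083.W n) H) :
    ∃ g : L2 (Vale.P083.W (n + 1)) H, 1331 ^ 2 * (1 - η) * ‖f‖ ^ 2 ≤ ‖g‖ ^ 2 ∧
      disp (Ux (n + 1) S.x) g ≤
        88 * 1331 ^ 2 * (η ^ 2 * ‖f‖ ^ 2 + 4 * disp (Ux n S.x) f) := by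
  refine ⟨WithLp.toLp 2 fun b => secMap S.s (fun b => f b) (split n b), ?_, ?_⟩
  · rw [norm_sq_L2 (W := Vale.P083.W (n + 1)), norm_sq_L2]
    simp only [(split n).sum_comp (fun p => ‖secMap S.s (fun b => f b) p‖ ^ 2)]
    exact norm_sq_secMap hS _
  set δ := disp (Ux n S.x) f
  have hδ : ∀ i c, ∑ b, ‖ph n i c b • S.x i c (f b) - f (perm n i c b)‖ ^ 2 ≤ δ := fun i c => by
    rw [← norm_sq_Ux_sub]
    exact (Finset.single_le_sum (f := fun c => ‖Ux n S.x i c f - f‖ ^ 2)
      (fun _ _ => sq_nonneg _) (Finset.mem_univ c)).trans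
      (Finset.single_le_sum (f := fun i => ∑ c, ‖Ux n S.x i c f - f‖ ^ 2)
        (fun _ _ => Finset.sum_nonneg fun _ _ => sq_nonneg _) (Finset.mem_univ i))
  have hδ0 : 0 ≤ δ := Finset.sum_nonneg fun _ _ => Finset.sum_nonneg fun _ _ => sq_nonneg _
  have hF0 : 0 ≤ η ^ 2 * ‖f‖ ^ 2 := by positivity
  have hlin : ∀ (i : Fin 4) (c : F) (e : V ≃ V) (M : V → V),
      (∀ a d, dot (e a) (M d) = dot a d) →
      (∀ a, ‖S.x i c * S.s a - S.s (e a) * S.x i c‖ ≤ η) → i ≠ 3 →
      (∀ b, (split n (perm (n + 1) i c b)).1 = M (split n b).1) →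
      ∑ b, ‖ph (n + 1) i c b • S.x i c (secMap S.s (fun b => f b) (split n b)) -
          secMap S.s (fun b => f b) (split n (perm (n + 1) i c b))‖ ^ 2 ≤
        2 * 1331 ^ 2 * (η ^ 2 * ‖f‖ ^ 2 + 4 * δ) := by
    intro i c e M hdot hsec hi hM
    have e1 : ∀ b, ph (n + 1) i c b • S.x i c (secMap S.s (fun b => f b) (split n b)) -
        secMap S.s (fun b => f b) (split n (perm (n + 1) i c b)) =
        S.x i c (secMap S.s (fun b => f b) (split n b)) -
          secMap S.s (fun b => f b) (M (split n b).1, perm n i c (split n b).2) := fun b => by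
      rw [ph_ne hi, one_smul]
      congr 2
      exact Prod.ext (hM b) (split_perm_snd i c b)
    simp only [e1]
    rw [(split n).sum_comp (fun p => ‖S.x i c (secMap S.s (fun b => f b) p) -
      secMap S.s (fun b => f b) (M p.1, perm n i c p.2)‖ ^ 2)]
    refine (step_lin hS i c e M hdot hsec _ _).trans ?_
    rw [← norm_sq_L2]
    have := hδ i c
    simp only [ph_ne hi, one_smul] at this
    nlinarith
  have key : ∀ i c, ‖Ux (n + 1) S.x i c (WithLp.toLp 2 fun b =>
        secMap S.s (fun b => f b) (split n b)) -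
      WithLp.toLp 2 (fun b => secMap S.s (fun b => f b) (split n b))‖ ^ 2 ≤
        2 * 1331 ^ 2 * (η ^ 2 * ‖f‖ ^ 2 + 4 * δ) := fun i c => by
    rw [norm_sq_Ux_sub]
    simp only [WithLp.ofLp_toLp]
    match i with
    | 0 =>
      exact hlin 0 c (labAe c) (fun d => (d.1, d.2.1 - c * d.1, d.2.2))
          (fun a d => by simp [labAe, labA, dot]; ring) (fun a => hS.secA c a) (by decide)
          (fun b => by simp [split, perm, act])
    | 1 =>
      exact hlin 1 c (labBe c) (fun d => (d.1, d.2.1, d.2.2 - c * d.2.1))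
          (fun a d => by simp [labBe, labB, dot]; ring) (fun a => hS.secB c a) (by decide)
          (fun b => by simp [split, perm, act])
    | 2 =>
      have e1 : ∀ b, ph (n + 1) 2 c b • S.x 2 c (secMap S.s (fun b => f b) (split n b)) -
          secMap S.s (fun b => f b) (split n (perm (n + 1) 2 c b)) =
          S.x 2 c (secMap S.s (fun b => f b) (split n b)) -
            secMap S.s (fun b => f b) (((split n b).1.1 - c * (((split n b).2).1 0).2.2,
              (split n b).1.2.1, (split n b).1.2.2), perm n 2 c (split n b).2) := fun b => by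
        rw [ph_ne (by decide), one_smul]
        congr 2
        refine Prod.ext ?_ (split_perm_snd 2 c b)
        simp [split, perm, act, nxt_zero]
      simp only [e1]
      rw [(split n).sum_comp (fun p => ‖S.x 2 c (secMap S.s (fun b => f b) p) -
        secMap S.s (fun b => f b) ((p.1.1 - c * ((p.2).1 0).2.2, p.1.2.1, p.1.2.2),
          perm n 2 c p.2)‖ ^ 2), norm_sq_L2 (W := Vale.P083.W n)]
      refine step_C hS c _ (perm n 2 c) (fun b => (b.1 0).2.2)
        (fun b => act2_third c b.1 0) δ ?_ (fun e => ?_)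
      · have := hδ 2 c
        simpa [ph_ne] using this
      · simpa [ph, perm_three] using hδ 3 e
    | 3 =>
      have e1 : ∀ b, ph (n + 1) 3 c b • S.x 3 c (secMap S.s (fun b => f b) (split n b)) -
          secMap S.s (fun b => f b) (split n (perm (n + 1) 3 c b)) =
          chi (-(c * (split n b).1.2.2)) • S.x 3 c (secMap S.s (fun b => f b) (split n b)) -
            secMap S.s (fun b => f b) (split n b) := fun b => by
        simp [ph, split, perm, act]
      simp only [e1]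
      rw [(split n).sum_comp (fun p => ‖chi (-(c * p.1.2.2)) •
        S.x 3 c (secMap S.s (fun b => f b) p) - secMap S.s (fun b => f b) p‖ ^ 2)]
      refine (step_T hS c _).trans ?_
      rw [← norm_sq_L2]
      nlinarith
  calc disp (Ux (n + 1) S.x) _ ≤ ∑ _i : Fin 4, ∑ _c : F,
        2 * 1331 ^ 2 * (η ^ 2 * ‖f‖ ^ 2 + 4 * δ) :=
      Finset.sum_le_sum fun i _ => Finset.sum_le_sum fun c _ => key i c
    _ = _ := by
      simp only [Finset.sum_const, Finset.card_univ, Fintype.card_fin, ZMod.card, nsmul_eq_mul]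
      push_cast; ring

/-- The embedding of level `0` into digits. -/
def dig0 (b : Vale.P083.W 0) : V × Unit := (b.1 0, ())

lemma dig0_injective : Function.Injective dig0 := fun b b' h => by
  refine Subtype.ext (funext fun m => ?_)
  rw [Fin.fin_one_eq_zero m]
  exact congrArg Prod.fst h

lemma sum_le_insert {α β : Type} [Fintype α] [Fintype β] (p₀ : α) (g : β → α)
    (hg : Function.Injective g) (hcov : ∀ p, p ≠ p₀ → ∃ b, g b = p) (hne : ∀ b, g b ≠ p₀)
    (h : α → ℝ) (hh : ∀ p, 0 ≤ h p) : ∑ p, h p ≤ h p₀ + ∑ b, h (g b) := by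
  classical
  calc ∑ p, h p ≤ ∑ p ∈ insert p₀ (Finset.univ.image g), h p :=
        Finset.sum_le_sum_of_subset_of_nonneg (fun p _ => by
          by_cases hp : p = p₀
          · exact Finset.mem_insert.2 (Or.inl hp)
          · obtain ⟨b, hb⟩ := hcov p hp
            exact Finset.mem_insert.2 (Or.inr (Finset.mem_image.2 ⟨b, Finset.mem_univ _, hb⟩)))
          (fun p _ _ => hh p)
    _ = _ := by
        rw [Finset.sum_insert, Finset.sum_image hg.injOn]
        simp only [Finset.mem_image, not_exists]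
        rintro b ⟨-, hb⟩
        exact hne b hb

/-- Level `0` has almost invariant vectors. -/
lemma base (hS : Rel η S) (hη0 : 0 ≤ η) (hη : η ≤ 1 / 8) {ξ : H} (hξ1 : ‖ξ‖ ≤ 1)
    (hξ2 : 7 / 8 ≤ ‖ξ‖ ^ 2) (hfix : ∀ i c, ‖S.x i c ξ - ξ‖ ≤ η) :
    ∃ g : L2 (Vale.P083.W 0) H, 1 ≤ ‖g‖ ^ 2 ∧
      disp (Ux 0 S.x) g ≤ 88 * 1331 ^ 2 * (5 * η ^ 2) := by
  let f : Unit → H := fun _ => ξ
  refine ⟨WithLp.toLp 2 fun b => secMap S.s f (dig0 b), ?_, ?_⟩
  · have hall := norm_sq_secMap hS f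
    have h0 : ‖secMap S.s f (0, ())‖ ^ 2 ≤ (1331 + 1331 ^ 2 * η) * ‖ξ‖ ^ 2 := by
      obtain ⟨T, hT⟩ : ∃ T : H →L[ℂ] H, T = ∑ a, S.s a := ⟨_, rfl⟩
      obtain ⟨N, hN⟩ : ∃ N : ℝ, N = 1331 + 1331 ^ 2 * η := ⟨_, rfl⟩
      have e : secMap S.s f (0, ()) = T ξ := by simp [hT, secMap, four, dot, chi_zero, f]
      have hn : ‖star T * T‖ ≤ N := by
        rw [hT, hN, star_sum, Finset.sum_mul_sum]
        refine (norm_sum_le _ _).trans ?_
        calc ∑ a, ‖∑ b, star (S.s a) * S.s b‖ ≤ ∑ a : V, ∑ b : V, (η + if a = b then 1 else 0) :=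
              Finset.sum_le_sum fun a _ => (norm_sum_le _ _).trans (Finset.sum_le_sum fun b _ => by
                refine le_trans ?_ (add_le_add (hS.orth a b) le_rfl)
                split
                · refine (norm_le_insert' _ 1).trans ?_
                  rw [add_comm]
                  exact add_le_add le_rfl (by exact ContinuousLinearMap.norm_id_le)
                · simp)
          _ = _ := by
              simp only [Finset.sum_add_distrib, Finset.sum_const, Finset.card_univ, card_V,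
                nsmul_eq_mul, Finset.sum_ite_eq, Finset.mem_univ, if_true]
              push_cast; ring
      rw [← hN, e, T.apply_norm_sq_eq_inner_adjoint_left ξ, ← star_eq_adjoint,
        ← ContinuousLinearMap.mul_def]
      refine ((RCLike.re_le_norm _).trans (norm_inner_le_norm _ _)).trans ?_
      rw [sq ‖ξ‖, ← mul_assoc]
      exact mul_le_mul_of_nonneg_right
        ((le_opNorm _ _).trans (mul_le_mul_of_nonneg_right hn (norm_nonneg _))) (norm_nonneg _)
    have hsum : ∑ p : V × Unit, ‖secMap S.s f p‖ ^ 2 ≤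
        ‖secMap S.s f (0, ())‖ ^ 2 + ∑ b, ‖secMap S.s f (dig0 b)‖ ^ 2 := by
      exact sum_le_insert (0, ()) dig0 dig0_injective (fun p hp =>
        ⟨⟨fun _ => p.1, fun h => hp (Prod.ext h rfl)⟩, rfl⟩) (fun b hb => b.2 (congrArg Prod.fst hb))
        (fun p => ‖secMap S.s f p‖ ^ 2) fun _ => sq_nonneg _
    rw [norm_sq_L2 (W := Vale.P083.W 0)]
    simp only [Finset.univ_unique, Finset.sum_singleton, f] at hall
    nlinarith
  have hF : ∑ b, ‖f b‖ ^ 2 = ‖ξ‖ ^ 2 := by simp [f]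
  have hξ3 : ‖ξ‖ ^ 2 ≤ 1 := pow_le_one₀ (norm_nonneg _) hξ1
  have hsub : ∀ (h : V × Unit → ℝ), (∀ p, 0 ≤ h p) → ∑ b, h (dig0 b) ≤ ∑ p, h p := fun h hh => by
    classical
    rw [← Finset.sum_image dig0_injective.injOn]
    exact Finset.sum_le_sum_of_subset_of_nonneg (Finset.subset_univ _) (fun p _ _ => hh p)
  have hlin : ∀ (i : Fin 4) (c : F) (e : V ≃ V) (M : V → V),
      (∀ a d, dot (e a) (M d) = dot a d) →
      (∀ a, ‖S.x i c * S.s a - S.s (e a) * S.x i c‖ ≤ η) → i ≠ 3 →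
      (∀ b, dig0 (perm 0 i c b) = (M (dig0 b).1, ())) →
      ∑ b, ‖ph 0 i c b • S.x i c (secMap S.s f (dig0 b)) -
          secMap S.s f (dig0 (perm 0 i c b))‖ ^ 2 ≤ 2 * 1331 ^ 2 * (5 * η ^ 2) := by
    intro i c e M hdot hsec hi hM
    simp only [ph_ne hi, one_smul, hM]
    refine ((hsub (fun p => ‖S.x i c (secMap S.s f p) - secMap S.s f (M p.1, id p.2)‖ ^ 2)
      fun _ => sq_nonneg _).trans (step_lin hS i c e M hdot hsec f id)).trans ?_
    have := pow_le_pow_left₀ (norm_nonneg _) (hfix i c) 2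
    rw [hF]
    simp only [Finset.univ_unique, Finset.sum_singleton, id_eq, f]
    nlinarith [sq_nonneg η]
  have key : ∀ i c, ‖Ux 0 S.x i c (WithLp.toLp 2 fun b => secMap S.s f (dig0 b)) -
      WithLp.toLp 2 (fun b => secMap S.s f (dig0 b))‖ ^ 2 ≤ 2 * 1331 ^ 2 * (5 * η ^ 2) := by
    intro i c
    rw [norm_sq_Ux_sub]
    simp only [WithLp.ofLp_toLp]
    match i with
    | 0 =>
      exact hlin 0 c (labAe c) (fun d => (d.1, d.2.1 - c * d.1, d.2.2))
          (fun a d => by simp [labAe, labA, dot]; ring) (fun a => hS.secA c a) (by decide)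
          (fun b => by simp [dig0, perm, act])
    | 1 =>
      exact hlin 1 c (labBe c) (fun d => (d.1, d.2.1, d.2.2 - c * d.2.1))
          (fun a d => by simp [labBe, labB, dot]; ring) (fun a => hS.secB c a) (by decide)
          (fun b => by simp [dig0, perm, act])
    | 2 =>
      have hh : ∀ b, dig0 (perm 0 2 c b) = dig0 b := fun b => by
        simp [dig0, perm, act, nxt]
      simp only [ph_ne (show (2 : Fin 4) ≠ 3 by decide), one_smul, hh]
      refine ((hsub (fun p => ‖S.x 2 c (secMap S.s f p) -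
        secMap S.s f ((p.1.1 - c * 0, p.1.2.1, p.1.2.2), Equiv.refl Unit p.2)‖ ^ 2)
        fun _ => sq_nonneg _).trans' (le_of_eq (by simp))).trans ?_
      refine (step_C hS c f (Equiv.refl Unit) (fun _ => 0) (fun _ => rfl) (η ^ 2) ?_
        (fun e => ?_)).trans ?_
      · simpa [f] using pow_le_pow_left₀ (norm_nonneg _) (hfix 2 c) 2
      · simpa [f, chi_zero] using pow_le_pow_left₀ (norm_nonneg _) (hfix 3 e) 2
      · rw [hF]; nlinarith [sq_nonneg η]
    | 3 =>
      refine le_of_eq_of_le (Finset.sum_congr rfl fun b _ => ?_)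
        ((hsub (fun p => ‖chi (-(c * p.1.2.2)) • S.x 3 c (secMap S.s f p) - secMap S.s f p‖ ^ 2)
          fun _ => sq_nonneg _).trans ((step_T hS c f).trans ?_))
      · simp [ph, perm, act, dig0]
      · rw [hF]; nlinarith [sq_nonneg η]
  calc disp (Ux 0 S.x) _ ≤ ∑ _i : Fin 4, ∑ _c : F, 2 * 1331 ^ 2 * (5 * η ^ 2) :=
      Finset.sum_le_sum fun i _ => Finset.sum_le_sum fun c _ => key i c
    _ = _ := by
      simp only [Finset.sum_const, Finset.card_univ, Fintype.card_fin, ZMod.card, nsmul_eq_mul]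
      push_cast; ring

omit [CompleteSpace H] in
lemma disp_smul (x : Fin 4 → F → (H →L[ℂ] H)) (r : ℂ) (v : H) :
    disp x (r • v) = ‖r‖ ^ 2 * disp x v := by
  simp [disp, map_smul, ← smul_sub, norm_smul, mul_pow, Finset.mul_sum]

omit [CompleteSpace H] in
lemma normalise (x : Fin 4 → F → (H →L[ℂ] H)) {v : H} {N D : ℝ} (hN : 0 < N)
    (hv : N ≤ ‖v‖ ^ 2) (hD : disp x v ≤ D) :
    ∃ w : H, ‖w‖ = 1 ∧ disp x w ≤ D / N := by
  have h0 : 0 < ‖v‖ := (norm_nonneg v).lt_of_ne fun h => by rw [← h] at hv; norm_num at hv; linarith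
  refine ⟨((‖v‖⁻¹ : ℝ) : ℂ) • v, ?_, ?_⟩
  · rw [norm_smul, Complex.norm_real, Real.norm_eq_abs, abs_inv, abs_norm, inv_mul_cancel₀ h0.ne']
  · rw [disp_smul, Complex.norm_real, Real.norm_eq_abs, sq_abs, inv_pow, inv_mul_eq_div]
    exact div_le_div₀ (le_trans (Finset.sum_nonneg fun _ _ => Finset.sum_nonneg fun _ _ =>
      sq_nonneg _) hD) hD hN hv

lemma levels (hG : GapResetSpec) (hL : GRelLevelSpec) : LevelsSpec := by
  intro δ hδ
  obtain ⟨θ, hθ, hreset⟩ := hG
  obtain ⟨K, hK⟩ : ∃ K : ℝ, K = 88 * 1331 ^ 2 * 10 := ⟨_, rfl⟩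
  have hK0 : 0 < K := by rw [hK]; norm_num
  set δ' := min δ (θ / (2 * K)) with hδ'
  obtain ⟨η₁, hη₁, hr⟩ := hreset δ' (lt_min hδ (by positivity))
  refine ⟨min η₁ (min (1 / 8) (θ / (2 * K))), lt_min hη₁ (lt_min (by norm_num) (by positivity)), ?_⟩
  intro H _ _ _ _ S hS n
  obtain ⟨η, hη⟩ : ∃ η, η = min η₁ (min (1 / 8) (θ / (2 * K))) := ⟨_, rfl⟩
  rw [← hη] at hS
  have hη0 : 0 ≤ η := by rw [hη]; positivity
  have hη8 : η ≤ 1 / 8 := hη ▸ (min_le_right _ _).trans (min_le_left _ _)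
  have hηK : η * (2 * K) ≤ θ :=
    (le_div_iff₀ (by positivity)).1 (hη ▸ (min_le_right _ _).trans (min_le_right _ _))
  have hδK : δ' * (2 * K) ≤ θ := (le_div_iff₀ (by positivity)).1 (min_le_right _ _)
  have hgrp : ∀ m, GRel η₁ (Ux m S.x) (Uz m S.z) := fun m => by
    have h := (hL H η S.x S.z hS.grp m).1
    have le : η ≤ η₁ := hη ▸ min_le_left _ _
    exact
      { norm_x := h.norm_x, norm_z := h.norm_z
        iso_x := fun i c => (h.iso_x i c).trans le
        iso_z := fun i c => (h.iso_z i c).trans le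
        add_x := fun i c d => (h.add_x i c d).trans le
        add_z := fun i c d => (h.add_z i c d).trans le
        heis := fun k c d => (h.heis k c d).trans le
        zfst := fun k c d => (h.zfst k c d).trans le
        zsnd := fun k c d => (h.zsnd k c d).trans le
        commAT := fun c d => (h.commAT c d).trans le
        commCT := fun c d => (h.commCT c d).trans le }
  suffices ∀ m, ∃ u : L2 (Vale.P083.W m) H, ‖u‖ = 1 ∧ disp (Ux m S.x) u ≤ δ' from
    (this n).imp fun u hu => ⟨hu.1, hu.2.trans (min_le_left _ _)⟩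
  intro m
  induction m with
  | zero =>
    obtain ⟨z, hz⟩ := exists_ne (0 : H)
    obtain ⟨ξ₀, hξ₀⟩ : ∃ ξ₀ : H, ‖ξ₀‖ = 1 := ⟨((‖z‖⁻¹ : ℝ) : ℂ) • z, by
      rw [norm_smul, Complex.norm_real, Real.norm_eq_abs, abs_inv, abs_norm,
        inv_mul_cancel₀ (norm_ne_zero_iff.2 hz)]⟩
    have h2 := sq_norm_ge_of_iso hS.iso_v ξ₀
    rw [hξ₀] at h2
    obtain ⟨g, hg, hd⟩ := base hS hη0 hη8 (ξ := S.v ξ₀)
      (((le_opNorm _ _).trans (by rw [hξ₀, mul_one])).trans hS.norm_v) (by linarith)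
      (fun i c => by
        rw [show S.x i c (S.v ξ₀) - S.v ξ₀ = (S.x i c * S.v - S.v) ξ₀ by simp]
        exact (le_opNorm _ _).trans (by rw [hξ₀, mul_one]; exact hS.fix_v i c))
    obtain ⟨w, hw, hwd⟩ := normalise (Ux 0 S.x) one_pos hg hd
    exact hr _ (Ux 0 S.x) (Uz 0 S.z) (hgrp 0) w hw (hwd.trans (by nlinarith))
  | succ m ih =>
    obtain ⟨f, hf, hfd⟩ := ih
    obtain ⟨g, hg, hd⟩ := step hS f
    rw [hf] at hg hd
    obtain ⟨w, hw, hwd⟩ := normalise (Ux (m + 1) S.x)
      (by nlinarith : (0 : ℝ) < 1331 ^ 2 * (1 - η) * 1 ^ 2) hg hd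
    refine hr _ (Ux (m + 1) S.x) (Uz (m + 1) S.z) (hgrp (m + 1)) w hw (hwd.trans ?_)
    rw [div_le_iff₀ (by nlinarith)]
    subst hK
    have h8 : η ^ 2 ≤ η := by nlinarith
    nlinarith [mul_le_mul_of_nonneg_left hη8 hθ.le]

end

end Vale.P083
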