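import Vale.Agent.P083.Spec

/-!
# P083 M7b: asymptotic homomorphisms give approximate solutions
-/

namespace Vale.P083

open Filter Topology

variable {A : Type} [CStarAlgebra A] {R : Type} [CStarAlgebra R] [Nontrivial R]

/-- A family of maps `A → R` which is asymptotically a unital star homomorphism along `l`. -/
structure AsympHom (l : Filter ℕ) (φ : A → ℕ → R) : Prop where
  map_add : ∀ a b, Tendsto (fun n => ‖φ (a + b) n - (φ a n + φ b n)‖) l (𝓝 0)
  map_mul : ∀ a b, Tendsto (fun n => ‖φ (a * b) n - φ a n * φ b n‖) l (𝓝 0)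
  map_star : ∀ a, Tendsto (fun n => ‖φ (star a) n - star (φ a n)‖) l (𝓝 0)
  map_one : Tendsto (fun n => ‖φ 1 n - 1‖) l (𝓝 0)

/-- Contraction nearest to a given element along its ray. -/
noncomputable def shrink (y : R) : R := (((max 1 ‖y‖)⁻¹ : ℝ) : ℂ) • y

lemma norm_shrink_le (y : R) : ‖shrink y‖ ≤ 1 := by
  rw [shrink, norm_smul, Complex.norm_real, Real.norm_of_nonneg (by positivity),
    inv_mul_le_iff₀ (by positivity), mul_one]
  exact le_max_right _ _

lemma shrink_sub_le (y : R) : ‖shrink y - y‖ ≤ ‖star y * y - 1‖ := by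
  have e : shrink y - y = ((((max 1 ‖y‖)⁻¹ - 1 : ℝ)) : ℂ) • y := by
    rw [shrink, Complex.ofReal_sub, sub_smul, Complex.ofReal_one, one_smul]
  rw [e, norm_smul, Complex.norm_real]
  rcases le_or_gt ‖y‖ 1 with h | h
  · simp [max_eq_left h]
  · rw [max_eq_right h.le, Real.norm_eq_abs,
      abs_of_nonpos (by rw [sub_nonpos]; exact inv_le_one_of_one_le₀ h.le)]
    have h1 : -(‖y‖⁻¹ - 1) * ‖y‖ = ‖y‖ - 1 := by field_simp; ring
    rw [h1]
    have h2 : ‖y‖ * ‖y‖ - 1 ≤ ‖star y * y - 1‖ := by
      rw [← CStarRing.norm_star_mul_self]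
      have := norm_le_norm_add_norm_sub' (star y * y) 1
      rw [norm_one] at this
      linarith
    nlinarith

variable {l : Filter ℕ} {φ : A → ℕ → R} (h : AsympHom l φ)
include h

lemma AsympHom.map_zero : Tendsto (fun n => φ 0 n) l (𝓝 0) := by
  have := h.map_add 0 0
  simp only [add_zero, sub_add_cancel_left, norm_neg] at this
  exact tendsto_zero_iff_norm_tendsto_zero.2 this

lemma AsympHom.star_mul_self_near {a : A} (ha : star a * a = 1) :
    Tendsto (fun n => star (shrink (φ a n)) * shrink (φ a n) - 1) l (𝓝 0) ∧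
      Tendsto (fun n => shrink (φ a n) - φ a n) l (𝓝 0) := by
  -- first: boundedness
  have h0 := h.map_mul (star a) a
  rw [ha] at h0
  have h1 := h.map_star a
  have hb : ∀ᶠ n in l, ‖φ a n‖ ≤ 3 := by
    filter_upwards [h0.eventually_le_const (show (0 : ℝ) < 1 by norm_num),
      h1.eventually_le_const (show (0 : ℝ) < 1 by norm_num),
      h.map_one.eventually_le_const (show (0 : ℝ) < 1 by norm_num)] with n e0 e1 e2
    have e3 : ‖star (φ a n) * φ a n‖ ≤ ‖φ (star a) n * φ a n‖ + 1 * ‖φ a n‖ := by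
      refine (norm_le_norm_add_norm_sub' _ (φ (star a) n * φ a n)).trans (add_le_add le_rfl ?_)
      rw [← sub_mul]
      refine (norm_mul_le _ _).trans ?_
      rw [norm_sub_rev]
      gcongr
    have e4 : ‖φ (star a) n * φ a n‖ ≤ 3 := by
      have := norm_le_norm_add_norm_sub' (φ (star a) n * φ a n) (φ 1 n)
      have := norm_le_norm_add_norm_sub' (φ 1 n) 1
      rw [norm_one] at this
      rw [norm_sub_rev] at e0
      linarith
    rw [CStarRing.norm_star_mul_self] at e3
    nlinarith [norm_nonneg (φ a n)]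
  have key : Tendsto (fun n => ‖star (φ a n) * φ a n - 1‖) l (𝓝 0) := by
    have hsum : Tendsto (fun n => ‖φ (star a) n - star (φ a n)‖ * 3 +
        ‖φ 1 n - φ (star a) n * φ a n‖ + ‖φ 1 n - 1‖) l (𝓝 0) := by
      simpa using ((h1.mul_const 3).add h0).add h.map_one
    refine squeeze_zero' (Eventually.of_forall fun n => norm_nonneg _) ?_ hsum
    filter_upwards [hb] with n hn
    calc ‖star (φ a n) * φ a n - 1‖ ≤ ‖star (φ a n) * φ a n - φ (star a) n * φ a n‖ +
          ‖φ (star a) n * φ a n - φ 1 n‖ + ‖φ 1 n - 1‖ :=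
          (norm_sub_le_norm_sub_add_norm_sub _ (φ 1 n) _).trans
            (add_le_add (norm_sub_le_norm_sub_add_norm_sub _ _ _) le_rfl)
      _ ≤ _ := by
          rw [norm_sub_rev (φ (star a) n * φ a n) (φ 1 n), ← sub_mul]
          gcongr
          refine (norm_mul_le _ _).trans ?_
          rw [norm_sub_rev]
          exact mul_le_mul_of_nonneg_left hn (norm_nonneg _)
  have hd : Tendsto (fun n => shrink (φ a n) - φ a n) l (𝓝 0) :=
    squeeze_zero_norm (fun n => shrink_sub_le _) key
  refine ⟨?_, hd⟩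
  have hds : Tendsto (fun n => star (shrink (φ a n)) - star (φ a n)) l (𝓝 0) := by
    simpa using hd.star
  have hz : Tendsto (fun n => (star (shrink (φ a n)) - star (φ a n)) * φ a n +
      star (shrink (φ a n)) * (shrink (φ a n) - φ a n) + (star (φ a n) * φ a n - 1)) l (𝓝 0) := by
    have t1 : Tendsto (fun n => (star (shrink (φ a n)) - star (φ a n)) * φ a n) l (𝓝 0) :=
      squeeze_zero_norm' (a := fun n => ‖star (shrink (φ a n)) - star (φ a n)‖ * 3)
          (by filter_upwards [hb] with n hn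
              exact (norm_mul_le _ _).trans (mul_le_mul_of_nonneg_left hn (norm_nonneg _)))
          (by simpa using hds.norm.mul_const 3)
    have t2 : Tendsto (fun n => star (shrink (φ a n)) * (shrink (φ a n) - φ a n)) l (𝓝 0) :=
      squeeze_zero_norm (fun n => (norm_mul_le _ _).trans
        (mul_le_of_le_one_left (norm_nonneg _) (by rw [norm_star]; exact norm_shrink_le _)))
        (by simpa using hd.norm)
    simpa using (t1.add t2).add (tendsto_zero_iff_norm_tendsto_zero.2 key)
  refine hz.congr fun n => ?_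
  noncomm_ring

/-- `shrink ∘ φ` is asymptotically multiplicative on isometries. -/
lemma AsympHom.shrink_mul {a b : A} (ha : star a * a = 1) (hb : star b * b = 1) :
    Tendsto (fun n => shrink (φ a n) * shrink (φ b n) - shrink (φ (a * b) n)) l (𝓝 0) := by
  have hab : star (a * b) * (a * b) = 1 := by
    rw [star_mul, mul_assoc, ← mul_assoc (star a), ha, one_mul, hb]
  have da := (h.star_mul_self_near ha).2
  have db := (h.star_mul_self_near hb).2
  have dab := (h.star_mul_self_near hab).2
  have t1 : Tendsto (fun n => (shrink (φ a n) - φ a n) * shrink (φ b n)) l (𝓝 0) :=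
    squeeze_zero_norm (fun n => (norm_mul_le _ _).trans
      (mul_le_of_le_one_right (norm_nonneg _) (norm_shrink_le _))) (by simpa using da.norm)
  have t2 : Tendsto (fun n => φ a n * (shrink (φ b n) - φ b n)) l (𝓝 0) := by
    refine squeeze_zero_norm (a := fun n => (1 + ‖shrink (φ a n) - φ a n‖) * ‖shrink (φ b n) - φ b n‖)
      (fun n => (norm_mul_le _ _).trans (mul_le_mul_of_nonneg_right ?_ (norm_nonneg _))) ?_
    · exact (norm_le_norm_add_norm_sub _ _).trans (add_le_add (norm_shrink_le _) le_rfl)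
    · simpa using ((da.norm.const_add 1).mul db.norm)
  have t3 : Tendsto (fun n => φ a n * φ b n - φ (a * b) n) l (𝓝 0) := by
    refine tendsto_zero_iff_norm_tendsto_zero.2 ?_
    simpa [norm_sub_rev] using h.map_mul a b
  have := ((t1.add t2).add t3).sub dab
  simp only [add_zero, sub_zero] at this
  refine this.congr fun n => ?_
  noncomm_ring

/-- An exact solution in `A` gives approximate solutions along the filter. -/
theorem AsympHom.eventually_rel {S : Sol A} (hS : Rel 0 S) {η : ℝ} (hη : 0 < η) :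
    ∀ᶠ n in l, Rel η
      { x := fun i c => shrink (φ (S.x i c) n)
        z := fun i c => shrink (φ (S.z i c) n)
        s := fun a => shrink (φ (S.s a) n)
        v := shrink (φ S.v n) } := by
  have eq0 : ∀ {u w : A}, ‖u - w‖ ≤ 0 → u = w := fun hu =>
    sub_eq_zero.1 (norm_le_zero_iff.1 hu)
  have ix : ∀ i c, star (S.x i c) * S.x i c = 1 := fun i c => eq0 (hS.grp.iso_x i c)
  have iz : ∀ i c, star (S.z i c) * S.z i c = 1 := fun i c => eq0 (hS.grp.iso_z i c)
  have is : ∀ a, star (S.s a) * S.s a = 1 := fun a => by simpa using eq0 (hS.orth a a)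
  have iv : star S.v * S.v = 1 := eq0 hS.iso_v
  have imul : ∀ {a b : A}, star a * a = 1 → star b * b = 1 → star (a * b) * (a * b) = 1 :=
    fun {a b} ha hb => by rw [star_mul, mul_assoc, ← mul_assoc (star a), ha, one_mul, hb]
  have ev : ∀ {f : ℕ → R}, Tendsto f l (𝓝 0) → ∀ᶠ n in l, ‖f n‖ ≤ η := fun hf =>
    (tendsto_zero_iff_norm_tendsto_zero.1 hf).eventually_le_const hη
  -- two products of isometries which agree in `A`
  have pair : ∀ {a b c d : A}, star a * a = 1 → star b * b = 1 → star c * c = 1 →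
      star d * d = 1 → a * b = c * d →
      Tendsto (fun n => shrink (φ a n) * shrink (φ b n) - shrink (φ c n) * shrink (φ d n))
        l (𝓝 0) := fun {a b c d} ha hb hc hd e => by
    have := (h.shrink_mul ha hb).sub (h.shrink_mul hc hd)
    rw [e] at this
    simpa using this
  have triple : ∀ {a b c d e : A}, star a * a = 1 → star b * b = 1 → star c * c = 1 →
      star d * d = 1 → star e * e = 1 → a * b = c * d * e →
      Tendsto (fun n => shrink (φ a n) * shrink (φ b n) -
        shrink (φ c n) * shrink (φ d n) * shrink (φ e n)) l (𝓝 0) :=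
    fun {a b c d e} ha hb hc hd he q => by
    have t1 : Tendsto (fun n => (shrink (φ c n) * shrink (φ d n) - shrink (φ (c * d) n)) *
        shrink (φ e n)) l (𝓝 0) :=
      squeeze_zero_norm (fun n => (norm_mul_le _ _).trans
        (mul_le_of_le_one_right (norm_nonneg _) (norm_shrink_le _)))
        (by simpa using (h.shrink_mul hc hd).norm)
    have := (pair ha hb (imul hc hd) he q).sub t1
    rw [sub_zero] at this
    refine this.congr fun n => ?_
    noncomm_ring
  have single : ∀ {a b c : A}, star a * a = 1 → star b * b = 1 → a * b = c →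
      Tendsto (fun n => shrink (φ a n) * shrink (φ b n) - shrink (φ c n)) l (𝓝 0) :=
    fun {a b c} ha hb e => e ▸ h.shrink_mul ha hb
  have orth : ∀ a b, Tendsto (fun n => star (shrink (φ (S.s a) n)) * shrink (φ (S.s b) n) -
      (if a = b then 1 else 0)) l (𝓝 0) := by
    intro a b
    by_cases hab : a = b
    · subst hab
      simpa using (h.star_mul_self_near (is a)).1
    · simp only [if_neg hab, sub_zero]
      have e0 : star (S.s a) * S.s b = 0 := by simpa [hab] using eq0 (hS.orth a b)
      have da := (h.star_mul_self_near (is a)).2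
      have db := (h.star_mul_self_near (is b)).2
      have hstar : Tendsto (fun n => star (shrink (φ (S.s a) n)) - φ (star (S.s a)) n) l (𝓝 0) := by
        have h1 : Tendsto (fun n => star (shrink (φ (S.s a) n) - φ (S.s a) n) -
            (φ (star (S.s a)) n - star (φ (S.s a) n))) l (𝓝 0) := by
          simpa using da.star.sub (tendsto_zero_iff_norm_tendsto_zero.2 (h.map_star (S.s a)))
        refine h1.congr fun n => ?_
        rw [star_sub]
        abel
      have t1 : Tendsto (fun n => (star (shrink (φ (S.s a) n)) - φ (star (S.s a)) n) *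
          shrink (φ (S.s b) n)) l (𝓝 0) :=
        squeeze_zero_norm (fun n => (norm_mul_le _ _).trans
          (mul_le_of_le_one_right (norm_nonneg _) (norm_shrink_le _))) (by simpa using hstar.norm)
      have t2 : Tendsto (fun n => φ (star (S.s a)) n * (shrink (φ (S.s b) n) - φ (S.s b) n))
          l (𝓝 0) := by
        refine squeeze_zero_norm (a := fun n =>
          (1 + ‖star (shrink (φ (S.s a) n)) - φ (star (S.s a)) n‖) *
            ‖shrink (φ (S.s b) n) - φ (S.s b) n‖)
          (fun n => (norm_mul_le _ _).trans (mul_le_mul_of_nonneg_right ?_ (norm_nonneg _))) ?_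
        · refine (norm_le_norm_add_norm_sub _ _).trans (add_le_add ?_ le_rfl)
          rw [norm_star]
          exact norm_shrink_le _
        · simpa using ((hstar.norm.const_add 1).mul db.norm)
      have t3 : Tendsto (fun n => φ (star (S.s a)) n * φ (S.s b) n) l (𝓝 0) := by
        have h3 := tendsto_zero_iff_norm_tendsto_zero.2 (h.map_mul (star (S.s a)) (S.s b))
        rw [e0] at h3
        simpa using h.map_zero.sub h3
      have := (t1.add t2).add t3
      simp only [add_zero] at this
      refine this.congr fun n => ?_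
      noncomm_ring
  have eiso_x : ∀ᶠ n in l, ∀ i c,
      ‖star (shrink (φ (S.x i c) n)) * shrink (φ (S.x i c) n) - 1‖ ≤ η :=
    eventually_all.2 fun i => eventually_all.2 fun c => ev (h.star_mul_self_near (ix i c)).1
  have eiso_z : ∀ᶠ n in l, ∀ i c,
      ‖star (shrink (φ (S.z i c) n)) * shrink (φ (S.z i c) n) - 1‖ ≤ η :=
    eventually_all.2 fun i => eventually_all.2 fun c => ev (h.star_mul_self_near (iz i c)).1
  have eadd_x : ∀ᶠ n in l, ∀ i c d,
      ‖shrink (φ (S.x i c) n) * shrink (φ (S.x i d) n) - shrink (φ (S.x i (c + d)) n)‖ ≤ η :=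
    eventually_all.2 fun i => eventually_all.2 fun c => eventually_all.2 fun d =>
      ev (single (ix i c) (ix i d) (eq0 (hS.grp.add_x i c d)))
  have eadd_z : ∀ᶠ n in l, ∀ i c d,
      ‖shrink (φ (S.z i c) n) * shrink (φ (S.z i d) n) - shrink (φ (S.z i (c + d)) n)‖ ≤ η :=
    eventually_all.2 fun i => eventually_all.2 fun c => eventually_all.2 fun d =>
      ev (single (iz i c) (iz i d) (eq0 (hS.grp.add_z i c d)))
  have eheis : ∀ᶠ n in l, ∀ k c d,
      ‖shrink (φ (S.x (pr k).1 c) n) * shrink (φ (S.x (pr k).2 d) n) -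
        shrink (φ (S.x (pr k).2 d) n) * shrink (φ (S.x (pr k).1 c) n) *
          shrink (φ (S.z k (c * d)) n)‖ ≤ η :=
    eventually_all.2 fun k => eventually_all.2 fun c => eventually_all.2 fun d =>
      ev (triple (ix _ c) (ix _ d) (ix _ d) (ix _ c) (iz k _) (eq0 (hS.grp.heis k c d)))
  have ezfst : ∀ᶠ n in l, ∀ k c e,
      ‖shrink (φ (S.z k e) n) * shrink (φ (S.x (pr k).1 c) n) -
        shrink (φ (S.x (pr k).1 c) n) * shrink (φ (S.z k e) n)‖ ≤ η :=
    eventually_all.2 fun k => eventually_all.2 fun c => eventually_all.2 fun e =>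
      ev (pair (iz k e) (ix _ c) (ix _ c) (iz k e) (eq0 (hS.grp.zfst k c e)))
  have ezsnd : ∀ᶠ n in l, ∀ k c e,
      ‖shrink (φ (S.z k e) n) * shrink (φ (S.x (pr k).2 c) n) -
        shrink (φ (S.x (pr k).2 c) n) * shrink (φ (S.z k e) n)‖ ≤ η :=
    eventually_all.2 fun k => eventually_all.2 fun c => eventually_all.2 fun e =>
      ev (pair (iz k e) (ix _ c) (ix _ c) (iz k e) (eq0 (hS.grp.zsnd k c e)))
  have eAT : ∀ᶠ n in l, ∀ c d, ‖shrink (φ (S.x 0 c) n) * shrink (φ (S.x 3 d) n) -
      shrink (φ (S.x 3 d) n) * shrink (φ (S.x 0 c) n)‖ ≤ η :=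
    eventually_all.2 fun c => eventually_all.2 fun d =>
      ev (pair (ix 0 c) (ix 3 d) (ix 3 d) (ix 0 c) (eq0 (hS.grp.commAT c d)))
  have eCT : ∀ᶠ n in l, ∀ c d, ‖shrink (φ (S.x 2 c) n) * shrink (φ (S.x 3 d) n) -
      shrink (φ (S.x 3 d) n) * shrink (φ (S.x 2 c) n)‖ ≤ η :=
    eventually_all.2 fun c => eventually_all.2 fun d =>
      ev (pair (ix 2 c) (ix 3 d) (ix 3 d) (ix 2 c) (eq0 (hS.grp.commCT c d)))
  have eorth : ∀ᶠ n in l, ∀ a b, ‖star (shrink (φ (S.s a) n)) * shrink (φ (S.s b) n) -
      (if a = b then 1 else 0)‖ ≤ η :=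
    eventually_all.2 fun a => eventually_all.2 fun b => ev (orth a b)
  have eiso_v : ∀ᶠ n in l, ‖star (shrink (φ S.v n)) * shrink (φ S.v n) - 1‖ ≤ η :=
    ev (h.star_mul_self_near iv).1
  have efix : ∀ᶠ n in l, ∀ i c,
      ‖shrink (φ (S.x i c) n) * shrink (φ S.v n) - shrink (φ S.v n)‖ ≤ η :=
    eventually_all.2 fun i => eventually_all.2 fun c =>
      ev (single (ix i c) iv (eq0 (hS.fix_v i c)))
  have eA : ∀ᶠ n in l, ∀ c a, ‖shrink (φ (S.x 0 c) n) * shrink (φ (S.s a) n) -
      shrink (φ (S.s (labA c a)) n) * shrink (φ (S.x 0 c) n)‖ ≤ η :=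
    eventually_all.2 fun c => eventually_all.2 fun a =>
      ev (pair (ix 0 c) (is a) (is _) (ix 0 c) (eq0 (hS.secA c a)))
  have eB : ∀ᶠ n in l, ∀ c a, ‖shrink (φ (S.x 1 c) n) * shrink (φ (S.s a) n) -
      shrink (φ (S.s (labB c a)) n) * shrink (φ (S.x 1 c) n)‖ ≤ η :=
    eventually_all.2 fun c => eventually_all.2 fun a =>
      ev (pair (ix 1 c) (is a) (is _) (ix 1 c) (eq0 (hS.secB c a)))
  have eC : ∀ᶠ n in l, ∀ c a, ‖shrink (φ (S.x 2 c) n) * shrink (φ (S.s a) n) -
      shrink (φ (S.s a) n) * shrink (φ (S.x 3 (c * a.1)) n) * shrink (φ (S.x 2 c) n)‖ ≤ η :=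
    eventually_all.2 fun c => eventually_all.2 fun a =>
      ev (triple (ix 2 c) (is a) (is a) (ix 3 _) (ix 2 c) (eq0 (hS.secC c a)))
  have eT : ∀ᶠ n in l, ∀ c a, ‖shrink (φ (S.x 3 c) n) * shrink (φ (S.s a) n) -
      shrink (φ (S.s (labT c a)) n)‖ ≤ η :=
    eventually_all.2 fun c => eventually_all.2 fun a =>
      ev (single (ix 3 c) (is a) (eq0 (hS.secT c a)))
  filter_upwards [eiso_x, eiso_z, eadd_x, eadd_z, eheis, ezfst, ezsnd, eAT, eCT, eorth, eiso_v,
    efix, eA, eB, eC, eT] with n q1 q2 q3 q4 q5 q6 q7 q8 q9 q10 q11 q12 q13 q14 q15 q16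
  exact
    { grp := ⟨fun _ _ => norm_shrink_le _, fun _ _ => norm_shrink_le _, q1, q2, q3, q4, q5, q6, q7,
        q8, q9⟩
      norm_s := fun _ => norm_shrink_le _
      norm_v := norm_shrink_le _
      orth := q10
      iso_v := q11
      fix_v := q12
      secA := q13
      secB := q14
      secC := q15
      secT := q16 }

end Vale.P083
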