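import Vale.Agent.P083.Spec

/-!
# P083, M3: a separable unital C*-algebra with an exact solution

The generators act on `l2 (List V × ℕ)` by injective maps of the basis: the four families by
permutations of each level of the tree, the sections by prepending a digit, `v` onto the root.
-/

namespace Vale.P083.Model

noncomputable section

/-! ### Operators of injective maps -/

variable {J : Type} [DecidableEq J]

/-- The Hilbert space with basis `J`. -/
abbrev Hs (J : Type) := lp (fun _ : J => ℂ) 2

/-- A basis vector. -/
def bv (i : J) : Hs J := lp.single 2 i 1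

theorem bv_orthonormal : Orthonormal ℂ (bv : J → Hs J) := by
  rw [orthonormal_iff_ite]
  intro i j
  rw [bv, lp.inner_single_left]
  simp [bv, lp.single_apply, Pi.single_apply]

/-- The operator sending `bv i` to `bv (f i)`. -/
def pop (f : J → J) (hf : Function.Injective f) : Hs J →L[ℂ] Hs J :=
  ((bv_orthonormal.comp f hf).orthogonalFamily.linearIsometry).toContinuousLinearMap

theorem pop_bv (f : J → J) (hf : Function.Injective f) (i : J) : pop f hf (bv i) = bv (f i) := by
  rw [pop, LinearIsometry.coe_toContinuousLinearMap, bv,
    OrthogonalFamily.linearIsometry_apply_single]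
  simp [bv]

theorem norm_pop (f : J → J) (hf : Function.Injective f) (x : Hs J) : ‖pop f hf x‖ = ‖x‖ :=
  LinearIsometry.norm_map _ x

theorem pop_ext {S T : Hs J →L[ℂ] Hs J} (h : ∀ i, S (bv i) = T (bv i)) : S = T := by
  ext1 x
  have hx := lp.hasSum_single (E := fun _ : J => ℂ) (p := 2) (by norm_num) x
  refine (hx.mapL S).unique ?_
  convert hx.mapL T using 1
  funext i
  have hi : lp.single (E := fun _ : J => ℂ) 2 i (x i) = x i • bv i := by
    rw [bv, ← lp.single_smul]; simp
  rw [hi, map_smul, map_smul, h]

theorem pop_mul_eq {f g h : J → J} (hf : Function.Injective f) (hg : Function.Injective g)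
    (hh : Function.Injective h) (e : ∀ i, f (g i) = h i) : pop f hf * pop g hg = pop h hh :=
  pop_ext fun i => by rw [ContinuousLinearMap.mul_def, ContinuousLinearMap.comp_apply, pop_bv,
    pop_bv, pop_bv, e]

theorem star_pop_mul_self (f : J → J) (hf : Function.Injective f) :
    star (pop f hf) * pop f hf = 1 :=
  (ContinuousLinearMap.norm_map_iff_adjoint_comp_self _).1 (norm_pop f hf)

theorem star_pop_mul_eq_zero {f g : J → J} (hf : Function.Injective f) (hg : Function.Injective g)
    (h : ∀ i j, f i ≠ g j) : star (pop f hf) * pop g hg = 0 := by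
  refine pop_ext fun j => ext_inner_left ℂ fun x => ?_
  rw [ContinuousLinearMap.mul_def, ContinuousLinearMap.comp_apply,
    ContinuousLinearMap.star_eq_adjoint, ContinuousLinearMap.adjoint_inner_right, pop_bv,
    zero_apply, inner_zero_right]
  have hz : ∀ T : Hs J →L[ℂ] ℂ, (∀ i, T (bv i) = 0) → ∀ y, T y = 0 := by
    intro T hT y
    have hy := (lp.hasSum_single (E := fun _ : J => ℂ) (p := 2) (by norm_num) y).mapL T
    refine hy.unique ?_
    convert hasSum_zero (α := ℂ) with i
    have hi : lp.single (E := fun _ : J => ℂ) 2 i (y i) = y i • bv i := by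
      rw [bv, ← lp.single_smul]; simp
    rw [hi, map_smul, hT, smul_zero]
  have h0 := hz ((innerSL ℂ (bv (g j))).comp (pop f hf)) (fun i => by
    rw [ContinuousLinearMap.comp_apply, pop_bv, innerSL_apply_apply,
      orthonormal_iff_ite.1 bv_orthonormal, if_neg (h i j).symm]) x
  rw [ContinuousLinearMap.comp_apply, innerSL_apply_apply] at h0
  rw [← inner_conj_symm, h0, map_zero]

/-! ### The maps of the tree -/

/-- A map acting on every digit. -/
def each (u : V → V) (w : List V) : List V := w.map u

/-- A map acting on the first digit. -/
def first (u : V → V) : List V → List V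
  | [] => []
  | a :: w => u a :: w

/-- A map moving `c` times a coordinate of every digit into the next digit. -/
def carry (h : V → F) (u : F → V → V) (c : F) : F → List V → List V
  | _, [] => []
  | e, a :: w => u e a :: carry h u c (c * h a) w

/-- Adding to the second coordinate. -/
def add2 (c : F) (a : V) : V := (a.1, a.2.1 + c, a.2.2)

/-- Adding the third coordinate to the first. -/
def labZ (c : F) (a : V) : V := (a.1 + c * a.2.2, a.2.1, a.2.2)

/-- The four families on the tree. -/
def gx : Fin 4 → F → List V → List V :=
  ![fun c => each (labA c), fun c => each (labB c),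
    fun c => carry (·.1) labT c 0, fun c => first (labT c)]

/-- The four auxiliary families on the tree. -/
def gz : Fin 4 → F → List V → List V :=
  ![fun c => each (labZ c), fun c => carry (·.1) add2 c 0,
    fun c => carry (·.2.1) labT c 0, fun c => first (add2 c)]

theorem labA_add (c d : F) (a : V) : labA c (labA d a) = labA (c + d) a := by
  obtain ⟨p, q, r⟩ := a
  simp only [labA, Prod.mk.injEq, and_true]
  ring

theorem labB_add (c d : F) (a : V) : labB c (labB d a) = labB (c + d) a := by
  obtain ⟨p, q, r⟩ := a
  simp only [labB, Prod.mk.injEq, and_true, true_and]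
  ring

theorem labZ_add (c d : F) (a : V) : labZ c (labZ d a) = labZ (c + d) a := by
  obtain ⟨p, q, r⟩ := a
  simp only [labZ, Prod.mk.injEq, and_true]
  ring

theorem labT_add (c d : F) (a : V) : labT c (labT d a) = labT (c + d) a := by
  obtain ⟨p, q, r⟩ := a
  simp only [labT, Prod.mk.injEq, true_and]
  ring

theorem add2_add (c d : F) (a : V) : add2 c (add2 d a) = add2 (c + d) a := by
  obtain ⟨p, q, r⟩ := a
  simp only [add2, Prod.mk.injEq, and_true, true_and]
  ring

theorem carry_add {h : V → F} {u : F → V → V} (hu : ∀ e d a, u e (u d a) = u (e + d) a)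
    (hh : ∀ e a, h (u e a) = h a) (c d : F) (w : List V) :
    ∀ e e', carry h u c e (carry h u d e' w) = carry h u (c + d) (e + e') w := by
  induction w with
  | nil => intros; rfl
  | cons a w ih =>
    intro e e'
    simp only [carry, hu, hh, ih, add_mul]

theorem each_add {u : F → V → V} (hu : ∀ e d a, u e (u d a) = u (e + d) a) (c d : F) (w : List V) :
    each (u c) (each (u d) w) = each (u (c + d)) w := by
  simp [each, List.map_map, Function.comp_def, hu]

theorem first_add {u : F → V → V} (hu : ∀ e d a, u e (u d a) = u (e + d) a) (c d : F) (w : List V) :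
    first (u c) (first (u d) w) = first (u (c + d)) w := by
  cases w <;> simp [first, hu]

theorem gx_add (i : Fin 4) (c d : F) (w : List V) : gx i c (gx i d w) = gx i (c + d) w := by
  fin_cases i
  · exact each_add labA_add c d w
  · exact each_add labB_add c d w
  · exact (carry_add labT_add (fun _ _ => rfl) c d w 0 0).trans (by rw [add_zero]; rfl)
  · exact first_add labT_add c d w

theorem gz_add (i : Fin 4) (c d : F) (w : List V) : gz i c (gz i d w) = gz i (c + d) w := by
  fin_cases i
  · exact each_add labZ_add c d w
  · exact (carry_add add2_add (fun _ _ => rfl) c d w 0 0).trans (by rw [add_zero]; rfl)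
  · exact (carry_add labT_add (fun _ _ => rfl) c d w 0 0).trans (by rw [add_zero]; rfl)
  · exact first_add add2_add c d w

theorem each_id {u : V → V} (h : ∀ a, u a = a) (w : List V) : each u w = w := by
  induction w with
  | nil => rfl
  | cons a w ih => simp only [each, List.map_cons] at ih ⊢; rw [h, ih]

theorem carry_id {h : V → F} {u : F → V → V} (hu : ∀ a, u 0 a = a) (w : List V) :
    carry h u 0 0 w = w := by
  induction w with
  | nil => rfl
  | cons a w ih => simp [carry, hu, ih]

theorem first_id {u : V → V} (h : ∀ a, u a = a) (w : List V) : first u w = w := by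
  cases w <;> simp [first, h]

theorem gx_zero (i : Fin 4) (w : List V) : gx i 0 w = w := by
  fin_cases i
  · exact each_id (fun a => by simp [labA]) w
  · exact each_id (fun a => by simp [labB]) w
  · exact carry_id (fun a => by simp [labT]) w
  · exact first_id (fun a => by simp [labT]) w

theorem gz_zero (i : Fin 4) (w : List V) : gz i 0 w = w := by
  fin_cases i
  · exact each_id (fun a => by simp [labZ]) w
  · exact carry_id (fun a => by simp [add2]) w
  · exact carry_id (fun a => by simp [labT]) w
  · exact first_id (fun a => by simp [add2]) w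

theorem gx_nil (i : Fin 4) (c : F) : gx i c [] = [] := by fin_cases i <;> rfl

theorem heis0 (c d : F) (w : List V) :
    each (labA c) (each (labB d) w) = each (labB d) (each (labA c) (each (labZ (c * d)) w)) := by
  induction w with
  | nil => rfl
  | cons a w ih =>
    simp only [each, List.map_cons] at ih ⊢
    rw [ih]
    obtain ⟨p, q, r⟩ := a
    simp only [labA, labB, labZ, List.cons.injEq, Prod.mk.injEq, and_true]
    ring

theorem heis1 (c d : F) (w : List V) : ∀ e,
    each (labB c) (carry (·.1) labT d e w) =
      carry (·.1) labT d e (each (labB c) (carry (·.1) add2 (c * d) (c * e) w)) := by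
  induction w with
  | nil => intro e; rfl
  | cons a w ih =>
    intro e
    simp only [each, carry, List.map_cons] at ih ⊢
    rw [ih, mul_assoc]
    obtain ⟨p, q, r⟩ := a
    simp only [labB, labT, add2, List.cons.injEq, Prod.mk.injEq, and_true, true_and]
    ring

theorem heis2 (c d : F) (w : List V) : ∀ e e',
    carry (·.1) labT c (e + e') (each (labA d) w) =
      each (labA d) (carry (·.1) labT c e (carry (·.2.1) labT (c * d) e' w)) := by
  induction w with
  | nil => intros; rfl
  | cons a w ih =>
    intro e e'
    simp only [each, carry, List.map_cons] at ih ⊢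
    obtain ⟨p, q, r⟩ := a
    rw [show c * (labA d (p, q, r)).1 = c * p + c * d * q by simp only [labA]; ring, ih]
    simp only [labA, labT, List.cons.injEq, Prod.mk.injEq, true_and, and_true]
    ring

theorem heis3 (c d : F) (w : List V) :
    each (labB c) (first (labT d) w) = first (labT d) (each (labB c) (first (add2 (c * d)) w)) := by
  cases w with
  | nil => rfl
  | cons a w =>
    obtain ⟨p, q, r⟩ := a
    simp only [each, first, List.map_cons, labB, labT, add2, List.cons.injEq, Prod.mk.injEq,
      and_true, true_and]
    ring

theorem gheis (k : Fin 4) (c d : F) (w : List V) :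
    gx (pr k).1 c (gx (pr k).2 d w) = gx (pr k).2 d (gx (pr k).1 c (gz k (c * d) w)) := by
  fin_cases k
  · exact heis0 c d w
  · exact (heis1 c d w 0).trans (by rw [mul_zero]; rfl)
  · have := heis2 c d w 0 0
    rw [add_zero] at this
    exact this
  · exact heis3 c d w

theorem each_comm {u u' : V → V} (h : ∀ a, u (u' a) = u' (u a)) (w : List V) :
    each u (each u' w) = each u' (each u w) := by
  simp [each, List.map_map, Function.comp_def, h]

theorem each_first {u u' : V → V} (h : ∀ a, u (u' a) = u' (u a)) (w : List V) :
    each u (first u' w) = first u' (each u w) := by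
  cases w <;> simp [each, first, h]

theorem each_carry {g : V → V} {h : V → F} {u : F → V → V} (hg : ∀ e a, g (u e a) = u e (g a))
    (hh : ∀ a, h (g a) = h a) (c : F) (w : List V) :
    ∀ e, each g (carry h u c e w) = carry h u c e (each g w) := by
  induction w with
  | nil => intro e; rfl
  | cons a w ih =>
    intro e
    simp only [each, carry, List.map_cons] at ih ⊢
    rw [hg, hh, ih]

theorem carry_carry {h h' : V → F} {u u' : F → V → V} (hu : ∀ e d a, u e (u' d a) = u' d (u e a))
    (hh : ∀ d a, h (u' d a) = h a) (hh' : ∀ e a, h' (u e a) = h' a) (c c' : F) (w : List V) :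
    ∀ e e', carry h u c e (carry h' u' c' e' w) = carry h' u' c' e' (carry h u c e w) := by
  induction w with
  | nil => intros; rfl
  | cons a w ih =>
    intro e e'
    simp only [carry, hu, hh, hh', ih]

theorem carry_first {h : V → F} {u : F → V → V} {g : V → V} (hg : ∀ e a, u e (g a) = g (u e a))
    (hh : ∀ a, h (g a) = h a) (c e : F) (w : List V) :
    carry h u c e (first g w) = first g (carry h u c e w) := by
  cases w <;> simp [carry, first, hg, hh]

theorem first_comm {u u' : V → V} (h : ∀ a, u (u' a) = u' (u a)) (w : List V) :
    first u (first u' w) = first u' (first u w) := by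
  cases w <;> simp [first, h]

theorem gzfst (k : Fin 4) (c e : F) (w : List V) :
    gz k e (gx (pr k).1 c w) = gx (pr k).1 c (gz k e w) := by
  fin_cases k
  · exact each_comm (u := labZ e) (u' := labA c) (fun a => by
      obtain ⟨p, q, r⟩ := a
      simp only [labA, labZ, Prod.mk.injEq, and_true]
      ring) w
  · exact (each_carry (g := labB c) (h := (·.1)) (u := add2) (fun d a => by
      obtain ⟨p, q, r⟩ := a
      simp only [labB, add2, Prod.mk.injEq, and_true, true_and]
      ring) (fun _ => rfl) e w 0).symm
  · exact carry_carry (h := (·.2.1)) (h' := (·.1)) (u := labT) (u' := labT) (fun d d' a => by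
      simp only [labT_add, add_comm]) (fun _ _ => rfl) (fun _ _ => rfl) e c w 0 0
  · exact (each_first (u := labB c) (u' := add2 e) (fun a => by
      obtain ⟨p, q, r⟩ := a
      simp only [labB, add2, Prod.mk.injEq, and_true, true_and]
      ring) w).symm

theorem gzsnd (k : Fin 4) (d e : F) (w : List V) :
    gz k e (gx (pr k).2 d w) = gx (pr k).2 d (gz k e w) := by
  fin_cases k
  · exact each_comm (u := labZ e) (u' := labB d) (fun _ => rfl) w
  · exact carry_carry (h := (·.1)) (h' := (·.1)) (u := add2) (u' := labT) (fun _ _ _ => rfl)
      (fun _ _ => rfl) (fun _ _ => rfl) e d w 0 0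
  · exact (each_carry (g := labA d) (h := (·.2.1)) (u := labT) (fun _ _ => rfl) (fun _ => rfl)
      e w 0).symm
  · exact first_comm (u := add2 e) (u' := labT d) (fun _ => rfl) w

theorem gcommAT (c d : F) (w : List V) : gx 0 c (gx 3 d w) = gx 3 d (gx 0 c w) :=
  each_first (u := labA c) (u' := labT d) (fun _ => rfl) w

theorem gcommCT (c d : F) (w : List V) : gx 2 c (gx 3 d w) = gx 3 d (gx 2 c w) :=
  carry_first (h := (·.1)) (u := labT) (g := labT d) (fun e a => by
    simp only [labT_add, add_comm]) (fun _ => rfl) c 0 w

theorem gsecC (c : F) (a : V) (w : List V) : gx 2 c (a :: w) = a :: gx 3 (c * a.1) (gx 2 c w) := by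
  show carry (·.1) labT c 0 (a :: w) = a :: first (labT (c * a.1)) (carry (·.1) labT c 0 w)
  cases w <;> simp [carry, first, labT]

/-! ### The algebra -/

/-- The index set: a node of the tree and a multiplicity. -/
abbrev Idx := List V × ℕ

/-- A map of the tree on the index set. -/
def lift (g : List V → List V) (p : Idx) : Idx := (g p.1, p.2)

theorem lift_injective {g : List V → List V} (hg : Function.Injective g) :
    Function.Injective (lift g) := fun p q h => by
  simp only [lift, Prod.mk.injEq] at h
  exact Prod.ext (hg h.1) h.2

theorem gx_injective (i : Fin 4) (c : F) : Function.Injective (gx i c) :=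
  Function.LeftInverse.injective (g := gx i (-c)) fun w => by
    rw [gx_add, neg_add_cancel, gx_zero]

theorem gz_injective (i : Fin 4) (c : F) : Function.Injective (gz i c) :=
  Function.LeftInverse.injective (g := gz i (-c)) fun w => by
    rw [gz_add, neg_add_cancel, gz_zero]

theorem pre_injective (a : V) : Function.Injective (lift (a :: ·)) :=
  lift_injective List.cons_injective

/-- An injection of the index set into the natural numbers. -/
def code : Idx → ℕ := Classical.choose (countable_iff_exists_injective Idx |>.1 inferInstance)

/-- The map onto the root. -/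
def root (p : Idx) : Idx := ([], code p)

theorem root_injective : Function.Injective root := fun _ _ h =>
  Classical.choose_spec (countable_iff_exists_injective Idx |>.1 inferInstance)
    (congrArg Prod.snd h)

/-- The operator algebra in which the generators live. -/
abbrev Big := Hs Idx →L[ℂ] Hs Idx

/-- The solution on the Hilbert space. -/
def bigSol : Sol Big where
  x i c := pop (lift (gx i c)) (lift_injective (gx_injective i c))
  z k c := pop (lift (gz k c)) (lift_injective (gz_injective k c))
  s a := pop (lift (a :: ·)) (pre_injective a)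
  v := pop root root_injective

/-- The generators. -/
def gens : Set Big :=
  (Set.range fun p : Fin 4 × F => bigSol.x p.1 p.2) ∪
    ((Set.range fun p : Fin 4 × F => bigSol.z p.1 p.2) ∪ (Set.range bigSol.s ∪ {bigSol.v}))

/-- The algebra they generate. -/
def alg : StarSubalgebra ℂ Big := (StarAlgebra.adjoin ℂ gens).topologicalClosure

instance alg_closed : IsClosed (alg : Set Big) :=
  StarSubalgebra.isClosed_topologicalClosure _

theorem mem_alg {y : Big} (h : y ∈ gens) : y ∈ alg :=
  StarSubalgebra.le_topologicalClosure _ (StarAlgebra.subset_adjoin ℂ _ h)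

theorem alg_separable : TopologicalSpace.IsSeparable (alg : Set Big) := by
  have hg : gens.Countable :=
    (Set.countable_range _).union ((Set.countable_range _).union
      ((Set.countable_range _).union (Set.countable_singleton _)))
  have hc : (gens ∪ star gens).Countable :=
    hg.union (by rw [← Set.image_star]; exact hg.image _)
  have hM : (Submonoid.closure (gens ∪ star gens) : Set Big).Countable := by
    have : Countable ↥(gens ∪ star gens) := hc.to_subtype
    refine (Set.countable_range fun l : List ↥(gens ∪ star gens) => (l.map Subtype.val).prod).mono ?_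
    intro x hx
    obtain ⟨l, hl, rfl⟩ := Submonoid.exists_list_of_mem_closure hx
    lift l to List ↥(gens ∪ star gens) using hl
    exact ⟨l, rfl⟩
  rw [alg, StarSubalgebra.topologicalClosure_coe]
  refine TopologicalSpace.IsSeparable.closure ?_
  have he := congrArg (fun S : Submodule ℂ Big => (S : Set Big)) (StarAlgebra.adjoin_eq_span (R := ℂ) gens)
  rw [show ((StarAlgebra.adjoin ℂ gens : StarSubalgebra ℂ Big) : Set Big) = _ from he]
  exact hM.isSeparable.span

instance alg_separableSpace : TopologicalSpace.SeparableSpace alg :=
  alg_separable.separableSpace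

/-- The solution in the algebra. -/
def sol : Sol alg where
  x i c := ⟨bigSol.x i c, mem_alg (Or.inl ⟨(i, c), rfl⟩)⟩
  z k c := ⟨bigSol.z k c, mem_alg (Or.inr (Or.inl ⟨(k, c), rfl⟩))⟩
  s a := ⟨bigSol.s a, mem_alg (Or.inr (Or.inr (Or.inl ⟨a, rfl⟩)))⟩
  v := ⟨bigSol.v, mem_alg (Or.inr (Or.inr (Or.inr rfl)))⟩

theorem norm_sub_le_zero {R : Type*} [SeminormedAddCommGroup R] {a b : R} (h : a = b) :
    ‖a - b‖ ≤ 0 := by
  rw [h, sub_self, norm_zero]

theorem norm_pop_le (f : Idx → Idx) (hf : Function.Injective f) : ‖pop f hf‖ ≤ 1 :=
  LinearIsometry.norm_toContinuousLinearMap_le _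

theorem sol_rel : Rel 0 sol := by
  refine ⟨⟨fun i c => norm_pop_le (lift (gx i c)) (lift_injective (gx_injective i c)),
    fun k c => norm_pop_le (lift (gz k c)) (lift_injective (gz_injective k c)),
    fun i c => norm_sub_le_zero (Subtype.ext
      (star_pop_mul_self (lift (gx i c)) (lift_injective (gx_injective i c)))),
    fun k c => norm_sub_le_zero (Subtype.ext
      (star_pop_mul_self (lift (gz k c)) (lift_injective (gz_injective k c)))),
    fun i c d => ?_, fun k c d => ?_, fun k c d => ?_, fun k c e => ?_, fun k d e => ?_,
    fun c d => ?_, fun c d => ?_⟩, fun a => norm_pop_le (lift (a :: ·)) (pre_injective a), norm_pop_le root root_injective,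
    fun a b => ?_,
    norm_sub_le_zero (Subtype.ext (star_pop_mul_self root root_injective)), fun i c => ?_,
    fun c a => ?_,
    fun c a => ?_, fun c a => ?_, fun c a => ?_⟩
  all_goals refine norm_sub_le_zero (Subtype.ext ?_)
  rotate_left 7
  · split_ifs with h
    · subst h; exact star_pop_mul_self (lift (a :: ·)) (pre_injective a)
    · exact star_pop_mul_eq_zero (pre_injective a) (pre_injective b) fun p q hpq =>
        h (List.cons.inj (congrArg Prod.fst hpq)).1
  all_goals
    refine pop_ext fun p => ?_
    simp only [sol, bigSol, MulMemClass.coe_mul, ContinuousLinearMap.mul_def,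
      ContinuousLinearMap.comp_apply, pop_bv]
    refine congrArg bv (Prod.ext ?_ rfl)
  · exact gx_nil i c
  · rfl
  · rfl
  · exact gsecC c a p.1
  · rfl
  · exact gx_add i c d p.1
  · exact gz_add k c d p.1
  · exact gheis k c d p.1
  · exact gzfst k c e p.1
  · exact gzsnd k d e p.1
  · exact gcommAT c d p.1
  · exact gcommCT c d p.1

end

end Vale.P083.Model

namespace Vale.P083

/-- M3. -/
theorem model : ModelSpec := by
  have : Nontrivial (Model.Hs Model.Idx) :=
    ⟨Model.bv ([], 0), 0, Model.bv_orthonormal.ne_zero _⟩
  exact ⟨Model.alg, inferInstance, inferInstance, inferInstance, Model.sol, Model.sol_rel⟩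

end Vale.P083
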