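import Vale.Agent.P083.Spec

/-!
# P083, M5: finite windows in an algebra generated by a Cuntz pair

Every element of the closed star algebra generated by a Cuntz pair `t` is, up to `ε`, intertwined
with a scalar matrix by the isometry `ξ ↦ L^(-1/2) (t_μ^* ξ)_{|μ| < L}`.
-/

namespace Vale.P083

open scoped ComplexConjugate
open ContinuousLinearMap

noncomputable section

variable {H : Type} [NormedAddCommGroup H] [InnerProductSpace ℂ H] [CompleteSpace H]
  {t : Fin 2 → (H →L[ℂ] H)}

/-- The product of the generators along a word. -/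
def tw (t : Fin 2 → (H →L[ℂ] H)) (μ : List (Fin 2)) : H →L[ℂ] H := (μ.map t).prod

@[simp] lemma tw_nil : tw t [] = 1 := rfl

lemma tw_cons (i : Fin 2) (μ : List (Fin 2)) : tw t (i :: μ) = t i * tw t μ := by simp [tw]

lemma tw_append (α β : List (Fin 2)) : tw t (α ++ β) = tw t α * tw t β := by simp [tw]

lemma pair_mul (ht : IsCuntzPair t) (i j : Fin 2) :
    star (t i) * t j = if i = j then 1 else 0 := by
  have h01 : star (t 0) * t 1 = 0 := by
    have h := congrArg (fun u => star (t 0) * u * t 1) ht.sum_range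
    simp only [mul_add, add_mul, ← mul_assoc, ht.iso, one_mul, mul_one] at h
    rw [mul_assoc _ (star (t 1)), ht.iso, mul_one] at h
    simpa using h
  fin_cases i <;> fin_cases j <;> simp [ht.iso, h01]
  simpa using congrArg star h01

lemma tw_iso (ht : IsCuntzPair t) (α : List (Fin 2)) : star (tw t α) * tw t α = 1 := by
  induction α with
  | nil => simp
  | cons i α ih =>
    rw [tw_cons, star_mul, mul_assoc, ← mul_assoc (star (t i)), ht.iso, one_mul, ih]

lemma tw_star_mul (ht : IsCuntzPair t) (β γ : List (Fin 2)) :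
    star (tw t β) * tw t γ = 0 ∨
      (∃ ρ, γ = β ++ ρ ∧ star (tw t β) * tw t γ = tw t ρ) ∨
      ∃ ρ, β = γ ++ ρ ∧ star (tw t β) * tw t γ = star (tw t ρ) := by
  induction β generalizing γ with
  | nil => exact Or.inr (Or.inl ⟨γ, by simp, by simp⟩)
  | cons i β ih =>
    cases γ with
    | nil => exact Or.inr (Or.inr ⟨i :: β, by simp, by simp⟩)
    | cons j γ =>
      have h : star (tw t (i :: β)) * tw t (j :: γ) =
          if i = j then star (tw t β) * tw t γ else 0 := by
        rw [tw_cons, tw_cons, star_mul, mul_assoc, ← mul_assoc (star (t i)), pair_mul ht]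
        split <;> simp
      rw [h]
      split
      · subst j
        rcases ih γ with h | ⟨ρ, rfl, h⟩ | ⟨ρ, rfl, h⟩
        · exact Or.inl h
        · exact Or.inr (Or.inl ⟨ρ, rfl, h⟩)
        · exact Or.inr (Or.inr ⟨ρ, rfl, h⟩)
      · exact Or.inl rfl

lemma norm_le_one_of_iso {u : H →L[ℂ] H} (h : star u * u = 1) : ‖u‖ ≤ 1 := by
  refine u.opNorm_le_bound zero_le_one fun ξ => ?_
  have h2 : ‖u ξ‖ ^ 2 = ‖ξ‖ ^ 2 := by
    rw [u.apply_norm_sq_eq_inner_adjoint_left ξ, ← star_eq_adjoint, ← ContinuousLinearMap.mul_def, h]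
    simp [inner_self_eq_norm_sq_to_K, ← Complex.ofReal_pow]
  rw [one_mul]
  exact le_of_eq ((sq_eq_sq₀ (norm_nonneg _) (norm_nonneg _)).1 h2)

/-- Monomials `t_α t_β^*`. -/
def mono (t : Fin 2 → (H →L[ℂ] H)) (p : List (Fin 2) × List (Fin 2)) : H →L[ℂ] H :=
  tw t p.1 * star (tw t p.2)

lemma norm_mono_le (ht : IsCuntzPair t) (p : List (Fin 2) × List (Fin 2)) : ‖mono t p‖ ≤ 1 := by
  refine (norm_mul_le _ _).trans ?_
  rw [norm_star]
  exact mul_le_one₀ (norm_le_one_of_iso (tw_iso ht _)) (norm_nonneg _)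
    (norm_le_one_of_iso (tw_iso ht _))

lemma star_mono (p : List (Fin 2) × List (Fin 2)) : star (mono t p) = mono t p.swap := by
  simp [mono]

lemma adjoin_le_span (ht : IsCuntzPair t) {y : H →L[ℂ] H}
    (hy : y ∈ StarAlgebra.adjoin ℂ (Set.range t)) :
    y ∈ Submodule.span ℂ (Set.range (mono t)) := by
  induction hy using StarAlgebra.adjoin_induction with
  | mem x hx =>
    obtain ⟨i, rfl⟩ := hx
    exact Submodule.subset_span ⟨([i], []), by simp [mono, tw]⟩
  | algebraMap r =>
    rw [Algebra.algebraMap_eq_smul_one]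
    exact Submodule.smul_mem _ _ (Submodule.subset_span ⟨([], []), by simp [mono]⟩)
  | add a b _ _ ha hb => exact add_mem ha hb
  | mul a b hA hB ha hb =>
    clear hA hB
    induction ha using Submodule.span_induction with
    | zero => simp
    | add a a' _ _ h h' => rw [add_mul]; exact add_mem h h'
    | smul c a _ h => rw [smul_mul_assoc]; exact Submodule.smul_mem _ _ h
    | mem a ha =>
      induction hb using Submodule.span_induction with
      | zero => simp
      | add b b' _ _ h h' => rw [mul_add]; exact add_mem h h'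
      | smul c b _ h => rw [mul_smul_comm]; exact Submodule.smul_mem _ _ h
      | mem b hb =>
        obtain ⟨⟨α, β⟩, rfl⟩ := ha
        obtain ⟨⟨γ, δ⟩, rfl⟩ := hb
        have e : mono t (α, β) * mono t (γ, δ) =
            tw t α * (star (tw t β) * tw t γ) * star (tw t δ) := by simp [mono, mul_assoc]
        rw [e]
        rcases tw_star_mul ht β γ with h | ⟨ρ, -, h⟩ | ⟨ρ, -, h⟩
        · simp [h]
        · exact Submodule.subset_span ⟨(α ++ ρ, δ), by simp [h, mono, tw_append]⟩
        · exact Submodule.subset_span ⟨(α, δ ++ ρ), by simp [h, mono, tw_append, mul_assoc]⟩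
  | star a hA ha =>
    clear hA
    induction ha using Submodule.span_induction with
    | zero => simp
    | add a a' _ _ h h' => rw [star_add]; exact add_mem h h'
    | smul c a _ h => rw [star_smul]; exact Submodule.smul_mem _ _ h
    | mem a ha =>
      obtain ⟨p, rfl⟩ := ha
      exact Submodule.subset_span ⟨p.swap, (star_mono p).symm⟩

lemma sum_level (ht : IsCuntzPair t) (m : ℕ) (ξ : H) :
    ∑ μ : Fin m → Fin 2, ‖star (tw t (List.ofFn μ)) ξ‖ ^ 2 = ‖ξ‖ ^ 2 := by
  induction m generalizing ξ with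
  | zero => simp
  | succ m ih =>
    have h2 : ∑ i, ‖star (t i) ξ‖ ^ 2 = ‖ξ‖ ^ 2 := by
      have e : ∀ i, ‖star (t i) ξ‖ ^ 2 = (inner ℂ ((t i * star (t i)) ξ) ξ).re := fun i => by
        rw [(star (t i)).apply_norm_sq_eq_inner_adjoint_left ξ, ← star_eq_adjoint, star_star]
        rfl
      rw [Fin.sum_univ_two, e, e, ← Complex.add_re, ← inner_add_left, ← ContinuousLinearMap.add_apply,
        ht.sum_range]
      simp [← Complex.ofReal_pow]
    rw [← (Fin.consEquiv fun _ => Fin 2).sum_comp, Fintype.sum_prod_type]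
    calc ∑ i, ∑ μ : Fin m → Fin 2, ‖star (tw t (List.ofFn (Fin.cons i μ))) ξ‖ ^ 2
        = ∑ i, ∑ μ : Fin m → Fin 2, ‖star (tw t (List.ofFn μ)) (star (t i) ξ)‖ ^ 2 := by
          simp [List.ofFn_cons, tw_cons]
      _ = ‖ξ‖ ^ 2 := by simp_rw [ih]; exact h2

/-- Words of length less than `L`. -/
abbrev Idx (L : ℕ) := Σ m : Fin L, (Fin m → Fin 2)

/-- The word of an index. -/
def wd {L : ℕ} (i : Idx L) : List (Fin 2) := List.ofFn i.2

lemma length_wd {L : ℕ} (i : Idx L) : (wd i).length = i.1 := by simp [wd]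

lemma wd_injective {L : ℕ} : Function.Injective (wd (L := L)) := by
  rintro ⟨⟨m, hm⟩, f⟩ ⟨⟨m', hm'⟩, f'⟩ h
  have hl := congrArg List.length h
  simp only [wd, List.length_ofFn] at hl
  subst hl
  simp only [wd, List.ofFn_inj] at h
  subst h
  rfl

lemma exists_wd {L : ℕ} (μ : List (Fin 2)) (h : μ.length < L) : ∃ i : Idx L, wd i = μ :=
  ⟨⟨⟨μ.length, h⟩, μ.get⟩, List.ofFn_get μ⟩

/-- The window coordinate of index `i`. -/
def coord (t : Fin 2 → (H →L[ℂ] H)) {L : ℕ} (i : Idx L) : H →L[ℂ] H :=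
  (((√(L : ℝ))⁻¹ : ℝ) : ℂ) • star (tw t (wd i))

lemma norm_sq_coord {L : ℕ} (i : Idx L) (ξ : H) :
    ‖coord t i ξ‖ ^ 2 = (L : ℝ)⁻¹ * ‖star (tw t (wd i)) ξ‖ ^ 2 := by
  rw [coord, ContinuousLinearMap.smul_apply, norm_smul, mul_pow, Complex.norm_real,
    Real.norm_eq_abs, sq_abs, inv_pow, Real.sq_sqrt (Nat.cast_nonneg L)]

lemma sum_levels (ht : IsCuntzPair t) {L : ℕ} (b : Fin L → Prop) [DecidablePred b] (ξ : H) :
    ∑ i : Idx L, (if b i.1 then ‖coord t i ξ‖ ^ 2 else 0) =
      ((Finset.univ.filter b).card : ℝ) / L * ‖ξ‖ ^ 2 := by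
  rw [Fintype.sum_sigma]
  have e : ∀ m : Fin L, ∑ μ : Fin m → Fin 2, (if b m then ‖coord t ⟨m, μ⟩ ξ‖ ^ 2 else 0) =
      if b m then (L : ℝ)⁻¹ * ‖ξ‖ ^ 2 else 0 := fun m => by
    split
    · rw [← sum_level ht m ξ, Finset.mul_sum]
      exact Finset.sum_congr rfl fun μ _ => norm_sq_coord ⟨m, μ⟩ ξ
    · simp
  simp only [e]
  rw [Finset.sum_ite, Finset.sum_const, Finset.sum_const_zero, add_zero, nsmul_eq_mul]
  ring

lemma sum_coord (ht : IsCuntzPair t) {L : ℕ} (hL : 0 < L) (ξ : H) :
    ∑ i : Idx L, ‖coord t i ξ‖ ^ 2 = ‖ξ‖ ^ 2 := by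
  have h := sum_levels ht (fun _ : Fin L => True) ξ
  simpa [Nat.cast_ne_zero.2 hL.ne'] using h

/-- The matrix of a monomial: `(α γ, β γ)` entries are `1`. -/
def ent {L : ℕ} (p : List (Fin 2) × List (Fin 2)) (i j : Idx L) : ℂ :=
  if wd i = p.1 ++ (wd i).drop p.1.length ∧ wd j = p.2 ++ (wd i).drop p.1.length then 1 else 0

lemma ent_swap {L : ℕ} (p : List (Fin 2) × List (Fin 2)) (i j : Idx L) :
    ent p.swap i j = ent p j i := by
  have key : ∀ (α β μ ν : List (Fin 2)), (μ = α ++ μ.drop α.length ∧ ν = β ++ μ.drop α.length) →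
      (ν = β ++ ν.drop β.length ∧ μ = α ++ ν.drop β.length) := by
    rintro α β μ ν ⟨h1, h2⟩
    have e : ν.drop β.length = μ.drop α.length := by rw [h2]; simp
    rw [e]
    exact ⟨h2, h1⟩
  simp only [ent, Prod.fst_swap, Prod.snd_swap]
  exact if_congr ⟨key _ _ _ _, key _ _ _ _⟩ rfl rfl

lemma conj_ent {L : ℕ} (p : List (Fin 2) × List (Fin 2)) (i j : Idx L) :
    conj (ent p i j) = ent p i j := by
  simp [ent, apply_ite]

/-- Bad levels for a monomial. -/
def Bad {L : ℕ} (p : List (Fin 2) × List (Fin 2)) (m : Fin L) : Prop :=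
  (m : ℕ) < p.1.length ∨ L + p.1.length ≤ (m : ℕ) + p.2.length

instance {L : ℕ} (p : List (Fin 2) × List (Fin 2)) : DecidablePred (Bad (L := L) p) := fun m => by
  unfold Bad; infer_instance

lemma card_bad {L : ℕ} (p : List (Fin 2) × List (Fin 2)) :
    (Finset.univ.filter (Bad (L := L) p)).card ≤ p.1.length + p.2.length := by
  have h := Finset.card_le_card_of_injOn (s := Finset.univ.filter (Bad (L := L) p))
    (t := Finset.range p.1.length ∪ Finset.Ico (L - p.2.length) L) (fun m : Fin L => (m : ℕ))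
    (fun m hm => by
      simp only [Finset.coe_filter, Finset.mem_univ, true_and, Set.mem_setOf_eq, Bad] at hm
      simp only [Finset.coe_union, Finset.coe_range, Finset.coe_Ico, Set.mem_union, Set.mem_Iio,
        Set.mem_Ico]
      omega)
    Fin.val_injective.injOn
  refine h.trans ((Finset.card_union_le _ _).trans ?_)
  simp only [Finset.card_range, Nat.card_Ico]
  omega

lemma ent_intertwine (ht : IsCuntzPair t) {L : ℕ} (p : List (Fin 2) × List (Fin 2)) (i : Idx L)
    (ξ : H) :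
    ∑ j, ent p i j • coord t j ξ =
      if Bad p i.1 then 0 else coord t i (mono t p ξ) := by
  obtain ⟨α, β⟩ := p
  have hc : coord t i (mono t (α, β) ξ) = (((√(L : ℝ))⁻¹ : ℝ) : ℂ) •
      ((star (tw t (wd i)) * tw t α) * star (tw t β)) ξ := by
    simp [coord, mono]
  by_cases hp : wd i = α ++ (wd i).drop α.length
  · set γ := (wd i).drop α.length with hγ
    have hl : (i.1 : ℕ) = α.length + γ.length := by
      rw [← length_wd i, hp]; simp
    by_cases hb : L + α.length ≤ (i.1 : ℕ) + β.length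
    · rw [if_pos (show Bad (α, β) i.1 from Or.inr hb)]
      refine Finset.sum_eq_zero fun j _ => ?_
      rw [ent, if_neg, zero_smul]
      rintro ⟨-, hj⟩
      have := congrArg List.length hj
      simp only [length_wd, List.length_append] at this
      have := j.1.isLt
      simp only [← hγ] at *
      omega
    · rw [if_neg (show ¬ Bad (α, β) i.1 by simp only [Bad]; omega)]
      obtain ⟨j₀, hj₀⟩ := exists_wd (L := L) (β ++ γ) (by simp only [List.length_append]; omega)
      rw [Finset.sum_eq_single j₀]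
      · rw [ent, if_pos ⟨hp, by rw [hj₀]⟩, one_smul, hc, coord, hj₀, hp]
        simp only [tw_append, star_mul]
        rw [mul_assoc (star (tw t γ)) (star (tw t α)), tw_iso ht, mul_one]
        simp
      · intro j _ hj
        rw [ent, if_neg, zero_smul]
        rintro ⟨-, h⟩
        exact hj (wd_injective (h.trans hj₀.symm))
      · simp
  · have h0 : ∑ j, ent (α, β) i j • coord t j ξ = 0 :=
      Finset.sum_eq_zero fun j _ => by rw [ent, if_neg (fun h => hp h.1), zero_smul]
    rw [h0]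
    split
    · rfl
    · next hb =>
      simp only [Bad, not_or, not_lt, not_le] at hb
      rcases tw_star_mul ht (wd i) α with h | ⟨ρ, hρ, h⟩ | ⟨ρ, hρ, -⟩
      · rw [hc, h]; simp
      · have hle := hb.1
        rw [← length_wd i, hρ, List.length_append] at hle
        have : ρ = [] := List.eq_nil_of_length_eq_zero (by omega)
        subst this
        exact absurd (by simp [hρ]) hp
      · exact absurd (by rw [hρ]; simp) hp

/-- The window map into square summable tuples. -/
def win (t : Fin 2 → (H →L[ℂ] H)) (L : ℕ) (ξ : H) : L2 (Idx L) H :=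
  WithLp.toLp 2 fun i => coord t i ξ

lemma norm_win (ht : IsCuntzPair t) {L : ℕ} (hL : 0 < L) (ξ : H) : ‖win t L ξ‖ = ‖ξ‖ := by
  rw [← sq_eq_sq₀ (norm_nonneg _) (norm_nonneg _), PiLp.norm_sq_eq_of_L2]
  exact sum_coord ht hL ξ

/-- The matrix of a combination of monomials. -/
def comat {L : ℕ} (c : (List (Fin 2) × List (Fin 2)) →₀ ℂ) (i j : Idx L) : ℂ :=
  c.sum fun p r => r * ent p i j

/-- The image of the window under the matrix. -/
def matWin {L : ℕ} (t : Fin 2 → (H →L[ℂ] H)) (a : Idx L → Idx L → ℂ) (ξ : H) : L2 (Idx L) H :=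
  WithLp.toLp 2 fun i => ∑ j, a i j • coord t j ξ

lemma comat_err (ht : IsCuntzPair t) {L : ℕ} (c : (List (Fin 2) × List (Fin 2)) →₀ ℂ) (ξ : H) :
    ‖matWin t (comat c) ξ - win t L (c.sum (fun p r => r • mono t p) ξ)‖ ≤
      (∑ p ∈ c.support, ‖c p‖ * √(((p.1.length + p.2.length : ℕ) : ℝ) / L)) * ‖ξ‖ := by
  classical
  have e : matWin t (comat c) ξ - win t L (c.sum (fun p r => r • mono t p) ξ) =
      ∑ p ∈ c.support, c p • -(WithLp.toLp 2 fun i : Idx L =>
        if Bad p i.1 then coord t i (mono t p ξ) else 0) := by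
    ext i
    simp only [matWin, win, PiLp.sub_apply, WithLp.ofLp_sum, Finset.sum_apply, PiLp.smul_apply,
      PiLp.neg_apply]
    simp only [comat, Finsupp.sum, Finset.sum_smul, mul_smul]
    rw [Finset.sum_comm]
    simp only [← Finset.smul_sum, ent_intertwine ht]
    simp only [ContinuousLinearMap.sum_apply, ContinuousLinearMap.smul_apply, map_sum, map_smul]
    rw [← Finset.sum_sub_distrib]
    refine Finset.sum_congr rfl fun p _ => ?_
    rw [← smul_sub]
    congr 1
    split <;> simp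
  rw [e, Finset.sum_mul]
  refine (norm_sum_le _ _).trans (Finset.sum_le_sum fun p _ => ?_)
  rw [norm_smul, norm_neg, mul_assoc]
  refine mul_le_mul_of_nonneg_left ?_ (norm_nonneg _)
  rw [← sq_le_sq₀ (norm_nonneg _) (by positivity), PiLp.norm_sq_eq_of_L2, mul_pow,
    Real.sq_sqrt (by positivity)]
  have h : ∀ i : Idx L, ‖(if Bad p i.1 then coord t i (mono t p ξ) else 0)‖ ^ 2 =
      if Bad p i.1 then ‖coord t i (mono t p ξ)‖ ^ 2 else 0 := fun i => by split <;> simp
  simp only [h, sum_levels ht]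
  refine mul_le_mul ?_ ?_ (by positivity) (by positivity)
  · exact div_le_div_of_nonneg_right (by exact_mod_cast card_bad p) (by positivity)
  · refine pow_le_pow_left₀ (norm_nonneg _) ((le_opNorm _ _).trans ?_) 2
    exact mul_le_of_le_one_left (norm_nonneg _) (norm_mono_le ht p)

lemma win_sub {L : ℕ} (ξ ζ : H) : win t L ξ - win t L ζ = win t L (ξ - ζ) := by
  ext i; simp [win]

lemma window : WindowSpec := by
  intro H _ _ _ t ht ι _ y hy ε hε
  classical
  cases nonempty_fintype ι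
  have happ : ∀ k, ∃ c : (List (Fin 2) × List (Fin 2)) →₀ ℂ,
      ‖y k - c.sum (fun p r => r • mono t p)‖ < ε / 2 := fun k => by
    have hk := hy k
    rw [← SetLike.mem_coe, StarSubalgebra.topologicalClosure_coe, Metric.mem_closure_iff] at hk
    obtain ⟨z, hz, hd⟩ := hk (ε / 2) (half_pos hε)
    obtain ⟨c, hc⟩ := Finsupp.mem_span_range_iff_exists_finsupp.1 (adjoin_le_span ht hz)
    exact ⟨c, by rwa [hc, ← dist_eq_norm]⟩
  choose c hc using happ
  let M : ℝ := ∑ k, ∑ p ∈ (c k).support, ‖c k p‖ * √((p.1.length + p.2.length : ℕ) : ℝ)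
  obtain ⟨L, hL0, hLM⟩ : ∃ L : ℕ, 0 < L ∧ M ≤ ε / 2 * √(L : ℝ) := by
    refine ⟨⌈(M / (ε / 2)) ^ 2⌉₊ + 1, Nat.succ_pos _, ?_⟩
    rw [mul_comm, ← div_le_iff₀ (half_pos hε)]
    refine Real.le_sqrt_of_sq_le ?_
    push_cast
    linarith [Nat.le_ceil ((M / (ε / 2)) ^ 2)]
  have hsL : 0 < √(L : ℝ) := Real.sqrt_pos.2 (by exact_mod_cast hL0)
  have main : ∀ (d : (List (Fin 2) × List (Fin 2)) →₀ ℂ) (z : H →L[ℂ] H),
      ‖z - d.sum (fun p r => r • mono t p)‖ < ε / 2 →
      (∑ p ∈ d.support, ‖d p‖ * √((p.1.length + p.2.length : ℕ) : ℝ)) ≤ M →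
      ∀ ξ, ‖matWin t (comat d) ξ - win t L (z ξ)‖ ≤ ε * ‖ξ‖ := by
    intro d z hz hd ξ
    refine (norm_sub_le_norm_sub_add_norm_sub _ (win t L (d.sum (fun p r => r • mono t p) ξ)) _).trans ?_
    have h1 := comat_err ht (L := L) d ξ
    have h2 : ‖win t L (d.sum (fun p r => r • mono t p) ξ) - win t L (z ξ)‖ ≤ ε / 2 * ‖ξ‖ := by
      rw [win_sub, norm_win ht hL0, ← norm_neg, neg_sub, ← ContinuousLinearMap.sub_apply]
      exact (le_opNorm _ _).trans (mul_le_mul_of_nonneg_right hz.le (norm_nonneg _))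
    have h3 : (∑ p ∈ d.support, ‖d p‖ * √(((p.1.length + p.2.length : ℕ) : ℝ) / L)) ≤ ε / 2 := by
      simp only [Real.sqrt_div (Nat.cast_nonneg _), mul_div_assoc', ← Finset.sum_div]
      rw [div_le_iff₀ hsL]
      exact hd.trans hLM
    nlinarith [norm_nonneg ξ, mul_le_mul_of_nonneg_right h3 (norm_nonneg ξ)]
  have hMk : ∀ k, (∑ p ∈ (c k).support, ‖c k p‖ * √((p.1.length + p.2.length : ℕ) : ℝ)) ≤ M :=
    fun k => Finset.single_le_sum (f := fun k => ∑ p ∈ (c k).support,
      ‖c k p‖ * √((p.1.length + p.2.length : ℕ) : ℝ))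
      (fun _ _ => Finset.sum_nonneg fun _ _ => by positivity) (Finset.mem_univ k)
  let e := (Fintype.equivFin (Idx L)).symm
  have tr : ∀ (a : Idx L → Idx L → ℂ) (z : H →L[ℂ] H) (ξ : H),
      ‖matWin t a ξ - win t L (z ξ)‖ ≤ ε * ‖ξ‖ →
      ∑ i, ‖(∑ j, a (e i) (e j) • coord t (e j) ξ) - coord t (e i) (z ξ)‖ ^ 2 ≤
        ε ^ 2 * ‖ξ‖ ^ 2 := by
    intro a z ξ h
    rw [← mul_pow]
    refine le_trans (le_of_eq ?_) (pow_le_pow_left₀ (norm_nonneg _) h 2)
    rw [PiLp.norm_sq_eq_of_L2, ← e.sum_comp (fun i => ‖(matWin t a ξ - win t L (z ξ)) i‖ ^ 2)]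
    refine Finset.sum_congr rfl fun i _ => ?_
    simp [matWin, win, e.sum_comp (fun j => a (e i) j • coord t j ξ)]
  refine ⟨Fintype.card (Idx L), fun i => coord t (e i), fun k i j => comat (c k) (e i) (e j),
    fun ξ => ?_, fun k ξ => tr (comat (c k)) (y k) ξ (main _ _ (hc k) (hMk k) ξ), fun k ξ => ?_⟩
  · rw [e.sum_comp (fun i => ‖coord t i ξ‖ ^ 2), sum_coord ht hL0]
  · let d : (List (Fin 2) × List (Fin 2)) →₀ ℂ :=
      ((c k).mapRange conj (map_zero _)).equivMapDomain (Equiv.prodComm _ _)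
    have hsum : ∀ {N : Type} [AddCommMonoid N] (g : (List (Fin 2) × List (Fin 2)) → ℂ → N),
        (∀ p, g p 0 = 0) → d.sum g = (c k).sum fun p r => g p.swap (conj r) := by
      intro N _ g hg
      simp only [d, Finsupp.sum_equivMapDomain]
      rw [Finsupp.sum_mapRange_index (fun p => hg _)]
      rfl
    have hd1 : star (c k |>.sum fun p r => r • mono t p) = d.sum fun p r => r • mono t p := by
      rw [hsum _ (by simp)]
      simp [Finsupp.sum, star_sum, star_mono]
    have hd2 : (∑ p ∈ d.support, ‖d p‖ * √((p.1.length + p.2.length : ℕ) : ℝ)) ≤ M := by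
      refine le_trans (le_of_eq ?_) (hMk k)
      change d.sum (fun p r => ‖r‖ * √((p.1.length + p.2.length : ℕ) : ℝ)) = _
      rw [hsum _ (by simp)]
      simp [Finsupp.sum, add_comm]
    have hd3 : ∀ i j : Idx L, comat d i j = conj (comat (c k) j i) := fun i j => by
      rw [comat, hsum _ (by simp)]
      simp [comat, Finsupp.sum, map_sum, ent_swap, conj_ent]
    have := tr (comat d) (star (y k)) ξ
      (main d _ (by rw [← hd1, ← star_sub, norm_star]; exact hc k) hd2 ξ)
    simpa [hd3] using this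

end

end Vale.P083
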