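import Vale.Agent.P083.Obstruction
import Vale.Agent.P083.Lifts
import Vale.Agent.P083.Gap
import Vale.Agent.P083.Dual
import Vale.Agent.P083.Levels
import Vale.Agent.P083.Window
import Vale.Agent.P083.Model
import Vale.Agent.P083.CuntzPair

/-!
# P083 M7c: no unital homomorphism into ultrapowers of algebras generated by a Cuntz pair
-/

namespace Vale.P083

open Filter Topology

/-- The statement without any definition of ours, from the endgame. -/
theorem no_hom_of_endgame (hE : EndgameSpec) :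
    (∃ (H : Type) (_ : NormedAddCommGroup H) (_ : InnerProductSpace ℂ H) (_ : CompleteSpace H),
      Nontrivial H ∧ TopologicalSpace.SeparableSpace H ∧
      ∃ s₁ s₂ : H →L[ℂ] H, star s₁ * s₁ = 1 ∧ star s₂ * s₂ = 1 ∧
        s₁ * star s₁ + s₂ * star s₂ = 1) ∧
    ∃ (A : Type) (_ : CStarAlgebra A), TopologicalSpace.SeparableSpace A ∧ Nontrivial A ∧
      ∀ (H : Type) [NormedAddCommGroup H] [InnerProductSpace ℂ H] [CompleteSpace H] [Nontrivial H]
        (s₁ s₂ : H →L[ℂ] H), star s₁ * s₁ = 1 → star s₂ * s₂ = 1 →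
        s₁ * star s₁ + s₂ * star s₂ = 1 →
        ∀ (ω : Ultrafilter ℕ) (φ : A → ℕ → (H →L[ℂ] H)),
          (∀ a n, φ a n ∈
            (StarAlgebra.adjoin ℂ ({s₁, s₂} : Set (H →L[ℂ] H))).topologicalClosure) →
          (∀ a, ∃ M : ℝ, ∀ n, ‖φ a n‖ ≤ M) →
          (∀ a b, Tendsto (fun n => ‖φ (a + b) n - (φ a n + φ b n)‖) ω (𝓝 0)) →
          (∀ (c : ℂ) a, Tendsto (fun n => ‖φ (c • a) n - c • φ a n‖) ω (𝓝 0)) →
          (∀ a b, Tendsto (fun n => ‖φ (a * b) n - φ a n * φ b n‖) ω (𝓝 0)) →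
          (∀ a, Tendsto (fun n => ‖φ (star a) n - star (φ a n)‖) ω (𝓝 0)) →
          Tendsto (fun n => ‖φ 1 n - 1‖) ω (𝓝 0) → False := by
  constructor
  · obtain ⟨H, i1, i2, i3, h1, h2, t, ht⟩ := CuntzPair.exists_pair
    exact ⟨H, i1, i2, i3, h1, h2, t 0, t 1, ht.iso 0, ht.iso 1, ht.sum_range⟩
  obtain ⟨A, iA, hsep, hnt, S, hS⟩ := model
  refine ⟨A, iA, hsep, hnt, ?_⟩
  intro H _ _ _ _ s₁ s₂ h₁ h₂ h₁₂ ω φ hmem _ hadd _ hmul hstar hone
  obtain ⟨η, hη, hno⟩ :=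
    no_solution window (levels Gap.gapReset grelLevel) hE grelLevel
  haveI : Nontrivial (H →L[ℂ] H) := by
    obtain ⟨v, hv⟩ := exists_ne (0 : H)
    exact nontrivial_of_ne 1 0 fun h => hv (by simpa using congrArg (fun T : H →L[ℂ] H => T v) h)
  have hφ : AsympHom (ω : Filter ℕ) φ := ⟨hadd, hmul, hstar, hone⟩
  obtain ⟨n, hn⟩ := (hφ.eventually_rel hS hη).exists
  have ht : IsCuntzPair ![s₁, s₂] := ⟨fun i => by fin_cases i <;> simpa, by simpa using h₁₂⟩
  have hr : Set.range ![s₁, s₂] = ({s₁, s₂} : Set (H →L[ℂ] H)) := by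
    simp [Matrix.range_cons, Matrix.range_empty, Set.pair_comm]
  refine hno H ![s₁, s₂] ht _ hn fun i c => ?_
  rw [hr]
  exact SMulMemClass.smul_mem _ (hmem _ n)

end Vale.P083
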