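import Vale.Agent.P083.Spec
import Vale.Agent.P083.Mop

/-!
# P083 M7a: no approximate solution inside an algebra generated by a Cuntz pair
-/

namespace Vale.P083

open scoped ComplexConjugate

variable {H : Type} [NormedAddCommGroup H] [InnerProductSpace ℂ H] [CompleteSpace H]

/-- Almost invariant vectors survive the passage to a window. -/
lemma push_window {W : Type} [Fintype W] {d : ℕ} (P : Fin d → (H →L[ℂ] H))
    (hP : ∀ ξ, ∑ i, ‖P i ξ‖ ^ 2 = ‖ξ‖ ^ 2) (x : H →L[ℂ] H) (M : Fin d → Fin d → ℂ) (e : ℝ)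
    (hM : ∀ ξ, ∑ i, ‖(∑ j, M i j • P j ξ) - P i (x ξ)‖ ^ 2 ≤ e ^ 2 * ‖ξ‖ ^ 2)
    (π : W ≃ W) (φ : W → ℂ) (hφ : ∀ b, ‖φ b‖ = 1) (v : L2 W H) :
    ∑ b, ∑ j, ‖φ (π.symm b) • (∑ l, M j l • P l (v (π.symm b))) - P j (v b)‖ ^ 2 ≤
      2 * e ^ 2 * ‖v‖ ^ 2 + 2 * ‖mop π φ x v - v‖ ^ 2 := by
  have key : ∀ b, ∑ j, ‖φ (π.symm b) • (∑ l, M j l • P l (v (π.symm b))) - P j (v b)‖ ^ 2 ≤
      2 * (e ^ 2 * ‖v (π.symm b)‖ ^ 2) + 2 * ‖(mop π φ x v - v) b‖ ^ 2 := by
    intro b
    rw [← hP ((mop π φ x v - v) b)]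
    refine le_trans (Finset.sum_le_sum fun j _ => ?_)
      ((Finset.sum_add_distrib).trans_le (add_le_add
        ((Finset.mul_sum _ _ _).symm.trans_le (mul_le_mul_of_nonneg_left
          (hM (v (π.symm b))) (by norm_num : (0 : ℝ) ≤ 2)))
        (Finset.mul_sum _ _ _).ge))
    have e1 : φ (π.symm b) • (∑ l, M j l • P l (v (π.symm b))) - P j (v b) =
        φ (π.symm b) • ((∑ l, M j l • P l (v (π.symm b))) - P j (x (v (π.symm b)))) +
          P j ((mop π φ x v - v) b) := by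
      rw [PiLp.sub_apply, mop_apply, map_sub, map_smul, smul_sub]
      abel
    rw [e1]
    refine (pow_le_pow_left₀ (norm_nonneg _) (norm_add_le _ _) 2).trans ?_
    rw [norm_smul, hφ, one_mul]
    exact (add_sq_le).trans_eq (mul_add _ _ _)
  refine (Finset.sum_le_sum fun b _ => key b).trans (le_of_eq ?_)
  rw [Finset.sum_add_distrib, ← Finset.mul_sum, ← Finset.mul_sum, ← Finset.mul_sum,
    Equiv.sum_comp π.symm fun b => ‖v b‖ ^ 2, ← norm_sq_L2, ← norm_sq_L2, mul_assoc]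

omit [CompleteSpace H] in
/-- Choosing one scalar coordinate of a vector valued family. -/
lemma exists_coord {ι κ : Type} [Fintype ι] [Fintype κ] (g : ι → H) (hg : ∑ i, ‖g i‖ ^ 2 = 1)
    (T : κ → ι → ι → ℂ) (R : ℝ)
    (hT : ∀ k, ∑ i, ‖(∑ l, T k i l • g l) - g i‖ ^ 2 ≤ R) :
    ∃ f : ι → ℂ, 0 < ∑ i, ‖f i‖ ^ 2 ∧ ∀ k,
      ∑ i, ‖(∑ l, T k i l * f l) - f i‖ ^ 2 ≤ Fintype.card κ * R * ∑ i, ‖f i‖ ^ 2 := by
  classical
  haveI : FiniteDimensional ℂ (Submodule.span ℂ (Set.range g)) :=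
    FiniteDimensional.span_of_finite ℂ (Set.finite_range g)
  set K := Submodule.span ℂ (Set.range g) with hK
  set e := stdOrthonormalBasis ℂ K
  have hgK : ∀ i, g i ∈ K := fun i => Submodule.subset_span (Set.mem_range_self i)
  set f : Fin (Module.finrank ℂ K) → ι → ℂ := fun m i => inner ℂ (e m : H) (g i) with hf
  have par : ∀ w ∈ K, ∑ m, ‖inner ℂ (e m : H) w‖ ^ 2 = ‖w‖ ^ 2 := fun w hw => by
    have := e.sum_sq_norm_inner_right (⟨w, hw⟩ : K)
    simpa using this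
  have h1 : ∑ m, ∑ i, ‖f m i‖ ^ 2 = 1 := by
    rw [Finset.sum_comm, ← hg]
    exact Finset.sum_congr rfl fun i _ => par _ (hgK i)
  have h2 : ∀ k, ∑ m, ∑ i, ‖(∑ l, T k i l * f m l) - f m i‖ ^ 2 ≤ R := by
    intro k
    refine le_of_eq_of_le ?_ (hT k)
    rw [Finset.sum_comm]
    refine Finset.sum_congr rfl fun i _ => ?_
    rw [← par _ (K.sub_mem (K.sum_mem fun l _ => K.smul_mem _ (hgK l)) (hgK i))]
    simp [hf, inner_sub_right, inner_sum, inner_smul_right]
  by_contra hc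
  push Not at hc
  have hm : ∀ m, (Fintype.card κ * R) * ∑ i, ‖f m i‖ ^ 2 ≤
      ∑ k, ∑ i, ‖(∑ l, T k i l * f m l) - f m i‖ ^ 2 := by
    intro m
    rcases (Finset.sum_nonneg fun i _ => sq_nonneg ‖f m i‖).eq_or_lt with h0 | h0
    · rw [← h0, mul_zero]
      exact Finset.sum_nonneg fun k _ => Finset.sum_nonneg fun i _ => sq_nonneg _
    · obtain ⟨k, hk⟩ := hc (f m) h0
      exact hk.le.trans (Finset.single_le_sum (f := fun k =>
        ∑ i, ‖(∑ l, T k i l * f m l) - f m i‖ ^ 2)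
        (fun k _ => Finset.sum_nonneg fun i _ => sq_nonneg _) (Finset.mem_univ k))
  obtain ⟨m₀, -, hm₀⟩ : ∃ m ∈ Finset.univ, (0 : ℝ) < ∑ i, ‖f m i‖ ^ 2 :=
    Finset.exists_lt_of_sum_lt (by rw [h1]; simp)
  obtain ⟨k₀, hk₀⟩ := hc (f m₀) hm₀
  have hlt : ∑ m, (Fintype.card κ * R) * ∑ i, ‖f m i‖ ^ 2 <
      ∑ m, ∑ k, ∑ i, ‖(∑ l, T k i l * f m l) - f m i‖ ^ 2 :=
    Finset.sum_lt_sum (fun m _ => hm m) ⟨m₀, Finset.mem_univ _, hk₀.trans_le
      (Finset.single_le_sum (f := fun k => ∑ i, ‖(∑ l, T k i l * f m₀ l) - f m₀ i‖ ^ 2)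
        (fun k _ => Finset.sum_nonneg fun i _ => sq_nonneg _) (Finset.mem_univ k₀))⟩
  rw [← Finset.mul_sum, h1, mul_one, Finset.sum_comm] at hlt
  have := hlt.trans_le (Finset.sum_le_sum fun k _ => h2 k)
  simp at this

/-- The window operator attached to a matrix. -/
noncomputable abbrev winOp {d : ℕ} (M : Matrix (Fin d) (Fin d) ℂ) :
    EuclideanSpace ℂ (Fin d) →L[ℂ] EuclideanSpace ℂ (Fin d) :=
  Matrix.toEuclideanCLM (n := Fin d) (𝕜 := ℂ) M

lemma winOp_apply {d : ℕ} (M : Matrix (Fin d) (Fin d) ℂ) (u : EuclideanSpace ℂ (Fin d))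
    (j : Fin d) : winOp M u j = ∑ l, M j l * u l := by
  simp [winOp, Matrix.mulVec, dotProduct]

/-- Square of the displacement of a scalar vector by a monomial window operator. -/
lemma norm_sq_scalar {W : Type} [Fintype W] {d : ℕ} (π : W ≃ W) (φ : W → ℂ)
    (M : Matrix (Fin d) (Fin d) ℂ) (u : L2 W (EuclideanSpace ℂ (Fin d))) :
    ‖mop π φ (winOp M) u - u‖ ^ 2 =
      ∑ b, ∑ j, ‖φ (π.symm b) * (∑ l, M j l * u (π.symm b) l) - u b j‖ ^ 2 := by
  rw [norm_sq_L2]
  refine Finset.sum_congr rfl fun b _ => ?_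
  rw [EuclideanSpace.norm_sq_eq]
  simp [mop_apply, winOp_apply]

lemma sum_delta {W : Type} [Fintype W] [DecidableEq W] {d : ℕ} {E : Type*} [AddCommMonoid E]
    [Module ℂ E] (b₀ : W) (r : ℂ) (M : Fin d → ℂ) (g : W × Fin d → E) :
    ∑ l, (if l.1 = b₀ then r * M l.2 else 0) • g l = r • ∑ l, M l • g (b₀, l) := by
  rw [Fintype.sum_prod_type]
  simp [Finset.smul_sum, smul_smul, ite_smul, Finset.sum_ite_eq']

/-- A uniform obstruction. -/
theorem no_solution (hW : WindowSpec) (hV : LevelsSpec) (hE : EndgameSpec) (hL : GRelLevelSpec) :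
    ∃ η > (0 : ℝ),
      ∀ (H : Type) [NormedAddCommGroup H] [InnerProductSpace ℂ H] [CompleteSpace H] [Nontrivial H]
        (t : Fin 2 → (H →L[ℂ] H)), IsCuntzPair t →
        ∀ S : Sol (H →L[ℂ] H), Rel η S →
          (∀ i c, S.x i c ∈ (StarAlgebra.adjoin ℂ (Set.range t)).topologicalClosure) → False := by
  classical
  obtain ⟨ε, hε, hend⟩ := hE
  obtain ⟨η₀, hη₀, hlev⟩ := hV ((ε / 40) ^ 2) (by positivity)
  refine ⟨min η₀ (ε / 40), by positivity, ?_⟩
  intro H _ _ _ _ t ht S hS hmem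
  obtain ⟨d, P, M, hP, hM, hMs⟩ :=
    hW H t ht (Fin 4 × F) (fun k => S.x k.1 k.2) (fun k => hmem k.1 k.2) (ε / 20) (by positivity)
  obtain ⟨n, hn⟩ := hend d
  have hS₀ : Rel η₀ S :=
    { hS with
      grp :=
        { hS.grp with
          iso_x := fun i c => (hS.grp.iso_x i c).trans (min_le_left _ _)
          iso_z := fun i c => (hS.grp.iso_z i c).trans (min_le_left _ _)
          add_x := fun i c c' => (hS.grp.add_x i c c').trans (min_le_left _ _)
          add_z := fun i c c' => (hS.grp.add_z i c c').trans (min_le_left _ _)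
          heis := fun i c c' => (hS.grp.heis i c c').trans (min_le_left _ _)
          zfst := fun i c c' => (hS.grp.zfst i c c').trans (min_le_left _ _)
          zsnd := fun i c c' => (hS.grp.zsnd i c c').trans (min_le_left _ _)
          commAT := fun c c' => (hS.grp.commAT c c').trans (min_le_left _ _)
          commCT := fun c c' => (hS.grp.commCT c c').trans (min_le_left _ _) }
      orth := fun a b => (hS.orth a b).trans (min_le_left _ _)
      iso_v := hS.iso_v.trans (min_le_left _ _)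
      fix_v := fun i c => (hS.fix_v i c).trans (min_le_left _ _)
      secA := fun c a => (hS.secA c a).trans (min_le_left _ _)
      secB := fun c a => (hS.secB c a).trans (min_le_left _ _)
      secC := fun c a => (hS.secC c a).trans (min_le_left _ _)
      secT := fun c a => (hS.secT c a).trans (min_le_left _ _) }
  obtain ⟨v, hv, hd⟩ := hlev H S hS₀ n
  have hU := (hL H _ S.x S.z hS.grp n).1
  have hfw : ∀ k : Fin 4 × F, ‖Ux n S.x k.1 k.2 v - v‖ ≤ ε / 40 := fun k => by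
    refine (sq_le_sq₀ (norm_nonneg _) (by positivity)).1 (le_trans ?_ hd)
    exact (Finset.single_le_sum (f := fun c => ‖Ux n S.x k.1 c v - v‖ ^ 2)
      (fun c _ => sq_nonneg _) (Finset.mem_univ k.2)).trans
      (Finset.single_le_sum (f := fun i => ∑ c, ‖Ux n S.x i c v - v‖ ^ 2)
        (fun i _ => Finset.sum_nonneg fun c _ => sq_nonneg _) (Finset.mem_univ k.1))
  have hbw : ∀ k : Fin 4 × F, ‖star (Ux n S.x k.1 k.2) v - v‖ ≤ ε / 20 := fun k => by
    set U := Ux n S.x k.1 k.2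
    have e1 : star U v - v = star U (v - U v) + (star U * U - 1) v := by
      simp [map_sub]
    rw [e1]
    refine (norm_add_le _ _).trans ?_
    have h1 := (star U).le_of_opNorm_le ((norm_star U).trans_le (hU.norm_x k.1 k.2)) (v - U v)
    have h2 := (star U * U - 1).le_of_opNorm_le (hU.iso_x k.1 k.2) v
    rw [hv, mul_one] at h2
    rw [one_mul, norm_sub_rev] at h1
    linarith [hfw k, min_le_right η₀ (ε / 40)]
  have hφ : ∀ k : Fin 4 × F, ∀ b, ‖conj (ph n k.1 k.2 ((perm n k.1 k.2).symm b))‖ = 1 := fun k b => by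
    rw [RCLike.norm_conj, norm_ph]
  -- the two kinds of window operators
  let πs : (Fin 4 × F) ⊕ (Fin 4 × F) → (W n ≃ W n) :=
    Sum.elim (fun k => perm n k.1 k.2) (fun k => (perm n k.1 k.2).symm)
  let φs : (Fin 4 × F) ⊕ (Fin 4 × F) → W n → ℂ :=
    Sum.elim (fun k => ph n k.1 k.2) (fun k b => conj (ph n k.1 k.2 ((perm n k.1 k.2).symm b)))
  let Ms : (Fin 4 × F) ⊕ (Fin 4 × F) → Matrix (Fin d) (Fin d) ℂ :=
    Sum.elim M (fun k => star (M k))
  let g : W n × Fin d → H := fun p => P p.2 (v p.1)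
  have hg : ∑ p, ‖g p‖ ^ 2 = 1 := by
    rw [Fintype.sum_prod_type, Finset.sum_congr rfl fun b _ => hP (v b), ← norm_sq_L2, hv, one_pow]
  let T : (Fin 4 × F) ⊕ (Fin 4 × F) → W n × Fin d → W n × Fin d → ℂ := fun k p l =>
    if l.1 = (πs k).symm p.1 then φs k ((πs k).symm p.1) * Ms k p.2 l.2 else 0
  have hT : ∀ k, ∑ p, ‖(∑ l, T k p l • g l) - g p‖ ^ 2 ≤ ε ^ 2 / 100 := by
    intro k
    rw [Fintype.sum_prod_type]
    simp only [T, sum_delta]
    rcases k with k | k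
    · refine (push_window P hP (S.x k.1 k.2) (M k) (ε / 20) (hM k) (perm n k.1 k.2)
        (ph n k.1 k.2) (norm_ph n k.1 k.2) v).trans ?_
      have := pow_le_pow_left₀ (norm_nonneg _) (hfw k) 2
      rw [hv]
      change ‖mop _ _ _ v - v‖ ^ 2 ≤ _ at this
      linarith [sq_nonneg ε]
    · refine (push_window P hP (star (S.x k.1 k.2)) (fun i j => conj (M k j i)) (ε / 20) (hMs k)
        (perm n k.1 k.2).symm (fun b => conj (ph n k.1 k.2 ((perm n k.1 k.2).symm b))) (hφ k) v).trans ?_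
      have h := hbw k
      rw [Ux, star_mop] at h
      have := pow_le_pow_left₀ (norm_nonneg _) h 2
      rw [hv]
      linarith [sq_nonneg ε]
  obtain ⟨f, hf, hfT⟩ := exists_coord g hg T (ε ^ 2 / 100) hT
  let u : L2 (W n) (EuclideanSpace ℂ (Fin d)) :=
    WithLp.toLp 2 fun b => WithLp.toLp 2 fun j => f (b, j)
  have hu : ‖u‖ ^ 2 = ∑ p, ‖f p‖ ^ 2 := by
    rw [norm_sq_L2, Fintype.sum_prod_type]
    exact Finset.sum_congr rfl fun b _ => EuclideanSpace.norm_sq_eq _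
  have hu0 : 0 < ‖u‖ := by
    rcases (norm_nonneg u).eq_or_lt with h | h
    · rw [← hu, ← h] at hf; norm_num at hf
    · exact h
  have hdisp : ∀ k, ‖mop (πs k) (φs k) (winOp (Ms k)) u - u‖ ≤ ε * ‖u‖ := by
    intro k
    refine (sq_le_sq₀ (norm_nonneg _) (by positivity)).1 ?_
    rw [norm_sq_scalar]
    have h := hfT k
    rw [Fintype.sum_prod_type] at h
    simp only [T, ← smul_eq_mul (a := ite _ _ _), sum_delta] at h
    simp only [smul_eq_mul] at h
    refine le_trans h ?_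
    rw [← hu, mul_pow]
    have hc : (Fintype.card ((Fin 4 × F) ⊕ (Fin 4 × F)) : ℝ) = 88 := by
      simp [Fintype.card_sum, Fintype.card_prod]
    rw [hc]
    nlinarith [sq_nonneg ‖u‖, sq_nonneg ε]
  let w : L2 (W n) (EuclideanSpace ℂ (Fin d)) := ((‖u‖⁻¹ : ℝ) : ℂ) • u
  have hw : ‖w‖ = 1 := by
    simp only [w, norm_smul, Complex.norm_real, Real.norm_eq_abs, abs_inv, abs_norm]
    exact inv_mul_cancel₀ hu0.ne'
  have hdw : ∀ k, ‖mop (πs k) (φs k) (winOp (Ms k)) w - w‖ ≤ ε := fun k => by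
    simp only [w, map_smul, ← smul_sub, norm_smul, Complex.norm_real, Real.norm_eq_abs, abs_inv,
      abs_norm]
    rw [inv_mul_le_iff₀ hu0]
    linarith [hdisp k]
  refine hn (fun i c => winOp (M (i, c))) w hw (fun i c => hdw (Sum.inl (i, c))) fun i c => ?_
  rw [Ux, star_mop, ← map_star]
  exact hdw (Sum.inr (i, c))

end Vale.P083
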