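import Vale.Agent.P083.Defs

/-!
# P083: interface between the modules

Each `Prop` below is proved in its own module; they are combined in `Main`.
-/

namespace Vale.P083

open scoped ComplexConjugate
open ContinuousLinearMap

/-- M1: the spectral gap resets displacements to any prescribed size. -/
def GapResetSpec : Prop :=
  ∃ θ > (0 : ℝ), ∀ δ > (0 : ℝ), ∃ η > (0 : ℝ),
    ∀ (H : Type) [NormedAddCommGroup H] [InnerProductSpace ℂ H] [CompleteSpace H]
      (x z : Fin 4 → F → (H →L[ℂ] H)), GRel η x z →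
      ∀ v : H, ‖v‖ = 1 → disp x v ≤ θ → ∃ w : H, ‖w‖ = 1 ∧ disp x w ≤ δ

/-- M1: for exact relations almost invariant vectors are close to invariant vectors. -/
def GapExactSpec : Prop :=
  ∀ ε > (0 : ℝ), ∃ θ > (0 : ℝ),
    ∀ (H : Type) [NormedAddCommGroup H] [InnerProductSpace ℂ H] [CompleteSpace H]
      (x z : Fin 4 → F → (H →L[ℂ] H)), GRel 0 x z →
      ∀ v : H, disp x v ≤ θ * ‖v‖ ^ 2 →
        ∃ w : H, (∀ i c, x i c w = w) ∧ ‖v - w‖ ≤ ε * ‖v‖

/-- M2: tensoring with level `n`, or with its conjugate, keeps the relations. -/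
def GRelLevelSpec : Prop :=
  ∀ (H : Type) [NormedAddCommGroup H] [InnerProductSpace ℂ H] [CompleteSpace H]
    (η : ℝ) (x z : Fin 4 → F → (H →L[ℂ] H)), GRel η x z → ∀ n : ℕ,
      GRel η (Ux n x) (Uz n z) ∧
      GRel η (fun i c => mop (perm n i c) (fun b => conj (ph n i c b)) (x i c))
        (fun k c => mop (permz n k c) (fun b => conj (phz n k c b)) (z k c))

/-- M2: invariant kernels on level `n` are diagonal and spread over orbits of size `> n`. -/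
def OrbitSpec : Prop :=
  ∀ (n : ℕ) (I : W n → W n → ℂ),
    (∀ i c b b', I (perm n i c b) (perm n i c b') =
      ph n i c b * conj (ph n i c b') * I b b') →
    (∀ b b', b ≠ b' → I b b' = 0) ∧
      ∀ b, ((n : ℝ) + 1) * ‖I b b‖ ^ 2 ≤ ∑ b', ‖I b' b'‖ ^ 2

/-- M3: a separable unital C*-algebra with an exact solution. -/
def ModelSpec : Prop :=
  ∃ (A : Type) (_ : CStarAlgebra A),
    TopologicalSpace.SeparableSpace A ∧ Nontrivial A ∧ ∃ S : Sol A, Rel 0 S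

/-- M4: an approximate solution has almost invariant vectors at every level. -/
def LevelsSpec : Prop :=
  ∀ δ > (0 : ℝ), ∃ η > (0 : ℝ),
    ∀ (H : Type) [NormedAddCommGroup H] [InnerProductSpace ℂ H] [CompleteSpace H]
      [Nontrivial H] (S : Sol (H →L[ℂ] H)), Rel η S →
      ∀ n : ℕ, ∃ u : L2 (W n) H, ‖u‖ = 1 ∧ disp (Ux n S.x) u ≤ δ

/-- M5: finitely many elements of an algebra generated by a Cuntz pair have finite windows. -/
def WindowSpec : Prop :=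
  ∀ (H : Type) [NormedAddCommGroup H] [InnerProductSpace ℂ H] [CompleteSpace H]
    (t : Fin 2 → (H →L[ℂ] H)), IsCuntzPair t →
    ∀ (ι : Type) [Finite ι] (y : ι → (H →L[ℂ] H)),
      (∀ k, y k ∈ (StarAlgebra.adjoin ℂ (Set.range t)).topologicalClosure) →
      ∀ ε > (0 : ℝ), ∃ (d : ℕ) (P : Fin d → (H →L[ℂ] H))
        (a : ι → Matrix (Fin d) (Fin d) ℂ),
        (∀ ξ, ∑ i, ‖P i ξ‖ ^ 2 = ‖ξ‖ ^ 2) ∧
        (∀ k ξ, ∑ i, ‖(∑ j, a k i j • P j ξ) - P i (y k ξ)‖ ^ 2 ≤ ε ^ 2 * ‖ξ‖ ^ 2) ∧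
        (∀ k ξ, ∑ i, ‖(∑ j, conj (a k j i) • P j ξ) - P i (star (y k) ξ)‖ ^ 2 ≤
          ε ^ 2 * ‖ξ‖ ^ 2)

/-- M6: bounded multiplicity admits no almost invariant vector at high levels. -/
def EndgameSpec : Prop :=
  ∃ ε > (0 : ℝ), ∀ d : ℕ, ∃ n : ℕ,
    ∀ (a : Fin 4 → F → (EuclideanSpace ℂ (Fin d) →L[ℂ] EuclideanSpace ℂ (Fin d)))
      (u : L2 (W n) (EuclideanSpace ℂ (Fin d))), ‖u‖ = 1 →
      (∀ i c, ‖Ux n a i c u - u‖ ≤ ε) → (∀ i c, ‖star (Ux n a i c) u - u‖ ≤ ε) → False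

end Vale.P083
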