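import Mathlib

/-!
# P083: the vocabulary of the hand-in's statement
-/

namespace Vale.P083

open Filter Topology

variable {B : Type} [CStarAlgebra B]

/-- `s₁, s₂` are isometries with `s₁ s₁* + s₂ s₂* = 1`. -/
def CuntzRelations (s₁ s₂ : B) : Prop :=
  star s₁ * s₁ = 1 ∧ star s₂ * s₂ = 1 ∧ s₁ * star s₁ + s₂ * star s₂ = 1

/-- The norm-closed unital star subalgebra generated by `s₁, s₂`. -/
def genAlgebra (s₁ s₂ : B) : StarSubalgebra ℂ B :=
  (StarAlgebra.adjoin ℂ ({s₁, s₂} : Set B)).topologicalClosure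

/-- `φ` is asymptotically additive, homogeneous, multiplicative, star preserving and unit
preserving along `ω`. -/
def IsAsymptoticStarHom {A : Type} [CStarAlgebra A] (ω : Ultrafilter ℕ) (φ : A → ℕ → B) : Prop :=
  (∀ a b, Tendsto (fun n => ‖φ (a + b) n - (φ a n + φ b n)‖) ω (𝓝 0)) ∧
  (∀ (c : ℂ) a, Tendsto (fun n => ‖φ (c • a) n - c • φ a n‖) ω (𝓝 0)) ∧
  (∀ a b, Tendsto (fun n => ‖φ (a * b) n - φ a n * φ b n‖) ω (𝓝 0)) ∧
  (∀ a, Tendsto (fun n => ‖φ (star a) n - star (φ a n)‖) ω (𝓝 0)) ∧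
  Tendsto (fun n => ‖φ 1 n - 1‖) ω (𝓝 0)

/-- `φ` has values in `O`, is bounded at each element and is an asymptotic star homomorphism:
the lift of a unital star homomorphism into the norm ultrapower of `O` along `ω`. -/
def IsUltrapowerHomLift {A : Type} [CStarAlgebra A] (O : StarSubalgebra ℂ B) (ω : Ultrafilter ℕ)
    (φ : A → ℕ → B) : Prop :=
  (∀ a n, φ a n ∈ O) ∧ (∀ a, ∃ M : ℝ, ∀ n, ‖φ a n‖ ≤ M) ∧ IsAsymptoticStarHom ω φ

end Vale.P083
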